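import Crest.Agent.R298.Cand

/-! Row 298. The model when the component has no odd closed walk. -/

set_option autoImplicit false

namespace Crest.Agent.R298
open Crest.LogicCS.PTS Crest.LogicCS.PTS.Term

namespace Bip

variable {P : Spec ℕ} {s₀ : ℕ}

/-- The candidate generated by a set. -/
def cl (P : Spec ℕ) (T : Tm) (Y : Set Tm) : Set Tm :=
  {M | ∀ X, Cand P T X → Y ∩ SNT P T ⊆ X → M ∈ X}

theorem cl_mono (T : Tm) {Y Y' : Set Tm} (h : Y ⊆ Y') : cl P T Y ⊆ cl P T Y' :=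
  fun _ hM X hX hY => hM X hX ((Set.inter_subset_inter_left _ h).trans hY)

theorem cand_cl (T : Tm) (Y : Set Tm) : Cand P T (cl P T Y) :=
  ⟨fun _ hM => hM _ (cand_snt T) Set.inter_subset_right,
    fun M hM hn _ hX _ => hX.neu M hM hn,
    fun A M N ts hA hN hT h X hX hY => hX.exp A M N ts hA hN hT (h X hX hY)⟩

theorem cl_eq {T : Tm} {Y : Set Tm} (h : Cand P T Y) : cl P T Y = Y :=
  Set.Subset.antisymm (fun _ hM => hM _ h Set.inter_subset_left) fun _ hM _ _ hY => hY ⟨hM, h.le hM⟩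

/-- The product clause with `X` for domains and `Y` for codomains. -/
def step (P : Spec ℕ) (s₀ : ℕ) (X Y : Tm → Set Tm) (T : Tm) : Set Tm :=
  {F | F ∈ SNT P T ∧ (¬ LowT P s₀ T → ∀ A B, nf T = .pi A B → ∀ N ∈ cl P A (X A),
    Term.app F N ∈ cl P (inst N B) (Y (inst N B)))}

theorem step_mono {X X' Y Y' : Tm → Set Tm} (hX : X' ≤ X) (hY : Y ≤ Y') :
    step P s₀ X Y ≤ step P s₀ X' Y' := fun _ _ hF =>
  ⟨hF.1, fun h A B e N hN => cl_mono _ (hY _) (hF.2 h A B e N (cl_mono _ (hX _) hN))⟩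

theorem cand_step (X Y : Tm → Set Tm) (T : Tm) : Cand P T (step P s₀ X Y T) := by
  by_cases h : ¬ LowT P s₀ T ∧ ∃ A B, nf T = .pi A B
  · obtain ⟨h, A, B, e⟩ := h
    have hc : Conv (.pi A B) T := e ▸ conv_symm (conv_nf T)
    have := (cand_pi (P := P) (B := B) (cand_cl A (X A)).le (fun _ (_ : Unit) => True)
      (fun N _ => cl P (inst N B) (Y (inst N B))) fun N _ _ _ => cand_cl _ _).conv hc
    convert this using 1
    ext F
    rw [snt_conv hc]
    refine and_congr_right fun _ => ⟨fun h1 N hN _ _ => h1 h A B e N hN, fun h1 _ A' B' e' N hN => ?_⟩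
    rw [e] at e'
    cases e'
    exact h1 N hN () trivial
  · convert cand_snt (P := P) T using 1
    exact Set.Subset.antisymm (fun _ hF => hF.1) fun F hF =>
      ⟨hF, fun h1 A B e => absurd ⟨h1, A, B, e⟩ h⟩

/-- The two interpretations, each using the other one for domains. -/
structure Fix (P : Spec ℕ) (s₀ : ℕ) (C : Bool → Tm → Set Tm) : Prop where
  cand : ∀ e T, Cand P T (C e T)
  mem : ∀ e T F, F ∈ C e T ↔ F ∈ SNT P T ∧ (¬ LowT P s₀ T → ∀ A B, nf T = .pi A B →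
    ∀ N ∈ C (!e) A, Term.app F N ∈ C e (inst N B))

theorem exists_fix (P : Spec ℕ) (s₀ : ℕ) : ∃ C, Fix P s₀ C := by
  let Φ : (Tm → Set Tm) × (Tm → Set Tm)ᵒᵈ →o (Tm → Set Tm) × (Tm → Set Tm)ᵒᵈ :=
    ⟨fun x => (step P s₀ (OrderDual.ofDual x.2) x.1,
      OrderDual.toDual (step P s₀ x.1 (OrderDual.ofDual x.2))),
      fun x y h => ⟨step_mono h.2 h.1, step_mono h.1 h.2⟩⟩
  let C : Bool → Tm → Set Tm := fun e => cond e Φ.lfp.1 (OrderDual.ofDual Φ.lfp.2)
  have h1 : ∀ e, C e = step P s₀ (C (!e)) (C e) := by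
    rintro (_ | _)
    · exact (congrArg (fun x => OrderDual.ofDual x.2) Φ.map_lfp).symm
    · exact (congrArg Prod.fst Φ.map_lfp).symm
  have h2 : ∀ e T, Cand P T (C e T) := fun e T => by
    rw [h1]
    exact cand_step _ _ T
  refine ⟨C, h2, fun e T F => ?_⟩
  conv_lhs => rw [h1]
  simp only [step, cl_eq (h2 _ _), Set.mem_setOf_eq]

variable {C : Bool → Tm → Set Tm}

theorem Fix.low (h : Fix P s₀ C) {T : Tm} (hT : LowT P s₀ T) (e : Bool) : C e T = SNT P T :=
  Set.Subset.antisymm (h.cand e T).le fun F hF => (h.mem e T F).2 ⟨hF, fun h1 => absurd hT h1⟩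

theorem Fix.congr (h : Fix P s₀ C) {T T' : Tm} (hT : nf T = nf T') (e : Bool) :
    C e T = C e T' := by
  have hc : Conv T T' := conv_trans (conv_nf T) (hT ▸ conv_symm (conv_nf T'))
  ext F
  rw [h.mem, h.mem, hT, snt_conv hc, lowT_conv hc]

theorem Fix.pi (h : Fix P s₀ C) (hP : Hyp P) {Γ : List Tm} {z : ℕ → Tm} {A B : Tm} {a b t : ℕ}
    (hz : TSub P Set.univ [] Γ z) (hA : Ty P Set.univ Γ A (srt a))
    (hB : Ty P Set.univ (A :: Γ) B (srt b)) (hr : P.rule a b t) (e : Bool) (F : Tm) :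
    F ∈ C e (sub z (.pi A B)) ↔ F ∈ SNT P (sub z (.pi A B)) ∧ (¬ LowT P s₀ (sub z (.pi A B)) →
      ∀ N ∈ C (!e) (sub z A), Term.app F N ∈ C e (sub (scons N z) B)) := by
  have hw : WN (sub z (.pi A B)) := hP.ty_wn Wf.nil ((hA.prod hB hr).subT hz)
  have e1 := h.congr (nf_nf (sub z A))
  have e2 : ∀ N ∈ C (!e) (sub z A),
      C e (inst N (nf (sub (up z) B))) = C e (sub (scons N z) B) := fun N hN => by
    have h1 := hB.subT (hz.cons (((h.cand _ _).le hN).2.ty (hA.subT hz)))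
    refine (h.congr (nf_congr ?_ (hP.ty_wn Wf.nil h1)) e).symm
    rw [← inst_sub_up]
    exact conv_inst (conv_refl N) (conv_nf _)
  rw [h.mem]
  refine and_congr_right fun _ => imp_congr_right fun _ => ?_
  rw [sub_pi] at hw ⊢
  rw [nf_pi hw]
  constructor
  · intro h1 N hN
    rw [← e2 N hN]
    exact h1 _ _ rfl N (by rwa [e1])
  · intro h1 A' B' e' N hN
    cases e'
    rw [e1] at hN
    rw [e2 N hN]
    exact h1 N hN

variable {col : ℕ → Bool}

/-- A type with sorts of both colours has one interpretation. -/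
theorem Fix.both (h : Fix P s₀ C) (hP : Hyp P)
    (hcol : ∀ a b c, LRule P a b c → InS P s₀ c →
      (InS P s₀ b → col b = col c) ∧ (InS P s₀ a → col a = !col c))
    (T : Tm) : ∀ {Γ : List Tm} {z : ℕ → Tm} {t t' : ℕ}, Normal T → Wf P Set.univ Γ →
      TSub P Set.univ [] Γ z → Ty P Set.univ Γ T (srt t) → Ty P Set.univ Γ T (srt t') →
      InS P s₀ t ∨ Low P s₀ t → InS P s₀ t' ∨ Low P s₀ t' →
      (InS P s₀ t → InS P s₀ t' → col t ≠ col t') → ∀ e e', C e (sub z T) = C e' (sub z T) := by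
  have aux : ∀ {T : Tm} {Γ : List Tm} {z : ℕ → Tm} {t t' : ℕ}, TSub P Set.univ [] Γ z →
      Ty P Set.univ Γ T (srt t) → Ty P Set.univ Γ T (srt t') →
      InS P s₀ t ∨ Low P s₀ t → InS P s₀ t' ∨ Low P s₀ t' →
      (InS P s₀ t → InS P s₀ t' → col t ≠ col t') →
      (InS P s₀ t → InS P s₀ t' → col t ≠ col t' → ∀ e e', C e (sub z T) = C e' (sub z T)) →
      ∀ e e', C e (sub z T) = C e' (sub z T) := by
    intro T Γ z t t' hz ht ht' h1 h2 h3 h4 e e'
    rcases h1 with h1 | h1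
    · rcases h2 with h2 | h2
      · exact h4 h1 h2 (h3 h1 h2) e e'
      · rw [h.low (.of_ty (ht'.subT hz) h2), h.low (.of_ty (ht'.subT hz) h2)]
    · rw [h.low (.of_ty (ht.subT hz) h1), h.low (.of_ty (ht.subT hz) h1)]
  have uniq : ∀ {T : Tm} {Γ : List Tm} {t t' : ℕ}, (∃ i, head T = .var i) ∨ (∃ n, head T = cst n) →
      Ty P Set.univ Γ T (srt t) → Ty P Set.univ Γ T (srt t') → ¬ col t ≠ col t' :=
    fun hh ht ht' hne => hne (congrArg col (conv_srt_inj (Ty.unique hh ht ht')))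
  induction T with
  | var i =>
    intro Γ z t t' _ _ hz ht ht' h1 h2 h3
    exact aux hz ht ht' h1 h2 h3 fun _ _ hne => absurd hne (uniq (Or.inl ⟨i, rfl⟩) ht ht')
  | sort s =>
    intro Γ z t t' _ _ _ _ _ _ _ _ e e'
    ext F
    rw [h.mem, h.mem, sub_sort, nf_sort]
    exact and_congr_right fun _ => imp_congr_right fun _ =>
      ⟨fun _ _ _ e => (by cases e), fun _ _ _ e => (by cases e)⟩
  | app M N _ _ =>
    intro Γ z t t' hn _ hz ht ht' h1 h2 h3
    refine aux hz ht ht' h1 h2 h3 fun _ _ hne => absurd hne (uniq ?_ ht ht')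
    rcases ht.normal_cases hn with ⟨_, _, e⟩ | ⟨_, _, e⟩ | ⟨_, e⟩ | h4
    · cases e
    · cases e
    · cases e
    · exact h4
  | lam A M _ _ =>
    intro Γ z t t' _ _ _ ht
    exact absurd (conv_refl _) ht.lam_not_srt
  | pi A B ihA ihB =>
    intro Γ z t t' hn hΓ hz ht ht' h1 h2 h3
    refine aux hz ht ht' h1 h2 h3 fun hi hi' hne e e' => ?_
    obtain ⟨a, b, hA, hB, hr⟩ := ht.gen_pi_srt
    obtain ⟨a', b', hA', hB', hr'⟩ := ht'.gen_pi_srt
    have l := lrule_of_ty hP hΓ hA hB hr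
    have l' := lrule_of_ty hP hΓ hA' hB' hr'
    have e1 := ihA (normal_pi_iff.1 hn).1 hΓ hz hA hA' (hi.dom l) (hi'.dom l') fun ha ha' => by
      rw [(hcol _ _ _ l hi).2 ha, (hcol _ _ _ l' hi').2 ha']
      exact fun h4 => hne (Bool.not_inj h4)
    have e2 : ∀ N ∈ C (!e) (sub z A), C e (sub (scons N z) B) = C e' (sub (scons N z) B) :=
      fun N hN => ihB (normal_pi_iff.1 hn).2 (hΓ.cons hA)
        (hz.cons (((h.cand _ _).le hN).2.ty (hA.subT hz))) hB hB' (hi.cod l) (hi'.cod l')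
        (fun hb hb' => by rwa [(hcol _ _ _ l hi).1 hb, (hcol _ _ _ l' hi').1 hb']) e e'
    ext F
    rw [h.pi hP hz hA hB hr, h.pi hP hz hA hB hr, e1 (!e') (!e)]
    exact and_congr_right fun _ => imp_congr_right fun _ =>
      forall₂_congr fun N hN => by rw [e2 N hN]

open Classical in
/-- The interpretation of a closed normal type. -/
noncomputable def val (P : Spec ℕ) (s₀ : ℕ) (C : Bool → Tm → Set Tm) (col : ℕ → Bool) (V : Tm) :
    Set Tm :=
  if h : ∃ t, InS P s₀ t ∧ Ty P Set.univ [] V (srt t) then C (col h.choose) V else SNT P V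

theorem Fix.cand_val (h : Fix P s₀ C) (U : Tm) : Cand P U (val P s₀ C col (nf U)) := by
  refine Cand.conv ?_ (conv_symm (conv_nf U))
  unfold val
  split_ifs
  · exact h.cand _ _
  · exact cand_snt _

theorem Fix.low_val (h : Fix P s₀ C) {U : Tm} (hU : LowT P s₀ U) :
    val P s₀ C col (nf U) = SNT P U := by
  rw [snt_conv (conv_nf U)]
  unfold val
  split_ifs
  · exact h.low ((lowT_conv (conv_nf U)).1 hU) _
  · rfl

theorem Fix.val_eq (h : Fix P s₀ C) (hP : Hyp P)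
    (hcol : ∀ a b c, LRule P a b c → InS P s₀ c →
      (InS P s₀ b → col b = col c) ∧ (InS P s₀ a → col a = !col c))
    {U : Tm} {t : ℕ} {e : Bool} (hU : Ty P Set.univ [] U (srt t)) (ht : InS P s₀ t ∨ Low P s₀ t)
    (he : InS P s₀ t → col t = e) : val P s₀ C col (nf U) = C e U := by
  rcases ht with ht | ht
  · have h1 : ∃ t, InS P s₀ t ∧ Ty P Set.univ [] (nf U) (srt t) := ⟨t, ht, hU.nfT Wf.nil⟩
    rw [val, dif_pos h1, ← he ht, ← h.congr (nf_nf U)]
    by_cases h2 : col h1.choose = col t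
    · rw [h2]
    · have := h.both hP hcol (nf U) (normal_nf (hP.ty_wn Wf.nil hU)) Wf.nil (TSub.nil Term.var)
        h1.choose_spec.2 (hU.nfT Wf.nil) (Or.inl h1.choose_spec.1) (Or.inl ht) fun _ _ => h2
      rw [sub_id] at this
      exact this _ _
  · rw [h.low_val (.of_ty hU ht), h.low (.of_ty hU ht)]

end Bip

theorem exists_model_bip {P : Spec ℕ} {s₀ : ℕ} (hP : Hyp P) (h : ¬ OddS P s₀) :
    Nonempty (Model.{0} P s₀) := by
  obtain ⟨col, hcol⟩ := exists_col h
  obtain ⟨C, hC⟩ := Bip.exists_fix P s₀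
  refine ⟨{
    Ent := Tm
    tm := fun x => x
    D := fun T z => Bip.val P s₀ C col (nf (sub z T))
    Adm := fun N _ e => e = N
    Good := fun Γ z => TSub P Set.univ [] Γ z
    good_nil := ⟨Term.var, TSub.nil _⟩
    good_tsub := fun h => h
    good_neu := fun _ hz hA hN => ⟨_, conv_refl _, hz.cons (hN.ty (hA.subT hz))⟩
    good_adm := fun _ hz hA _ _ _ hN he => he ▸ hz.cons (hN.ty (hA.subT hz))
    adm_tm := fun he => conv_of_eq he
    adm_ex := fun N _ => ⟨N, rfl⟩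
    cand := fun T z => hC.cand_val _
    low := fun hT => hC.low_val hT
    pi_iff := ?_
    subst := ?_
    weak := fun T e z => by rw [sub_scons_wk] }⟩
  · intro Γ z A B t hΓ hz ht hi _ hl F
    obtain ⟨a, b, hA, hB, hr⟩ := ht.gen_pi_srt
    have l := lrule_of_ty hP hΓ hA hB hr
    change ¬ LowT P s₀ (sub z (.pi A B)) at hl
    change _ ↔ F ∈ SNT P (sub z (.pi A B)) ∧ _
    rw [hC.val_eq hP hcol (ht.subT hz) (Or.inl hi) fun _ => rfl, hC.pi hP hz hA hB hr,
      hC.val_eq hP hcol (hA.subT hz) (hi.dom l) (hcol _ _ _ l hi).2]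
    refine and_congr_right fun _ => (imp_iff_right hl).trans (forall₂_congr fun N hN => ?_)
    rw [forall_eq, hC.val_eq hP hcol (hB.subT (hz.cons (((hC.cand _ _).le hN).2.ty (hA.subT hz))))
      (hi.cod l) (hcol _ _ _ l hi).1]
  · intro Γ z A B Q N r₁ r₂ r₃ hΓ hz hA hB _ _ _ _ hQ hN
    refine ⟨N, rfl, (congrArg _ ?_).le⟩
    have h1 := hP.ty_wn Wf.nil ((hB.instT hQ).subT hz)
    rw [← nf_congr (conv_sub (fun _ => conv_refl _) (conv_nf (inst Q B))) h1]
    refine (nf_congr ?_ h1).symm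
    rw [sub_inst]
    exact conv_sub (conv_scons (conv_symm hN) fun _ => conv_refl _) (conv_refl B)

end Crest.Agent.R298
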