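import Crest.Agent.R298.Syntax

/-! Row 298. Strong normalization: accessibility, the inductive characterisation. -/

set_option autoImplicit false

namespace Crest.Agent.R298
open Crest.LogicCS.PTS Crest.LogicCS.PTS.Term

def Sn (M : Tm) : Prop := Acc (fun a b : Tm => Beta b a) M

theorem sn_iff {M : Tm} : Sn M ↔ SN M := by
  rw [Sn, acc_iff_isEmpty_descending_chain, SN, isEmpty_subtype, not_exists]

theorem Sn.beta {M N : Tm} (h : Sn M) (hb : Beta M N) : Sn N := by
  exact Acc.inv h hb

theorem Sn.red {M N : Tm} (h : Sn M) (hb : Red M N) : Sn N := by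
  induction hb with
  | refl => exact h
  | tail _ h2 ih => exact ih.beta h2

/-- A map that preserves steps reflects strong normalization. -/
theorem sn_of_map {C : Tm → Tm} (hC : ∀ a b, Beta a b → Beta (C a) (C b)) {M : Tm}
    (h : Sn (C M)) : Sn M := by
  generalize hX : C M = X at h
  induction h generalizing M with
  | intro X _ ih =>
    subst hX
    exact Acc.intro _ fun N hN => ih _ (hC _ _ hN) rfl

/-- A map that reflects steps preserves strong normalization. -/
theorem sn_map {C : Tm → Tm} (hC : ∀ a L, Beta (C a) L → ∃ b, Beta a b ∧ L = C b) {M : Tm}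
    (h : Sn M) : Sn (C M) := by
  induction h with
  | intro M _ ih =>
    refine Acc.intro _ fun L hL => ?_
    obtain ⟨N, hN, rfl⟩ := hC _ _ hL
    exact ih _ hN

theorem sn_of_sub {θ : ℕ → Tm} {M : Tm} (h : Sn (sub θ M)) : Sn M := by
  exact sn_of_map (fun _ _ => beta_sub θ) h

theorem Sn.subA {θ : ℕ → Tm} (hθ : ∀ i, Atm (θ i)) {M : Tm} (h : Sn M) : Sn (sub θ M) := by
  exact sn_map (fun _ _ => beta_sub_reflect hθ) h

theorem Sn.wkA {M : Tm} (h : Sn M) : Sn (wk M) := by
  exact sn_map (C := wk) (fun _ _ => beta_ren_reflect) h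

theorem sn_sort (s : ℕ ⊕ ℕ) : Sn (.sort s) := by
  exact Acc.intro _ fun _ h => by cases h

theorem sn_lam {A M : Tm} (hA : Sn A) (hM : Sn M) : Sn (.lam A M) := by
  induction hA generalizing M with
  | intro A hA ihA =>
    induction hM with
    | intro M hM ihM =>
      refine Acc.intro _ fun L hL => ?_
      rcases beta_lam_inv hL with ⟨A', h, rfl⟩ | ⟨M', h, rfl⟩
      · exact ihA _ h (Acc.intro _ hM)
      · exact ihM _ h

theorem sn_pi {A B : Tm} (hA : Sn A) (hB : Sn B) : Sn (.pi A B) := by
  induction hA generalizing B with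
  | intro A hA ihA =>
    induction hB with
    | intro B hB ihB =>
      refine Acc.intro _ fun L hL => ?_
      rcases beta_pi_inv hL with ⟨A', h, rfl⟩ | ⟨B', h, rfl⟩
      · exact ihA _ h (Acc.intro _ hB)
      · exact ihB _ h

theorem Sn.app_left {M N : Tm} (h : Sn (.app M N)) : Sn M := by
  exact sn_of_map (C := fun x => .app x N) (fun _ _ => Beta.appL N) h

theorem Sn.app_right {M N : Tm} (h : Sn (.app M N)) : Sn N := by
  exact sn_of_map (C := fun x => .app M x) (fun _ _ => Beta.appR M) h

theorem Sn.lam_left {A M : Tm} (h : Sn (.lam A M)) : Sn A :=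
  sn_of_map (C := fun x => .lam x M) (fun _ _ => Beta.lamA M) h

theorem Sn.lam_right {A M : Tm} (h : Sn (.lam A M)) : Sn M :=
  sn_of_map (C := fun x => .lam A x) (fun _ _ => Beta.lamM A) h

theorem Sn.pi_left {A B : Tm} (h : Sn (.pi A B)) : Sn A :=
  sn_of_map (C := fun x => .pi x B) (fun _ _ => Beta.piA B) h

theorem Sn.pi_right {A B : Tm} (h : Sn (.pi A B)) : Sn B :=
  sn_of_map (C := fun x => .pi A x) (fun _ _ => Beta.piB A) h

theorem sn_var (i : ℕ) : Sn (.var i) := Acc.intro _ fun _ h => by cases h

theorem sn_app_neu {M N : Tm} (hn : Neu M) (hM : Sn M) (hN : Sn N) : Sn (.app M N) := by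
  induction hM generalizing N with
  | intro M hM ihM =>
    induction hN with
    | intro N hN ihN =>
      refine Acc.intro _ fun L hL => ?_
      rcases beta_app_inv hL with ⟨A, B, rfl, -⟩ | ⟨M', h, rfl⟩ | ⟨N', h, rfl⟩
      · exact absurd rfl (hn A B)
      · exact ihM _ h (hn.beta h) (Acc.intro _ hN)
      · exact ihN _ h

theorem sn_apps_neu {h : Tm} {ts : List Tm} (hn : Neu h) (hh : Sn h) (hts : ∀ t ∈ ts, Sn t) :
    Sn (apps h ts) := by
  induction ts generalizing h with
  | nil => exact hh
  | cons t ts ih =>
    exact ih (h := .app h t) hn (sn_app_neu hn hh (hts t List.mem_cons_self))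
      fun u hu => hts u (List.mem_cons_of_mem _ hu)

theorem sn_app_var {M : Tm} (h : Sn M) (i : ℕ) : Sn (.app M (.var i)) := by
  induction h with
  | intro M hM ih =>
    refine Acc.intro _ fun L hL => ?_
    rcases beta_app_inv hL with ⟨A, B, rfl, rfl⟩ | ⟨M', h, rfl⟩ | ⟨N', h, -⟩
    · refine Sn.subA (fun j => ?_) (Sn.lam_right (Acc.intro _ hM))
      cases j <;> exact atm_var _
    · exact ih _ h
    · cases h

/-- A step from a spine whose first term is not an abstraction. -/
theorem sn_beta_apps_inv {h L : Tm} {ts : List Tm} (hn : ∀ A B, h ≠ .lam A B)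
    (hb : Beta (apps h ts) L) :
    (∃ h', Beta h h' ∧ L = apps h' ts) ∨
      ∃ ts', L = apps h ts' ∧ ∀ g, Beta (apps g ts) (apps g ts') := by
  induction ts generalizing h with
  | nil => exact Or.inl ⟨L, hb, rfl⟩
  | cons t ts ih =>
    rcases ih (h := .app h t) (fun _ _ e => by cases e) hb with ⟨Q, hQ, rfl⟩ | ⟨ts', rfl, H⟩
    · rcases beta_app_inv hQ with ⟨A, B, rfl, -⟩ | ⟨h', hh, rfl⟩ | ⟨t', ht, rfl⟩
      · exact absurd rfl (hn A B)
      · exact Or.inl ⟨h', hh, rfl⟩
      · exact Or.inr ⟨t' :: ts, rfl, fun g => beta_apps (Beta.appR g ht) ts⟩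
    · exact Or.inr ⟨t :: ts', rfl, fun g => H _⟩

theorem sn_red_apps {M M' : Tm} (h : Red M M') (ts : List Tm) : Red (apps M ts) (apps M' ts) := by
  induction h with
  | refl => exact .refl
  | tail _ h2 ih => exact ih.tail (beta_apps h2 ts)

/-- Head expansion. -/
theorem sn_expand {A M N : Tm} {ts : List Tm} (hA : Sn A) (hN : Sn N)
    (h : Sn (apps (inst N M) ts)) : Sn (apps (.app (.lam A M) N) ts) := by
  induction hN generalizing A M ts with
  | intro N hN ihN =>
    induction hA generalizing M ts with
    | intro A hA ihA =>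
      generalize hX : apps (inst N M) ts = X at h
      induction h generalizing M ts with
      | intro X h ih =>
        subst hX
        have h' : Sn (apps (inst N M) ts) := Acc.intro _ h
        refine Acc.intro _ fun L hL => ?_
        rcases sn_beta_apps_inv (fun _ _ e => by cases e) hL with ⟨Q, hQ, rfl⟩ | ⟨ts', rfl, H⟩
        · rcases beta_app_inv hQ with ⟨A', B, e, rfl⟩ | ⟨P, hP, rfl⟩ | ⟨N', hN', rfl⟩
          · cases e
            exact h'
          · rcases beta_lam_inv hP with ⟨A', hA', rfl⟩ | ⟨M', hM', rfl⟩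
            · exact ihA _ hA' h'
            · exact ih _ (beta_apps (beta_sub _ hM') ts) rfl
          · refine ihN _ hN' (Acc.intro _ hA) (h'.red (sn_red_apps (red_sub_left (fun j => ?_) M) ts))
            cases j with
            | zero => exact .single hN'
            | succ j => exact .refl
        · exact ih _ (H _) rfl

/-- Inductive strong normalization. -/
inductive SNi : Tm → Prop
  | var (i : ℕ) (ts : List Tm) : (∀ t ∈ ts, SNi t) → SNi (apps (.var i) ts)
  | sort (s : ℕ ⊕ ℕ) (ts : List Tm) : (∀ t ∈ ts, SNi t) → SNi (apps (.sort s) ts)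
  | pi (A B : Tm) (ts : List Tm) : SNi A → SNi B → (∀ t ∈ ts, SNi t) → SNi (apps (.pi A B) ts)
  | lam (A M : Tm) : SNi A → SNi M → SNi (.lam A M)
  | red (A M N : Tm) (ts : List Tm) : SNi A → SNi N → SNi (apps (inst N M) ts) →
      SNi (apps (.app (.lam A M) N) ts)

theorem sn_sizeOf_apps (h : Tm) (ts : List Tm) : sizeOf h ≤ sizeOf (apps h ts) := by
  induction ts generalizing h with
  | nil => exact le_rfl
  | cons t ts ih =>
    refine le_trans ?_ (ih (.app h t))
    simp only [Term.app.sizeOf_spec]
    omega

theorem sn_sni_aux {X : Tm} (hX : Sn X) : ∀ (n : ℕ) (N : Tm) (C : Tm → Tm),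
    (∀ a b, Beta a b → Beta (C a) (C b)) → C N = X → sizeOf N < n → SNi N := by
  induction hX with
  | intro X _ ihX =>
    intro n
    induction n with
    | zero => intro _ _ _ _ h; omega
    | succ n ih =>
      intro N C hC e hs
      -- a proper part of the spine
      have key : ∀ (t : Tm) (D : Tm → Tm) (vs : List Tm), (∀ a b, Beta a b → Beta (D a) (D b)) →
          sizeOf t < sizeOf (D t) → apps (D t) vs = N → SNi t := by
        intro t D vs hD ht e'
        have := sn_sizeOf_apps (D t) vs
        refine ih t (fun x => C (apps (D x) vs))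
          (fun a b hab => hC _ _ (beta_apps (hD _ _ hab) vs)) (by rw [e', e]) ?_
        rw [e'] at this
        omega
      have e0 := apps_head_args N
      have hts : ∀ t ∈ args N, SNi t := by
        intro t ht
        obtain ⟨us, vs, e1⟩ := List.append_of_mem ht
        refine key t (fun x => .app (apps (head N) us) x) vs (fun _ _ => Beta.appR _) ?_ ?_
        · simp only [Term.app.sizeOf_spec]
          omega
        · rw [← apps_cons, ← apps_append, ← e1, e0]
      have hna := head_not_app N
      generalize head N = h at e0 hna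
      generalize args N = ts at e0 hts
      cases h with
      | var i => exact e0 ▸ SNi.var i ts hts
      | sort s => exact e0 ▸ SNi.sort s ts hts
      | app A B => exact absurd rfl (hna A B)
      | pi A B =>
        refine e0 ▸ SNi.pi A B ts
          (key A (fun x => .pi x B) ts (fun _ _ => Beta.piA B) ?_ e0)
          (key B (fun x => .pi A x) ts (fun _ _ => Beta.piB A) ?_ e0) hts
        all_goals
          simp only [Term.pi.sizeOf_spec]
          omega
      | lam A M =>
        have hA : SNi A := by
          refine key A (fun x => .lam x M) ts (fun _ _ => Beta.lamA M) ?_ e0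
          simp only [Term.lam.sizeOf_spec]
          omega
        cases ts with
        | nil =>
          refine e0 ▸ SNi.lam A M hA (key M (fun x => .lam A x) [] (fun _ _ => Beta.lamM A) ?_ e0)
          simp only [Term.lam.sizeOf_spec]
          omega
        | cons t ts =>
          subst e0 e
          exact SNi.red A M t ts hA (hts t List.mem_cons_self)
            (ihX _ (hC _ _ (beta_apps (beta_redex A M t) ts)) _ _ C hC rfl (Nat.lt_succ_self _))

theorem Sn.sni {M : Tm} (h : Sn M) : SNi M := by
  exact sn_sni_aux h _ M id (fun _ _ h => h) rfl (Nat.lt_succ_self _)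

end Crest.Agent.R298
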