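import Crest.Agent.R298.Graph
import Crest.Agent.R298.SN

/-! Row 298. Typed reducibility candidates (closed terms over all constants). -/

set_option autoImplicit false

namespace Crest.Agent.R298
open Crest.LogicCS.PTS Crest.LogicCS.PTS.Term

/-- Closed typing up to conversion of the type. -/
def HasT (P : Spec ℕ) (M T : Tm) : Prop := ∃ T', Ty P Set.univ [] M T' ∧ Conv T' T

def SNT (P : Spec ℕ) (T : Tm) : Set Tm := {M | Sn M ∧ HasT P M T}

/-- `T` is convertible to a closed type whose sort is strictly below the component. -/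
def LowT (P : Spec ℕ) (s₀ : ℕ) (T : Tm) : Prop :=
  ∃ T' t, Conv T T' ∧ Ty P Set.univ [] T' (srt t) ∧ Low P s₀ t

structure Cand (P : Spec ℕ) (T : Tm) (X : Set Tm) : Prop where
  le : X ⊆ SNT P T
  neu : ∀ M ∈ SNT P T, Neu M → M ∈ X
  exp : ∀ A M N ts, Sn A → Sn N → HasT P (apps (.app (.lam A M) N) ts) T →
    apps (inst N M) ts ∈ X → apps (.app (.lam A M) N) ts ∈ X

/-- Strong normalization is closed under application when the domain has sort `s`. -/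
def AppS (P : Spec ℕ) (s : ℕ) : Prop :=
  ∀ F N A B, Ty P Set.univ [] F (.pi A B) → Ty P Set.univ [] N A →
    Ty P Set.univ [] A (srt s) → Sn F → Sn N → Sn (.app F N)

open Classical in
noncomputable def msk (P : Spec ℕ) (s₀ : ℕ) (T : Tm) (X : Set Tm) : Set Tm :=
  if LowT P s₀ T then SNT P T else X

/-- The least candidate. -/
def CMin (P : Spec ℕ) (T : Tm) : Set Tm := {M | ∀ X, Cand P T X → M ∈ X}

variable {P : Spec ℕ} {s₀ : ℕ}

theorem HasT.of_ty {M T : Tm} (h : Ty P Set.univ [] M T) : HasT P M T := ⟨T, h, conv_refl T⟩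

theorem HasT.conv {M T T' : Tm} (h : HasT P M T) (hc : Conv T T') : HasT P M T' := by
  obtain ⟨T₀, h1, h2⟩ := h
  exact ⟨T₀, h1, conv_trans h2 hc⟩

theorem HasT.ty {M T : Tm} {s : ℕ} (h : HasT P M T) (hT : Ty P Set.univ [] T (srt s)) :
    Ty P Set.univ [] M T := by
  obtain ⟨T₀, h1, h2⟩ := h
  exact h1.conv hT h2

theorem HasT.red {M M' T : Tm} (h : HasT P M T) (hr : Red M M') : HasT P M' T := by
  obtain ⟨T₀, h1, h2⟩ := h
  exact ⟨T₀, h1.sr_red Wf.nil hr, h2⟩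

theorem HasT.nfT {M T : Tm} (h : HasT P M T) : HasT P (nf M) T := h.red (red_nf M)

theorem HasT.wn (hP : Hyp P) {M T : Tm} (h : HasT P M T) : WN M := by
  obtain ⟨T₀, h1, _⟩ := h
  exact hP.ty_wn Wf.nil h1

theorem HasT.pi {F A B : Tm} (h : HasT P F (.pi A B)) :
    ∃ A' B' s₁ s₂ s₃, Ty P Set.univ [] F (.pi A' B') ∧ Conv A' A ∧ Conv B' B ∧
      Ty P Set.univ [] A' (srt s₁) ∧ Ty P Set.univ [A'] B' (srt s₂) ∧ P.rule s₁ s₂ s₃ := by
  obtain ⟨T₀, h1, h2⟩ := h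
  obtain ⟨A', B', r1, r2, r3⟩ := conv_pi_red h2
  have h3 := h1.red_type Wf.nil r1
  obtain ⟨s₁, s₂, s₃, a1, a2, a3⟩ := h3.correct_pi Wf.nil
  exact ⟨A', B', s₁, s₂, s₃, h3, conv_symm (conv_of_red r2), conv_symm (conv_of_red r3), a1, a2, a3⟩

theorem HasT.app {F N A B : Tm} (h : HasT P F (.pi A B)) (hN : HasT P N A) :
    HasT P (.app F N) (inst N B) := by
  obtain ⟨A', B', s₁, s₂, s₃, h1, h2, h3, h4, -, -⟩ := h.pi
  have h5 : Ty P Set.univ [] N A' := (hN.conv (conv_symm h2)).ty h4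
  exact ⟨_, h1.app h5, conv_inst (conv_refl N) h3⟩

theorem snt_conv {T T' : Tm} (h : Conv T T') : SNT P T = SNT P T' := by
  ext M
  exact ⟨fun hM => ⟨hM.1, hM.2.conv h⟩, fun hM => ⟨hM.1, hM.2.conv (conv_symm h)⟩⟩

theorem lowT_conv {T T' : Tm} (h : Conv T T') : LowT P s₀ T ↔ LowT P s₀ T' := by
  constructor
  · rintro ⟨W, t, h1, h2, h3⟩
    exact ⟨W, t, conv_trans (conv_symm h) h1, h2, h3⟩
  · rintro ⟨W, t, h1, h2, h3⟩
    exact ⟨W, t, conv_trans h h1, h2, h3⟩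

theorem LowT.of_ty {T : Tm} {t : ℕ} (h : Ty P Set.univ [] T (srt t)) (ht : Low P s₀ t) :
    LowT P s₀ T := ⟨T, t, conv_refl T, h, ht⟩

theorem Cand.conv {T T' : Tm} {X : Set Tm} (h : Cand P T X) (hc : Conv T T') : Cand P T' X := by
  refine ⟨snt_conv hc ▸ h.le, fun M hM hn => h.neu M (by rwa [snt_conv hc]) hn,
    fun A M N ts hA hN hT hX => h.exp A M N ts hA hN (hT.conv (conv_symm hc)) hX⟩

theorem msk_conv {T T' : Tm} (h : Conv T T') (X : Set Tm) : msk P s₀ T X = msk P s₀ T' X := by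
  by_cases hl : LowT P s₀ T
  · have hl' := (lowT_conv h).1 hl
    simp [msk, hl, hl', snt_conv h]
  · have hl' : ¬ LowT P s₀ T' := fun h' => hl ((lowT_conv h).2 h')
    simp [msk, hl, hl']

theorem msk_low {T : Tm} (h : LowT P s₀ T) (X : Set Tm) : msk P s₀ T X = SNT P T := by
  simp [msk, h]

theorem msk_not_low {T : Tm} (h : ¬ LowT P s₀ T) (X : Set Tm) : msk P s₀ T X = X := by
  simp [msk, h]

theorem cmin_conv {T T' : Tm} (h : Conv T T') : CMin P T = CMin P T' := by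
  ext M
  exact ⟨fun hM X hX => hM X (hX.conv (conv_symm h)), fun hM X hX => hM X (hX.conv h)⟩

theorem cand_snt (T : Tm) : Cand P T (SNT P T) := by
  exact ⟨subset_rfl, fun M hM _ => hM, fun A M N ts hA hN hT hX => ⟨sn_expand hA hN hX.1, hT⟩⟩

theorem Cand.masked {T : Tm} {X : Set Tm} (h : Cand P T X) : Cand P T (msk P s₀ T X) := by
  by_cases hl : LowT P s₀ T
  · rw [msk_low hl]; exact cand_snt T
  · rw [msk_not_low hl]; exact h

theorem cand_cmin (T : Tm) : Cand P T (CMin P T) := by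
  exact ⟨fun M hM => hM _ (cand_snt T), fun M hM hn X hX => hX.neu M hM hn,
    fun A M N ts hA hN hT hM X hX => hX.exp A M N ts hA hN hT (hM X hX)⟩

theorem Cand.cmin_sub {T : Tm} {X : Set Tm} (h : Cand P T X) : CMin P T ⊆ X := fun _ hM => hM X h

/-- The product clause gives a candidate. -/
theorem cand_pi {ι : Type*} {A B : Tm} {X : Set Tm} (hX : X ⊆ SNT P A) (R : Tm → ι → Prop)
    (Y : Tm → ι → Set Tm) (hY : ∀ N ∈ X, ∀ e, R N e → Cand P (inst N B) (Y N e)) :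
    Cand P (.pi A B) {F | F ∈ SNT P (.pi A B) ∧ ∀ N ∈ X, ∀ e, R N e → Term.app F N ∈ Y N e} := by
  refine ⟨fun F hF => hF.1, fun F hF hn => ⟨hF, fun N hN e hR => ?_⟩,
    fun A₀ M N₀ ts hA hN₀ hT hM => ⟨⟨sn_expand hA hN₀ hM.1.1, hT⟩, fun N hN e hR => ?_⟩⟩
  · exact (hY N hN e hR).neu _ ⟨sn_app_neu hn hF.1 (hX hN).1, hF.2.app (hX hN).2⟩ hn
  · rw [← apps_snoc]
    refine (hY N hN e hR).exp A₀ M N₀ (ts ++ [N]) hA hN₀ ?_ ?_
    · rw [apps_snoc]; exact hT.app (hX hN).2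
    · rw [apps_snoc]; exact hM.2 N hN e hR

theorem LowT.pi_dom (hP : Hyp P) {A B : Tm} (h : LowT P s₀ (.pi A B)) : LowT P s₀ A := by
  obtain ⟨T', t, h1, h2, h3⟩ := h
  obtain ⟨A', B', r1, r2, r3⟩ := conv_pi_red (conv_symm h1)
  obtain ⟨s₁, s₂, a1, a2, a3⟩ := (h2.sr_red Wf.nil r1).gen_pi_srt
  exact ⟨A', s₁, conv_of_red r2, a1, h3.step (lrule_of_ty hP Wf.nil a1 a2 a3).reach_dom⟩

theorem LowT.pi_cod (hP : Hyp P) {A B N : Tm} (h : LowT P s₀ (.pi A B)) (hN : HasT P N A) :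
    LowT P s₀ (inst N B) := by
  obtain ⟨T', t, h1, h2, h3⟩ := h
  obtain ⟨A', B', r1, r2, r3⟩ := conv_pi_red (conv_symm h1)
  obtain ⟨s₁, s₂, a1, a2, a3⟩ := (h2.sr_red Wf.nil r1).gen_pi_srt
  have h4 : Ty P Set.univ [] N A' := (hN.conv (conv_of_red r2)).ty a1
  exact ⟨inst N B', s₂, conv_inst (conv_refl N) (conv_of_red r3), a2.instT h4,
    h3.step (lrule_of_ty hP Wf.nil a1 a2 a3).reach_cod⟩

theorem LowT.app (hP : Hyp P) (hlow : ∀ t, Low P s₀ t → AppS P t) {A B F N : Tm}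
    (h : LowT P s₀ A) (hF : F ∈ SNT P (.pi A B)) (hN : N ∈ SNT P A) :
    Term.app F N ∈ SNT P (inst N B) := by
  refine ⟨?_, hF.2.app hN.2⟩
  obtain ⟨T', t, h1, h2, h3⟩ := h
  obtain ⟨A', B', s₁, s₂, s₃, a1, a2, a3, -, -, -⟩ := hF.2.pi
  obtain ⟨W, r1, r2⟩ := conv_iff.1 (conv_trans a2 h1)
  have hW : Ty P Set.univ [] W (srt t) := h2.sr_red Wf.nil r2
  have hF' : Ty P Set.univ [] F (.pi W B') :=
    a1.red_type Wf.nil (red_pi r1 Relation.ReflTransGen.refl)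
  have hN' : Ty P Set.univ [] N W := (hN.2.conv (conv_trans h1 (conv_of_red r2))).ty hW
  exact hlow t h3 F N W B' hF' hN' hW hF.1 hN.1

/-- What the main lemma needs from an interpretation of the types of the component of `s₀`. -/
structure Model.{u} (P : Spec ℕ) (s₀ : ℕ) where
  Ent : Type u
  tm : Ent → Tm
  D : Tm → (ℕ → Ent) → Set Tm
  Adm : Tm → Tm → Ent → Prop
  Good : List Tm → (ℕ → Ent) → Prop
  good_nil : ∃ η, Good [] η
  good_tsub : ∀ {Γ η}, Good Γ η → TSub P Set.univ [] Γ (fun i => tm (η i))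
  good_neu : ∀ {Γ η A N s}, Wf P Set.univ Γ → Good Γ η → Ty P Set.univ Γ A (srt s) →
    HasT P N (sub (fun i => tm (η i)) A) → ∃ e, Conv (tm e) N ∧ Good (A :: Γ) (scons e η)
  good_adm : ∀ {Γ η A N e r₁ r₂ r₃}, Wf P Set.univ Γ → Good Γ η → Ty P Set.univ Γ A (srt r₁) →
    LRule P r₁ r₂ r₃ → InS P s₀ r₂ → InS P s₀ r₃ → HasT P N (sub (fun i => tm (η i)) A) →
    Adm N (sub (fun i => tm (η i)) A) e → Good (A :: Γ) (scons e η)
  adm_tm : ∀ {N A e}, Adm N A e → Conv (tm e) N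
  adm_ex : ∀ N A, ∃ e, Adm N A e
  cand : ∀ T η, Cand P (sub (fun i => tm (η i)) T) (D T η)
  low : ∀ {T η}, LowT P s₀ (sub (fun i => tm (η i)) T) →
    D T η = SNT P (sub (fun i => tm (η i)) T)
  pi_iff : ∀ {Γ η A B t}, Wf P Set.univ Γ → Good Γ η → Ty P Set.univ Γ (.pi A B) (srt t) →
    InS P s₀ t → Normal (.pi A B : Tm) → ¬ LowT P s₀ (sub (fun i => tm (η i)) (.pi A B)) →
    ∀ F, F ∈ D (.pi A B) η ↔ (F ∈ SNT P (sub (fun i => tm (η i)) (.pi A B)) ∧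
      ∀ N ∈ D A η, ∀ e, Adm N (sub (fun i => tm (η i)) A) e → Term.app F N ∈ D B (scons e η))
  subst : ∀ {Γ η A B Q N r₁ r₂ r₃}, Wf P Set.univ Γ → Good Γ η → Ty P Set.univ Γ A (srt r₁) →
    Ty P Set.univ (A :: Γ) B (srt r₂) → P.rule r₁ r₂ r₃ → InS P s₀ r₂ → InS P s₀ r₃ →
    Normal B → Ty P Set.univ Γ Q A → Conv N (sub (fun i => tm (η i)) Q) →
    ∃ e, Adm N (sub (fun i => tm (η i)) A) e ∧ D B (scons e η) ⊆ D (nf (inst Q B)) η
  weak : ∀ T e η, D (wk T) (scons e η) = D T η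

end Crest.Agent.R298
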