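import Crest.Agent.R298.Syntax

/-! Row 298. Leftmost evaluation terminates on weakly normalizing terms (standardisation). -/

set_option autoImplicit false

namespace Crest.Agent.R298
open Crest.LogicCS.PTS Crest.LogicCS.PTS.Term

/-- Termination of leftmost-outermost evaluation, inductively. -/
inductive WNi : Tm → Prop
  | var (i : ℕ) (ts : List Tm) : (∀ t ∈ ts, WNi t) → WNi (apps (.var i) ts)
  | sort (s : ℕ ⊕ ℕ) (ts : List Tm) : (∀ t ∈ ts, WNi t) → WNi (apps (.sort s) ts)
  | pi (A B : Tm) (ts : List Tm) : WNi A → WNi B → (∀ t ∈ ts, WNi t) → WNi (apps (.pi A B) ts)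
  | lam (A M : Tm) : WNi A → WNi M → WNi (.lam A M)
  | red (A M N : Tm) (ts : List Tm) : WNi (apps (inst N M) ts) → WNi (apps (.app (.lam A M) N) ts)

/-- One weak-head step. -/
inductive Wh1 : Tm → Tm → Prop
  | redex (A M N : Tm) : Wh1 (.app (.lam A M) N) (inst N M)
  | appL {M M' : Tm} (N : Tm) : Wh1 M M' → Wh1 (.app M N) (.app M' N)

/-- Weak-head reduction. -/
abbrev Wh : Tm → Tm → Prop := Relation.ReflTransGen Wh1

/-- Standard reduction (Kashima). -/
inductive St : Tm → Tm → Prop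
  | var {L : Tm} (i : ℕ) : Wh L (.var i) → St L (.var i)
  | sort {L : Tm} (s : ℕ ⊕ ℕ) : Wh L (.sort s) → St L (.sort s)
  | app {L A' B' A B : Tm} : Wh L (.app A' B') → St A' A → St B' B → St L (.app A B)
  | lam {L A' B' A B : Tm} : Wh L (.lam A' B') → St A' A → St B' B → St L (.lam A B)
  | pi {L A' B' A B : Tm} : Wh L (.pi A' B') → St A' A → St B' B → St L (.pi A B)

theorem Wh1.spine {L L' : Tm} (h : Wh1 L L') :
    ∃ A M N ts, L = apps (.app (.lam A M) N) ts ∧ L' = apps (inst N M) ts := by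
  induction h with
  | redex A M N => exact ⟨A, M, N, [], rfl, rfl⟩
  | appL N _ ih =>
    obtain ⟨A, M, N', ts, h1, h2⟩ := ih
    exact ⟨A, M, N', ts ++ [N], by rw [apps_snoc, ← h1], by rw [apps_snoc, ← h2]⟩

theorem WNi.wh1 {L L' : Tm} (h : Wh1 L L') (hw : WNi L') : WNi L := by
  obtain ⟨A, M, N, ts, rfl, rfl⟩ := h.spine
  exact WNi.red A M N ts hw

theorem WNi.wh {L L' : Tm} (h : Wh L L') (hw : WNi L') : WNi L := by
  induction h using Relation.ReflTransGen.head_induction_on with
  | refl => exact hw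
  | head h1 _ ih => exact WNi.wh1 h1 ih

theorem wh_app {M M' : Tm} (h : Wh M M') (N : Tm) : Wh (.app M N) (.app M' N) := by
  induction h with
  | refl => exact .refl
  | tail _ h1 ih => exact ih.tail (Wh1.appL N h1)

theorem wh_apps {M M' : Tm} (h : Wh M M') (ts : List Tm) : Wh (apps M ts) (apps M' ts) := by
  induction ts generalizing M M' with
  | nil => exact h
  | cons t ts ih => exact ih (wh_app h t)

theorem wh1_sub {M M' : Tm} (h : Wh1 M M') (θ : ℕ → Tm) : Wh1 (sub θ M) (sub θ M') := by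
  induction h with
  | redex A M N => rw [sub_inst']; exact Wh1.redex _ _ _
  | appL N _ ih => exact Wh1.appL _ ih

theorem wh_sub {M M' : Tm} (h : Wh M M') (θ : ℕ → Tm) : Wh (sub θ M) (sub θ M') := by
  induction h with
  | refl => exact .refl
  | tail _ h1 ih => exact ih.tail (wh1_sub h1 θ)

theorem wh_ren {M M' : Tm} (h : Wh M M') (ξ : ℕ → ℕ) : Wh (ren ξ M) (ren ξ M') := by
  rw [ren_eq_sub, ren_eq_sub]
  exact wh_sub h _

theorem St.wh {L L' N : Tm} (h : Wh L L') (hs : St L' N) : St L N := by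
  cases hs with
  | var i h1 => exact St.var i (h.trans h1)
  | sort s h1 => exact St.sort s (h.trans h1)
  | app h1 h2 h3 => exact St.app (h.trans h1) h2 h3
  | lam h1 h2 h3 => exact St.lam (h.trans h1) h2 h3
  | pi h1 h2 h3 => exact St.pi (h.trans h1) h2 h3

theorem St.refl (M : Tm) : St M M := by
  induction M with
  | var i => exact St.var i .refl
  | sort s => exact St.sort s .refl
  | app M N ihM ihN => exact St.app .refl ihM ihN
  | lam A M ihA ihM => exact St.lam .refl ihA ihM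
  | pi A B ihA ihB => exact St.pi .refl ihA ihB

theorem St.renS {L N : Tm} (h : St L N) (ξ : ℕ → ℕ) : St (ren ξ L) (ren ξ N) := by
  induction h generalizing ξ with
  | var i h1 => exact St.var _ (wh_ren h1 ξ)
  | sort s h1 => exact St.sort _ (wh_ren h1 ξ)
  | app h1 _ _ ih1 ih2 => exact St.app (wh_ren h1 ξ) (ih1 _) (ih2 _)
  | lam h1 _ _ ih1 ih2 => exact St.lam (wh_ren h1 ξ) (ih1 _) (ih2 _)
  | pi h1 _ _ ih1 ih2 => exact St.pi (wh_ren h1 ξ) (ih1 _) (ih2 _)

theorem st_up {θ θ' : ℕ → Tm} (h : ∀ i, St (θ i) (θ' i)) (i : ℕ) : St (up θ i) (up θ' i) := by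
  cases i with
  | zero => exact St.refl _
  | succ i => exact (h i).renS _

theorem St.subS {L N : Tm} (h : St L N) {θ θ' : ℕ → Tm} (hθ : ∀ i, St (θ i) (θ' i)) :
    St (sub θ L) (sub θ' N) := by
  induction h generalizing θ θ' with
  | var i h1 => exact St.wh (wh_sub h1 θ) (hθ i)
  | sort s h1 => exact St.sort _ (wh_sub h1 θ)
  | app h1 _ _ ih1 ih2 => exact St.app (wh_sub h1 θ) (ih1 hθ) (ih2 hθ)
  | lam h1 _ _ ih1 ih2 => exact St.lam (wh_sub h1 θ) (ih1 hθ) (ih2 (st_up hθ))
  | pi h1 _ _ ih1 ih2 => exact St.pi (wh_sub h1 θ) (ih1 hθ) (ih2 (st_up hθ))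

theorem St.redex {L A M N : Tm} (h : St L (.app (.lam A M) N)) : St L (inst N M) := by
  cases h with
  | app h1 h2 h3 =>
    cases h2 with
    | lam h4 _ h6 =>
      refine St.wh ((h1.trans (wh_app h4 _)).tail (Wh1.redex _ _ _)) ?_
      refine h6.subS fun i => ?_
      cases i with
      | zero => exact h3
      | succ i => exact St.refl _

theorem St.beta {L M N : Tm} (h : St L M) (hb : Beta M N) : St L N := by
  induction hb generalizing L with
  | redex A M N => rw [subst_eq]; exact h.redex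
  | appL N _ ih => cases h with | app h1 h2 h3 => exact St.app h1 (ih h2) h3
  | appR M _ ih => cases h with | app h1 h2 h3 => exact St.app h1 h2 (ih h3)
  | lamA M _ ih => cases h with | lam h1 h2 h3 => exact St.lam h1 (ih h2) h3
  | lamM A _ ih => cases h with | lam h1 h2 h3 => exact St.lam h1 h2 (ih h3)
  | piA B _ ih => cases h with | pi h1 h2 h3 => exact St.pi h1 (ih h2) h3
  | piB A _ ih => cases h with | pi h1 h2 h3 => exact St.pi h1 h2 (ih h3)

theorem st_of_red {L N : Tm} (h : Red L N) : St L N := by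
  induction h with
  | refl => exact St.refl _
  | tail _ h1 ih => exact ih.beta h1

theorem St.wni {L N : Tm} (h : St L N) (hn : Normal N) :
    WNi L ∧ ((∀ A B, N ≠ .lam A B) → ∀ ts : List Tm, (∀ t ∈ ts, WNi t) → WNi (apps L ts)) := by
  induction h with
  | var i h1 =>
    have key : ∀ ts : List Tm, (∀ t ∈ ts, WNi t) → WNi (apps _ ts) :=
      fun ts hts => WNi.wh (wh_apps h1 ts) (WNi.var i ts hts)
    exact ⟨key [] (by simp), fun _ => key⟩
  | sort s h1 =>
    have key : ∀ ts : List Tm, (∀ t ∈ ts, WNi t) → WNi (apps _ ts) :=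
      fun ts hts => WNi.wh (wh_apps h1 ts) (WNi.sort s ts hts)
    exact ⟨key [] (by simp), fun _ => key⟩
  | @app L A' B' A B h1 _ _ ih1 ih2 =>
    have hA : Normal A := fun _ hb => hn _ (Beta.appL B hb)
    have hB : Normal B := fun _ hb => hn _ (Beta.appR A hb)
    have hl : ∀ P Q, A ≠ .lam P Q := by
      rintro P Q rfl
      exact hn _ (Beta.redex P Q B)
    have key : ∀ ts : List Tm, (∀ t ∈ ts, WNi t) → WNi (apps L ts) := by
      intro ts hts
      refine WNi.wh (wh_apps h1 ts) ?_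
      rw [← apps_cons]
      refine (ih1 hA).2 hl _ fun t ht => ?_
      rcases List.mem_cons.1 ht with rfl | ht
      · exact (ih2 hB).1
      · exact hts t ht
    exact ⟨key [] (by simp), fun _ => key⟩
  | @lam L A' B' A B h1 _ _ ih1 ih2 =>
    have hA : Normal A := fun _ hb => hn _ (Beta.lamA B hb)
    have hB : Normal B := fun _ hb => hn _ (Beta.lamM A hb)
    exact ⟨WNi.wh h1 (WNi.lam _ _ (ih1 hA).1 (ih2 hB).1), fun hl => absurd rfl (hl A B)⟩
  | @pi L A' B' A B h1 _ _ ih1 ih2 =>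
    have hA : Normal A := fun _ hb => hn _ (Beta.piA B hb)
    have hB : Normal B := fun _ hb => hn _ (Beta.piB A hb)
    have key : ∀ ts : List Tm, (∀ t ∈ ts, WNi t) → WNi (apps L ts) :=
      fun ts hts => WNi.wh (wh_apps h1 ts) (WNi.pi _ _ ts (ih1 hA).1 (ih2 hB).1 hts)
    exact ⟨key [] (by simp), fun _ => key⟩

theorem wni_of_wn {M : Tm} (h : WN M) : WNi M := by
  obtain ⟨N, hr, hn⟩ := h
  exact ((st_of_red hr).wni hn).1

end Crest.Agent.R298
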