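import Crest.Agent.R298.Interp
import Crest.Agent.R298.WNi

/-! Row 298. The substitution lemma for the interpretation, by a closure machine. -/

set_option autoImplicit false

namespace Crest.Agent.R298
open Crest.LogicCS.PTS Crest.LogicCS.PTS.Term

/-- Environments for a context. -/
structure ValD.Good (V : ValD) (P : Spec ℕ) (s₀ : ℕ) (Γ : List Tm) (η : ℕ → Ent) : Prop where
  tsub : TSub P Set.univ [] Γ (tms η)
  ki : ∀ i A, Look Γ i A → (η i).ki = nf (sub (tms η) A)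
  pt : ∀ i A, Look Γ i A → V.Valid (η i) → PT P s₀ (η i).ki (η i).pol
  rk : ∃ r, ∀ i, V.Rk r (η i)

variable {P : Spec ℕ} {s₀ : ℕ} {V : ValD}

theorem ValD.Ok.good_cons (hV : V.Ok P s₀) {Γ : List Tm} {η : ℕ → Ent} {A : Tm} {s : ℕ} {e : Ent}
    (hη : V.Good P s₀ Γ η) (hA : Ty P Set.univ Γ A (srt s)) (ht : HasT P e.tm (sub (tms η) A))
    (hk : e.ki = nf (sub (tms η) A)) (hp : V.Valid e → PT P s₀ e.ki e.pol) :
    V.Good P s₀ (A :: Γ) (scons e η) := by
  refine ⟨?_, ?_, ?_, ?_⟩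
  · rw [tms_scons]
    exact hη.tsub.cons (ht.ty (hA.subT hη.tsub))
  · intro i B hB
    rw [tms_scons]
    cases hB with
    | here => simpa using hk
    | there _ h => simpa using hη.ki _ _ h
  · intro i B hB
    cases hB with
    | here => exact hp
    | there _ h => exact hη.pt _ _ h
  · obtain ⟨r, hr⟩ := hη.rk
    obtain ⟨r', hr'⟩ := hV.rk_ex e
    refine ⟨max r r', fun i => ?_⟩
    cases i with
    | zero => exact hV.rk_mono _ _ _ (le_max_right _ _) hr'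
    | succ i => exact hV.rk_mono _ _ _ (le_max_left _ _) (hr i)

theorem normal_apps {h : Tm} {ts : List Tm} (hn : Neu h) (hh : Normal h)
    (hts : ∀ t ∈ ts, Normal t) : Normal (apps h ts) := by
  induction ts generalizing h with
  | nil => exact hh
  | cons t ts ih =>
    refine ih (h := .app h t) hn ?_ fun u hu => hts u (List.mem_cons_of_mem _ hu)
    refine normal_app_iff.2 ⟨hh, hts t List.mem_cons_self, fun A B e => ?_⟩
    subst e
    exact hn A B rfl

theorem wn_apps {h : Tm} {ts : List Tm} (hn : Neu (nf h)) (hh : WN h) (hts : ∀ t ∈ ts, WN t) :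
    WN (apps h ts) := by
  refine ⟨apps (nf h) (ts.map nf), red_apps (red_nf h) ?_, normal_apps hn (normal_nf hh) ?_⟩
  · rw [List.forall₂_map_right_iff]
    exact List.forall₂_same.2 fun t _ => red_nf t
  · intro t ht
    obtain ⟨u, hu, rfl⟩ := List.mem_map.1 ht
    exact normal_nf (hts u hu)

theorem WNi.wn {M : Tm} (h : WNi M) : WN M := by
  induction h with
  | var i ts _ ih =>
    refine wn_apps ?_ (wn_of_normal (normal_var i)) ih
    rw [nf_of_normal (normal_var i)]; intro A B e; cases e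
  | sort s ts _ ih =>
    refine wn_apps ?_ (wn_of_normal (normal_sort s)) ih
    rw [nf_sort]; intro A B e; cases e
  | pi A B ts _ _ _ ihA ihB ih =>
    have hw := wn_pi_iff.2 ⟨ihA, ihB⟩
    refine wn_apps ?_ hw ih
    rw [nf_pi hw]; intro A B e; cases e
  | lam A M _ _ ihA ihM => exact wn_lam_iff.2 ⟨ihA, ihM⟩
  | red A M N ts _ ih => exact wn_conv (conv_symm (conv_apps_left (conv_beta A M N) ts)) ih

theorem Hyp.wn_type (hP : Hyp P) {Δ : List Tm} {Q K : Tm} {ρ : ℕ → Tm} (hΔ : Wf P Set.univ Δ)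
    (hρ : TSub P Set.univ [] Δ ρ) (h : Ty P Set.univ Δ Q K) : WN (sub ρ K) := by
  rcases h.correct hΔ with ⟨s, rfl⟩ | ⟨s, hs⟩
  · exact wn_of_normal (normal_sort _)
  · exact hP.ty_wn Wf.nil (hs.subT hρ)

/-- `e` is the value of the term `t` over the base environment `η`, computed by closures. -/
inductive ValD.Rel (V : ValD) (P : Spec ℕ) (s₀ : ℕ) (η : ℕ → Ent) : Tm → Ent → Prop
  | base (i : ℕ) : ValD.Rel V P s₀ η (.var i) (η i)
  | clo {Δ : List Tm} {Q K : Tm} {θ : ℕ → Tm} {ζ : ℕ → Ent} {π : Bool} :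
      Wf P Set.univ Δ → V.Good P s₀ Δ ζ → Ty P Set.univ Δ Q K → Normal Q →
      PT P s₀ (nf (sub (tms ζ) K)) π → (∀ i, ValD.Rel V P s₀ η (θ i) (ζ i)) →
      ValD.Rel V P s₀ η (sub θ Q)
        (V.mkE (nf (sub (tms ζ) Q)) (nf (sub (tms ζ) K)) π (V.I P s₀ Q ζ))

def ValD.IsClo (V : ValD) (P : Spec ℕ) (s₀ : ℕ) (η : ℕ → Ent) (t : Tm) (e : Ent) : Prop :=
  ∃ (Δ : List Tm) (Q K : Tm) (θ : ℕ → Tm) (ζ : ℕ → Ent) (π : Bool),
    Wf P Set.univ Δ ∧ V.Good P s₀ Δ ζ ∧ Ty P Set.univ Δ Q K ∧ Normal Q ∧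
    PT P s₀ (nf (sub (tms ζ) K)) π ∧ (∀ i, V.Rel P s₀ η (θ i) (ζ i)) ∧ t = sub θ Q ∧
    e = V.mkE (nf (sub (tms ζ) Q)) (nf (sub (tms ζ) K)) π (V.I P s₀ Q ζ)

theorem ValD.IsClo.rel {η : ℕ → Ent} {t : Tm} {e : Ent} (h : V.IsClo P s₀ η t e) :
    V.Rel P s₀ η t e := by
  obtain ⟨Δ, Q, K, θ, ζ, π, h1, h2, h3, h4, h5, h6, rfl, rfl⟩ := h
  exact ValD.Rel.clo h1 h2 h3 h4 h5 h6

theorem conv_sub_sub {ρ θ τ : ℕ → Tm} (h : ∀ i, Conv (ρ i) (sub τ (θ i))) (X : Tm) :
    Conv (sub ρ X) (sub τ (sub θ X)) := by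
  rw [sub_sub]; exact conv_sub h (conv_refl X)

theorem ValD.Ok.rel_conv (hV : V.Ok P s₀) {η : ℕ → Ent} {t : Tm} {e : Ent}
    (h : V.Rel P s₀ η t e) : Conv e.tm (sub (tms η) t) := by
  induction h with
  | base i => exact conv_refl _
  | clo _ _ _ _ _ _ ih =>
    rw [hV.mk_tm]
    exact conv_trans (conv_symm (conv_nf _)) (conv_sub_sub ih _)

theorem ValD.Rel.weak {η : ℕ → Ent} {t : Tm} {e : Ent} (h : V.Rel P s₀ η t e) (e₀ : Ent) :
    V.Rel P s₀ (scons e₀ η) (wk t) e := by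
  induction h with
  | base i => exact ValD.Rel.base (η := scons e₀ η) (i + 1)
  | clo h1 h2 h3 h4 h5 _ ih =>
    rw [wk, ren_sub]
    exact ValD.Rel.clo h1 h2 h3 h4 h5 ih

theorem ValD.Rel.lift {η ζ : ℕ → Ent} {θ : ℕ → Tm} (h : ∀ i, V.Rel P s₀ η (θ i) (ζ i)) (e : Ent)
    (i : ℕ) : V.Rel P s₀ (scons e η) (up θ i) (scons e ζ i) := by
  cases i with
  | zero => exact ValD.Rel.base (η := scons e η) 0
  | succ i => exact (h i).weak e

/-- The statement proved by induction on the leftmost evaluation of `U`. -/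
def ValD.PS (V : ValD) (P : Spec ℕ) (s₀ : ℕ) (U : Tm) : Prop :=
  ∀ (η : ℕ → Ent) (Δ : List Tm) (ζ : ℕ → Ent) (θ : ℕ → Tm) (Q K : Tm) (ε : Bool)
    (st : List (Tm × Ent)) (sp : List Ent), Wf P Set.univ Δ → V.Good P s₀ Δ ζ →
    Ty P Set.univ Δ Q K → Normal Q → (∀ i, V.Rel P s₀ η (θ i) (ζ i)) →
    (∀ x ∈ st, V.IsClo P s₀ η x.1 x.2) → PT P s₀ (nf (sub (tms ζ) K)) ε →
    V.VS (!ε) (nf (sub (tms ζ) K)) (st.map Prod.snd ++ sp) →
    U = apps (sub θ Q) (st.map Prod.fst) →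
    V.I P s₀ Q ζ (st.map Prod.snd ++ sp) = V.I P s₀ (nf U) η sp

structure ValD.IH (V : ValD) (P : Spec ℕ) (s₀ : ℕ) (U : Tm) : Prop where
  wn : WN U
  var : ∀ i ts, U = apps (.var i) ts → ∀ t ∈ ts, V.PS P s₀ t
  pi : ∀ A B, U = .pi A B → V.PS P s₀ A ∧ V.PS P s₀ B
  lam : ∀ A M, U = .lam A M → V.PS P s₀ M
  red : ∀ A M N ts, U = apps (.app (.lam A M) N) ts → V.PS P s₀ (apps (inst N M) ts)

def ValD.Mot (V : ValD) (P : Spec ℕ) (s₀ : ℕ) (U : Tm) (η : ℕ → Ent) (t : Tm) (e : Ent) : Prop :=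
  ∀ (st : List (Tm × Ent)) (sp : List Ent), (∀ x ∈ st, V.IsClo P s₀ η x.1 x.2) → V.Valid e →
    V.VS (!e.pol) e.ki (st.map Prod.snd ++ sp) → U = apps t (st.map Prod.fst) →
    V.hv P e (st.map Prod.snd ++ sp) = V.I P s₀ (nf U) η sp

theorem ValD.Ok.full_conv (hV : V.Ok P s₀) {η ζ : ℕ → Ent} {θ : ℕ → Tm} {Q : Tm}
    {st : List (Tm × Ent)} (sp : List Ent) (hr : ∀ i, V.Rel P s₀ η (θ i) (ζ i))
    (hst : ∀ x ∈ st, V.IsClo P s₀ η x.1 x.2) :
    Conv (full Q ζ (st.map Prod.snd ++ sp))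
      (full (nf (apps (sub θ Q) (st.map Prod.fst))) η sp) := by
  unfold full
  rw [List.map_append, apps_append]
  refine conv_apps_left (conv_trans ?_ (conv_sub (fun _ => conv_refl _) (conv_nf _))) _
  rw [sub_apps]
  refine conv_apps (conv_sub_sub (fun i => hV.rel_conv (hr i)) Q) ?_
  simp only [List.map_map, List.forall₂_map_left_iff, List.forall₂_map_right_iff]
  exact List.forall₂_same.2 fun x hx => hV.rel_conv (hst x hx).rel

theorem ValD.Ok.vs_srt (hV : V.Ok P s₀) {π : Bool} {u : ℕ} {sp : List Ent}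
    (h : V.VS π (srt u) sp) : sp = [] ∧ InS P s₀ u := by
  cases sp with
  | nil =>
    obtain ⟨u', h1, h2⟩ := (hV.vs_nil _ _).1 h
    cases h2
    exact ⟨rfl, h1⟩
  | cons e sp =>
    obtain ⟨A, K, h1, -⟩ := (hV.vs_cons _ _ _ _).1 h
    cases h1

theorem pt_nrm {A : Tm} {π : Bool} (h : PT P s₀ A π) : PT P s₀ A (nrm P s₀ π A) := by
  by_cases ht : Tame P s₀ A
  · exact Or.inl ht
  · simpa [nrm, ht] using h

theorem head_sub {θ : ℕ → Tm} (Q : Tm) : head (sub θ Q) = head (sub θ (head Q)) := by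
  induction Q with
  | app M N ih _ => simpa [head] using ih
  | _ => rfl

theorem head_nf {U h : Tm} (hw : WN U) (hh : head U = h)
    (hs : (∃ i, h = .var i) ∨ ∃ s, h = .sort s) : head (nf U) = h := by
  have hU : U = apps h (args U) := by rw [← hh, apps_head_args]
  have hn : Neu h := by
    rcases hs with ⟨i, rfl⟩ | ⟨s, rfl⟩ <;> (intro A B e; cases e)
  rw [hU] at hw ⊢
  rw [nf_apps hn hw, head_apps]
  rcases hs with ⟨i, rfl⟩ | ⟨s, rfl⟩
  · rw [nf_of_normal (normal_var i)]; rfl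
  · rw [nf_sort]; rfl

/-- Pushing the arguments of a spine with a valid head. -/
theorem ValD.Ok.push (hV : V.Ok P s₀) (hP : Hyp P) {U : Tm} {η ζ : ℕ → Ent} {θ : ℕ → Tm}
    {Δ : List Tm} {x : ℕ} (hΔ : Wf P Set.univ Δ) (hζ : V.Good P s₀ Δ ζ)
    (hr : ∀ i, V.Rel P s₀ η (θ i) (ζ i)) (hm : V.Mot P s₀ U η (θ x) (ζ x)) (hx : V.Valid (ζ x))
    (Q : Tm) : head Q = .var x → Normal Q → ∀ K, Ty P Set.univ Δ Q K →
      hdk ζ Q = some (nf (sub (tms ζ) K), (ζ x).pol) ∧ PT P s₀ (nf (sub (tms ζ) K)) (ζ x).pol ∧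
      ∀ (st : List (Tm × Ent)) (sp : List Ent), (∀ y ∈ st, V.IsClo P s₀ η y.1 y.2) →
        V.VS (!(ζ x).pol) (nf (sub (tms ζ) K)) (st.map Prod.snd ++ sp) →
        U = apps (sub θ Q) (st.map Prod.fst) →
        V.I P s₀ Q ζ (st.map Prod.snd ++ sp) = V.I P s₀ (nf U) η sp := by
  induction Q with
  | var i =>
    intro hh _ K hK
    obtain rfl : i = x := by simpa [head] using hh
    obtain ⟨A, hA, hc⟩ := hK.gen_var
    have hk : (ζ i).ki = nf (sub (tms ζ) K) := by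
      rw [hζ.ki _ _ hA]
      exact (nf_congr (conv_sub (fun _ => conv_refl _) (conv_symm hc))
        (hP.wn_type hΔ hζ.tsub hK)).symm
    refine ⟨by simp [hdk, hk], hk ▸ hζ.pt _ _ hA hx, fun st sp hst hvs hU => ?_⟩
    rw [ValD.I]
    exact hm st sp hst hx (hk ▸ hvs) hU
  | app M N ihM _ =>
    intro hh hn K hK
    obtain ⟨A, B, hM, hN, hc⟩ := hK.gen_app
    obtain ⟨hnM, hnN, -⟩ := normal_app_iff.1 hn
    obtain ⟨h1, h2, h3⟩ := ihM hh hnM _ hM
    have hw := hP.wn_type hΔ hζ.tsub hM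
    rw [sub_pi] at hw h1 h2 h3
    rw [nf_pi hw] at h1 h2 h3
    have hNt := hN.subT hζ.tsub
    have hnn : Normal (nf (sub (tms ζ) N)) := normal_nf (hP.ty_wn Wf.nil hNt)
    have hNA : HasT P (nf (sub (tms ζ) N)) (nf (sub (tms ζ) A)) :=
      (HasT.of_ty hNt).nfT.conv (conv_nf _)
    have hKe : nf (inst (nf (sub (tms ζ) N)) (nf (sub (up (tms ζ)) B))) = nf (sub (tms ζ) K) := by
      refine (nf_congr ?_ (hP.wn_type hΔ hζ.tsub hK)).symm
      refine conv_trans (conv_sub (fun _ => conv_refl _) (conv_symm hc)) ?_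
      rw [sub_inst']
      exact conv_inst (conv_nf _) (conv_nf _)
    refine ⟨by simp [hdk, h1, hKe], hKe ▸ h2.cod hP hnn hNA, fun st sp hst hvs hU => ?_⟩
    set e := V.mkE (nf (sub (tms ζ) N)) (nf (sub (tms ζ) A)) (!(ζ x).pol) (V.I P s₀ N ζ) with he
    have hvs' : V.VS (!(ζ x).pol) (.pi (nf (sub (tms ζ) A)) (nf (sub (up (tms ζ)) B)))
        (e :: (st.map Prod.snd ++ sp)) := by
      rw [hV.vs_cons]
      refine ⟨_, _, rfl, hV.mk_ki _ _ _ _, ?_, ?_, hV.mk_pol _ _ _ _, hV.code_valid _ _ _ _, ?_⟩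
      · rw [he, hV.mk_tm]; exact hnn
      · rw [he, hV.mk_tm]; exact hNA
      · rw [he, hV.mk_tm, hKe]; exact hvs
    have := h3 ((sub θ N, e) :: st) sp (by
      intro y hy
      rcases List.mem_cons.1 hy with rfl | hy
      · exact ⟨Δ, N, A, θ, ζ, _, hΔ, hζ, hN, hnN, h2.dom hP (hV.vs_comp hvs'), hr, rfl, rfl⟩
      · exact hst y hy) hvs' (by simpa using hU)
    rw [← this, ValD.I, h1]
    rfl
  | sort s => intro hh; cases hh
  | lam A M => intro hh; cases hh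
  | pi A B => intro hh; cases hh

theorem ValD.Ok.core_pi (hV : V.Ok P s₀) (hP : Hyp P) {η ζ : ℕ → Ent} {θ : ℕ → Tm}
    {Δ : List Tm} {A B : Tm} {r₁ r₂ r₃ : ℕ} (hΔ : Wf P Set.univ Δ) (hζ : V.Good P s₀ Δ ζ)
    (hr : ∀ i, V.Rel P s₀ η (θ i) (ζ i)) (hA : Ty P Set.univ Δ A (srt r₁))
    (hB : Ty P Set.univ (A :: Δ) B (srt r₂)) (hrule : P.rule r₁ r₂ r₃) (h₃ : InS P s₀ r₃)
    (hnA : Normal A) (hnB : Normal B) (ihA : V.PS P s₀ (sub θ A))
    (ihB : V.PS P s₀ (sub (up θ) B)) :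
    V.I P s₀ (.pi A B) ζ [] = V.I P s₀ (.pi (nf (sub θ A)) (nf (sub (up θ) B))) η [] := by
  have hl := lrule_of_ty hP hΔ hA hB hrule
  have hcv : ∀ {η ζ : ℕ → Ent} {θ : ℕ → Tm}, (∀ i, V.Rel P s₀ η (θ i) (ζ i)) → ∀ X,
      Conv (sub (tms ζ) X) (sub (tms η) (nf (sub θ X))) := fun hr X =>
    conv_trans (conv_sub_sub (fun i => hV.rel_conv (hr i)) X)
      (conv_sub (fun _ => conv_refl _) (conv_nf _))
  have hAt := hA.subT hζ.tsub
  have hcA := hcv hr A
  have eA : msk P s₀ (sub (tms ζ) A) (V.I P s₀ A ζ []) =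
      msk P s₀ (sub (tms η) (nf (sub θ A))) (V.I P s₀ (nf (sub θ A)) η []) := by
    rw [← msk_conv hcA]
    by_cases hlow : LowT P s₀ (sub (tms ζ) A)
    · rw [msk_low hlow, msk_low hlow]
    · have h₁ : InS P s₀ r₁ := (h₃.dom hl).resolve_right fun h => hlow (LowT.of_ty hAt h)
      congr 1
      exact ihA η Δ ζ θ A (srt r₁) true [] [] hΔ hζ hA hnA hr (by simp)
        (Or.inl (by simpa using tame_sort _)) (by simpa using (hV.vs_nil _ _).2 ⟨_, h₁, rfl⟩) rfl
  have eAdm : ∀ N e, V.Adm N (sub (tms ζ) A) e ↔ V.Adm N (sub (tms η) (nf (sub θ A))) e := by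
    intro N e
    unfold ValD.Adm
    rw [nf_congr hcA (hP.ty_wn Wf.nil hAt)]
  have eB : ∀ N ∈ msk P s₀ (sub (tms ζ) A) (V.I P s₀ A ζ []), ∀ e, V.Adm N (sub (tms ζ) A) e →
      msk P s₀ (sub (tms (scons e ζ)) B) (V.I P s₀ B (scons e ζ) []) =
      msk P s₀ (sub (tms (scons e η)) (nf (sub (up θ) B)))
        (V.I P s₀ (nf (sub (up θ) B)) (scons e η) []) := by
    intro N hN e he
    have hNT : HasT P N (sub (tms ζ) A) := ((hV.i_cand A ζ []).masked.le hN).2
    have het : HasT P e.tm (sub (tms ζ) A) := he.1 ▸ hNT.nfT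
    rw [← msk_conv (hcv (ValD.Rel.lift hr e) B)]
    by_cases hlow : LowT P s₀ (sub (tms (scons e ζ)) B)
    · rw [msk_low hlow, msk_low hlow]
    · have hBt : Ty P Set.univ [] (sub (tms (scons e ζ)) B) (srt r₂) := by
        rw [tms_scons]; exact hB.subT (hζ.tsub.cons (het.ty hAt))
      have h₂ : InS P s₀ r₂ := (h₃.cod hl).resolve_right fun h => hlow (LowT.of_ty hBt h)
      have hg : V.Good P s₀ (A :: Δ) (scons e ζ) := hV.good_cons hζ hA het he.2.1 fun _ => by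
        rw [he.2.1, he.2.2.1]
        exact Or.inr ⟨r₁, hAt.nfT Wf.nil, QS.pol ⟨_, _, hl, h₂, h₃⟩⟩
      congr 1
      exact ihB (scons e η) (A :: Δ) (scons e ζ) (up θ) B (srt r₂) true [] [] (Wf.cons hΔ hA) hg
        hB hnB (ValD.Rel.lift hr e) (by simp) (Or.inl (by simpa using tame_sort _))
        (by simpa using (hV.vs_nil _ _).2 ⟨_, h₂, rfl⟩) rfl
  have eS : SNT P (sub (tms ζ) (.pi A B)) =
      SNT P (sub (tms η) (.pi (nf (sub θ A)) (nf (sub (up θ) B)))) := by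
    refine snt_conv (conv_trans (conv_sub_sub (fun i => hV.rel_conv (hr i)) _)
      (conv_sub (fun _ => conv_refl _) ?_))
    exact conv_pi (conv_nf _) (conv_nf _)
  rw [ValD.I, ValD.I, ← eS, ← eA]
  ext F
  refine and_congr_right fun _ => forall₂_congr fun N hN => forall_congr' fun e => ?_
  rw [← eAdm]
  exact imp_congr_right fun he => by rw [eB N hN e he]

theorem ValD.Ok.core (hV : V.Ok P s₀) (hP : Hyp P) (hc : ¬ Config P s₀) {U : Tm}
    (ih : V.IH P s₀ U) {η : ℕ → Ent} {Δ : List Tm} {ζ : ℕ → Ent} {θ : ℕ → Tm} {Q K : Tm}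
    {ε : Bool} {st : List (Tm × Ent)} {sp : List Ent} (hΔ : Wf P Set.univ Δ)
    (hζ : V.Good P s₀ Δ ζ) (hQ : Ty P Set.univ Δ Q K) (hn : Normal Q)
    (hr : ∀ i, V.Rel P s₀ η (θ i) (ζ i)) (hm : ∀ i, V.Mot P s₀ U η (θ i) (ζ i))
    (hst : ∀ x ∈ st, V.IsClo P s₀ η x.1 x.2) (hpt : PT P s₀ (nf (sub (tms ζ) K)) ε)
    (hvs : V.VS (!ε) (nf (sub (tms ζ) K)) (st.map Prod.snd ++ sp))
    (hU : U = apps (sub θ Q) (st.map Prod.fst)) :
    V.I P s₀ Q ζ (st.map Prod.snd ++ sp) = V.I P s₀ (nf U) η sp := by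
  have hwK := hP.wn_type hΔ hζ.tsub hQ
  have hsrt : ∀ t, Conv (srt t) K → st = [] ∧ sp = [] ∧ InS P s₀ t := by
    intro t hc
    have : nf (sub (tms ζ) K) = srt t :=
      nf_eq (conv_sub (M' := srt t) (fun _ => conv_refl _) (conv_symm hc)) (normal_sort _)
    rw [this] at hvs
    obtain ⟨h1, h2⟩ := hV.vs_srt hvs
    simp only [List.append_eq_nil_iff, List.map_eq_nil_iff] at h1
    exact ⟨h1.1, h1.2, h2⟩
  rcases hQ.normal_cases hn with ⟨A, M, rfl⟩ | ⟨A, B, rfl⟩ | ⟨s, rfl⟩ | ⟨x, hx⟩ | ⟨n, hx⟩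
  · obtain ⟨B, s₁, s₂, s₃, hA, hB, -, hM, hcv⟩ := hQ.gen_lam
    obtain ⟨-, hnM⟩ := normal_lam_iff.1 hn
    have hcv' : Conv (sub (tms ζ) K) (.pi (sub (tms ζ) A) (sub (up (tms ζ)) B)) :=
      conv_sub (M' := .pi A B) (fun _ => conv_refl _) (conv_symm hcv)
    have hKe := nf_congr hcv' hwK
    rw [nf_pi (wn_conv hcv' hwK)] at hKe
    rw [hKe] at hpt hvs
    have key : ∀ e l, V.VS (!ε) (.pi (nf (sub (tms ζ) A)) (nf (sub (up (tms ζ)) B))) (e :: l) →
        V.Good P s₀ (A :: Δ) (scons e ζ) ∧ PT P s₀ (nf (sub (tms (scons e ζ)) B)) ε ∧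
        V.VS (!ε) (nf (sub (tms (scons e ζ)) B)) l := by
      intro e l h
      have hcomp := hV.vs_comp h
      obtain ⟨A', K₁, h0, h1, h2, h3, h4, h5, h6⟩ := (hV.vs_cons _ _ _ _).1 h
      injection h0 with h0 h0'
      subst h0 h0'
      have hg : V.Good P s₀ (A :: Δ) (scons e ζ) :=
        hV.good_cons hζ hA (h3.conv (conv_symm (conv_nf _))) h1 fun _ => by
          rw [h1, h4]; exact pt_nrm (hpt.dom hP hcomp)
      have he : nf (inst e.tm (nf (sub (up (tms ζ)) B))) = nf (sub (tms (scons e ζ)) B) := by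
        refine (nf_congr ?_ (hP.ty_wn Wf.nil (hB.subT hg.tsub))).symm
        rw [tms_scons, ← inst_sub_up]
        exact conv_inst (conv_refl _) (conv_nf _)
      exact ⟨hg, he ▸ hpt.cod hP h2 h3, he ▸ h6⟩
    cases st with
    | nil =>
      cases sp with
      | nil => obtain ⟨u, -, h⟩ := (hV.vs_nil _ _).1 hvs; cases h
      | cons e sp =>
        obtain ⟨hg, h1, h2⟩ := key e sp hvs
        have hw := ih.wn
        simp only [List.map_nil, apps_nil, sub_lam] at hU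
        rw [hU] at hw ⊢
        rw [nf_lam hw]
        exact ih.lam _ _ hU (scons e η) (A :: Δ) (scons e ζ) (up θ) M B ε [] sp (Wf.cons hΔ hA) hg
          hM hnM (ValD.Rel.lift hr e) (by simp) h1 h2 rfl
    | cons x st =>
      obtain ⟨t, e⟩ := x
      obtain ⟨hg, h1, h2⟩ := key e _ hvs
      simp only [List.map_cons, apps_cons, sub_lam] at hU
      have := ih.red _ _ _ _ hU η (A :: Δ) (scons e ζ) (scons t θ) M B ε st sp (Wf.cons hΔ hA) hg
        hM hnM (fun i => by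
          cases i with
          | zero => exact (hst (t, e) List.mem_cons_self).rel
          | succ i => exact hr i) (fun y hy => hst y (List.mem_cons_of_mem _ hy)) h1 h2
        (by rw [inst_sub_up])
      rw [nf_congr (hU ▸ conv_apps_left (conv_beta _ _ _) _) ih.wn, ← this]
      rfl
  · obtain ⟨r₁, r₂, r₃, hA, hB, hrule, hcv⟩ := hQ.gen_pi
    obtain ⟨rfl, rfl, h₃⟩ := hsrt _ hcv
    obtain ⟨hnA, hnB⟩ := normal_pi_iff.1 hn
    have hw := ih.wn
    simp only [List.map_nil, apps_nil, sub_pi] at hU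
    obtain ⟨ihA, ihB⟩ := ih.pi _ _ hU
    rw [hU] at hw ⊢
    rw [nf_pi hw]
    exact hV.core_pi hP hΔ hζ hr hA hB hrule h₃ hnA hnB ihA ihB
  · obtain ⟨t, -, hcv⟩ := hQ.gen_srt
    obtain ⟨rfl, rfl, -⟩ := hsrt _ hcv
    subst hU
    simp [ValD.I, full]
  · by_cases hv : V.Valid (ζ x)
    · obtain ⟨-, h2, h3⟩ := hV.push hP hΔ hζ hr (hm x) hv Q hx hn K hQ
      refine h3 st sp hst ?_ hU
      by_cases he : ε = (ζ x).pol
      · exact he ▸ hvs
      · exact hV.vs_tame (PT.tame hP hc (normal_nf hwK) hpt h2 he) hvs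
    · have hb : ∃ j, θ x = .var j ∧ ζ x = η j := by
        have := hr x
        generalize θ x = t at this
        generalize ζ x = e at this hv
        cases this with
        | base j => exact ⟨j, rfl, rfl⟩
        | clo => exact absurd (hV.code_valid _ _ _ _) hv
      obtain ⟨j, h1, h2⟩ := hb
      have hh : head (nf U) = .var j := by
        refine head_nf ih.wn ?_ (Or.inl ⟨j, rfl⟩)
        rw [hU, head_apps, head_sub, hx, sub_var, h1]; rfl
      rw [hV.i_invalid (Or.inl ⟨x, hx, hv⟩), hV.i_invalid (Or.inl ⟨j, hh, h2 ▸ hv⟩), hU]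
      exact snt_conv (hV.full_conv sp hr hst)
  · have hh : head (nf U) = cst n := by
      refine head_nf ih.wn ?_ (Or.inr ⟨_, rfl⟩)
      rw [hU, head_apps, head_sub, hx]; rfl
    rw [hV.i_invalid (Or.inr (Or.inl ⟨_, hx⟩)), hV.i_invalid (Or.inr (Or.inl ⟨_, hh⟩)), hU]
    exact snt_conv (hV.full_conv sp hr hst)

theorem ValD.Ok.unroll (hV : V.Ok P s₀) {η : ℕ → Ent} {π : Bool} {sp : List Ent}
    (st : List (Tm × Ent)) : ∀ (W K : Tm), hdk η W = some (K, π) →
      V.VS (!π) K (st.map Prod.snd ++ sp) →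
      (∀ x ∈ st, V.IsClo P s₀ η x.1 x.2 ∧ V.PS P s₀ x.1) →
      V.I P s₀ (apps W ((st.map Prod.fst).map nf)) η sp = V.I P s₀ W η (st.map Prod.snd ++ sp) := by
  induction st with
  | nil => intro W K _ _ _; rfl
  | cons x st ih =>
    obtain ⟨t, e⟩ := x
    intro W K hW hvs hst
    obtain ⟨A, K₁, rfl, h1, h2, -, h4, -, h6⟩ := (hV.vs_cons _ _ _ _).1 hvs
    obtain ⟨hclo, hps⟩ := hst (t, e) List.mem_cons_self
    have htm : nf (sub (tms η) (nf t)) = e.tm :=
      nf_eq (conv_symm (conv_trans (hV.rel_conv hclo.rel)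
        (conv_sub (fun _ => conv_refl _) (conv_nf _)))) h2
    have he : V.mkE (nf (sub (tms η) (nf t))) A (!π) (V.I P s₀ (nf t) η) = e := by
      rw [htm]
      obtain ⟨Δ, Q, KQ, θ, ζ, π', g1, g2, g3, g4, g5, g6, g7, g8⟩ := hclo
      dsimp only at g7 g8 hps
      subst g8
      rw [hV.mk_ki] at h1
      subst h1
      rw [hV.mk_pol] at h4
      rw [hV.mk_tm]
      refine (hV.mk_ext _ _ _ _ _ _ h4 fun sp' hsp' => ?_).symm
      exact hps η Δ ζ θ Q KQ π' [] sp' g1 g2 g3 g4 g6 (by simp) g5 hsp' g7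
    have := ih (.app W (nf t)) (nf (inst e.tm K₁)) (by simp [hdk, hW, htm]) h6
      fun y hy => hst y (List.mem_cons_of_mem _ hy)
    simp only [List.map_cons, apps_cons, List.cons_append]
    rw [this, ValD.I, hW]
    dsimp only
    rw [he]

theorem ValD.Ok.mot (hV : V.Ok P s₀) (hP : Hyp P) (hc : ¬ Config P s₀) {U : Tm}
    (ih : V.IH P s₀ U) {η : ℕ → Ent} {t : Tm} {e : Ent} (h : V.Rel P s₀ η t e) :
    V.Mot P s₀ U η t e := by
  induction h with
  | base i =>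
    intro st sp hst _ hvs hU
    have hw := ih.wn
    have hps := ih.var i _ hU
    rw [hU] at hw ⊢
    rw [nf_apps (fun A B e => by cases e) hw, nf_of_normal (normal_var i),
      hV.unroll st (.var i) _ rfl hvs fun x hx => ⟨hst x hx, hps _ (List.mem_map_of_mem hx)⟩]
    rfl
  | @clo Δ Q K θ ζ π h1 h2 h3 h4 h5 h6 ihm =>
    intro st sp hst _ hvs hU
    rw [hV.mk_pol, hV.mk_ki] at hvs
    have hvs' : V.VS (!π) (nf (sub (tms ζ) K)) (st.map Prod.snd ++ sp) := by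
      by_cases ht : Tame P s₀ (nf (sub (tms ζ) K))
      · exact hV.vs_tame ht hvs
      · simpa [nrm, ht] using hvs
    obtain ⟨r, hr⟩ := h2.rk
    rw [hV.hv_code Q _ π hr hvs']
    exact hV.core hP hc ih h1 h2 h3 h4 h6 ihm hst h5 hvs' hU

theorem apps_inj {h h' : Tm} {ts ts' : List Tm} (e : apps h ts = apps h' ts')
    (hh : ∀ A B, h ≠ .app A B) (hh' : ∀ A B, h' ≠ .app A B) : h = h' ∧ ts = ts' := by
  have a1 : ∀ {h : Tm}, (∀ A B, h ≠ .app A B) → head h = h ∧ args h = [] := by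
    intro h hh
    cases h with
    | app A B => exact absurd rfl (hh A B)
    | _ => exact ⟨rfl, rfl⟩
  have e1 := congrArg head e
  have e2 := congrArg args e
  rw [head_apps, head_apps, (a1 hh).1, (a1 hh').1] at e1
  rw [args_apps, args_apps, (a1 hh).2, (a1 hh').2] at e2
  exact ⟨e1, by simpa using e2⟩

theorem ValD.Ok.ps (hV : V.Ok P s₀) (hP : Hyp P) (hc : ¬ Config P s₀) {U : Tm} (h : WNi U) :
    V.PS P s₀ U := by
  have step : ∀ {U}, V.IH P s₀ U → V.PS P s₀ U := fun ih η Δ ζ θ Q K ε st sp h1 h2 h3 h4 h5 h6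
    h7 h8 h9 => hV.core hP hc ih h1 h2 h3 h4 h5 (fun i => hV.mot hP hc ih (h5 i)) h6 h7 h8 h9
  have hw := h.wn
  induction h with
  | var i ts hts ih =>
    refine step ⟨hw, fun j us e => ?_, fun A B e => ?_, fun A B e => ?_, fun A M N us e => ?_⟩
    · obtain ⟨-, rfl⟩ := apps_inj e (by simp) (by simp)
      exact fun t ht => ih t ht (hts t ht).wn
    · have := congrArg head e; simp [head] at this
    · have := congrArg head e; simp [head] at this
    · have := congrArg head e; simp [head] at this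
  | sort s ts hts ih =>
    refine step ⟨hw, fun j us e => ?_, fun A B e => ?_, fun A B e => ?_, fun A M N us e => ?_⟩
    all_goals (have := congrArg head e; simp [head] at this)
  | pi A B ts hA hB hts ihA ihB ih =>
    refine step ⟨hw, fun j us e => ?_, fun A' B' e => ?_, fun A B e => ?_, fun A M N us e => ?_⟩
    · have := congrArg head e; simp [head] at this
    · have := congrArg head e
      simp only [head_apps, head, Term.pi.injEq] at this
      obtain ⟨rfl, rfl⟩ := this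
      exact ⟨ihA hA.wn, ihB hB.wn⟩
    · have := congrArg head e; simp [head] at this
    · have := congrArg head e; simp [head] at this
  | lam A M hA hM ihA ihM =>
    refine step ⟨hw, fun j us e => ?_, fun A' B' e => ?_, fun A' B' e => ?_, fun A' M' N us e => ?_⟩
    · have := congrArg head e; simp [head] at this
    · cases e
    · cases e; exact ihM hM.wn
    · have := (apps_inj (ts := []) (ts' := N :: us) e (by simp) (by simp)).2
      cases this
  | red A M N ts hr ih =>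
    refine step ⟨hw, fun j us e => ?_, fun A' B' e => ?_, fun A' B' e => ?_, fun A' M' N' us e => ?_⟩
    · have := congrArg head e; simp [head] at this
    · have := congrArg head e; simp [head] at this
    · have := (apps_inj (ts := N :: ts) (ts' := []) e (by simp) (by simp)).2
      cases this
    · obtain ⟨h1, h2⟩ := apps_inj (ts := N :: ts) (ts' := N' :: us) e (by simp) (by simp)
      cases h1; cases h2
      exact ih hr.wn

theorem ValD.Ok.subst_eq (hV : V.Ok P s₀) (hP : Hyp P)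
    (hc : ¬ Config P s₀) {Γ : List Tm} {η : ℕ → Ent} {A B Q : Tm} {r₁ r₂ : ℕ}
    (hΓ : Wf P Set.univ Γ) (hη : V.Good P s₀ Γ η) (hA : Ty P Set.univ Γ A (srt r₁))
    (hB : Ty P Set.univ (A :: Γ) B (srt r₂)) (hq : QS P s₀ r₁) (h₂ : InS P s₀ r₂) (hBn : Normal B)
    (hQ : Ty P Set.univ Γ Q A) :
    V.I P s₀ B (scons (V.mkE (nf (sub (tms η) (nf Q))) (nf (sub (tms η) A)) true
      (V.I P s₀ (nf Q) η)) η) [] = V.I P s₀ (nf (inst Q B)) η [] := by
  have hQn := hQ.nfT hΓ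
  have hnQ := normal_nf (hP.ty_wn hΓ hQ)
  have hAt := hA.subT hη.tsub
  have hpt : PT P s₀ (nf (sub (tms η) A)) true := Or.inr ⟨r₁, hAt.nfT Wf.nil, hq.pol⟩
  have hU := hB.instT hQn
  have hg : V.Good P s₀ (A :: Γ) (scons (V.mkE (nf (sub (tms η) (nf Q))) (nf (sub (tms η) A)) true
      (V.I P s₀ (nf Q) η)) η) := by
    refine hV.good_cons hη hA ?_ (hV.mk_ki _ _ _ _) fun _ => ?_
    · rw [hV.mk_tm]; exact (HasT.of_ty (hQn.subT hη.tsub)).nfT
    · rw [hV.mk_ki, hV.mk_pol]; exact pt_nrm hpt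
  have := hV.ps hP hc (wni_of_wn (hP.ty_wn hΓ hU)) η (A :: Γ) _ (scons (nf Q) Term.var) B (srt r₂)
    true [] [] (Wf.cons hΓ hA) hg hB hBn (fun i => by
      cases i with
      | zero =>
        have := ValD.Rel.clo (η := η) (θ := Term.var) hΓ hη hQn hnQ hpt fun i => ValD.Rel.base i
        rwa [sub_id] at this
      | succ i => exact ValD.Rel.base i) (by simp) (Or.inl (by simpa using tame_sort _))
    (by simpa using (hV.vs_nil _ _).2 ⟨_, h₂, rfl⟩) rfl
  rw [nf_congr (conv_inst (conv_nf Q) (conv_refl B)) (hP.ty_wn hΓ (hB.instT hQ))]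
  exact this

end Crest.Agent.R298
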