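import Crest.Agent.R298.Syntax

/-! Row 298. Church–Rosser, conversion, normal forms. -/

set_option autoImplicit false

namespace Crest.Agent.R298
open Crest.LogicCS.PTS Crest.LogicCS.PTS.Term

/-- Parallel reduction. -/
inductive Par : Tm → Tm → Prop
  | var (i : ℕ) : Par (.var i) (.var i)
  | sort (s : ℕ ⊕ ℕ) : Par (.sort s) (.sort s)
  | app {M M' N N' : Tm} : Par M M' → Par N N' → Par (.app M N) (.app M' N')
  | lam {A A' M M' : Tm} : Par A A' → Par M M' → Par (.lam A M) (.lam A' M')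
  | pi {A A' B B' : Tm} : Par A A' → Par B B' → Par (.pi A B) (.pi A' B')
  | beta (A : Tm) {M M' N N' : Tm} : Par M M' → Par N N' → Par (.app (.lam A M) N) (inst N' M')

theorem Par.refl (M : Tm) : Par M M := by
  induction M with
  | var i => exact .var i
  | sort s => exact .sort s
  | app M N ihM ihN => exact .app ihM ihN
  | lam A M ihA ihM => exact .lam ihA ihM
  | pi A B ihA ihB => exact .pi ihA ihB

theorem Par.of_beta {M N : Tm} (h : Beta M N) : Par M N := by
  induction h with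
  | redex A M N => rw [subst_eq]; exact .beta A (.refl M) (.refl N)
  | appL N _ ih => exact .app ih (.refl N)
  | appR M _ ih => exact .app (.refl M) ih
  | lamA M _ ih => exact .lam ih (.refl M)
  | lamM A _ ih => exact .lam (.refl A) ih
  | piA B _ ih => exact .pi ih (.refl B)
  | piB A _ ih => exact .pi (.refl A) ih

theorem Par.red {M N : Tm} (h : Par M N) : Red M N := by
  induction h with
  | var i => exact .refl
  | sort s => exact .refl
  | app _ _ ihM ihN => exact red_app ihM ihN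
  | lam _ _ ihA ihM => exact red_lam ihA ihM
  | pi _ _ ihA ihB => exact red_pi ihA ihB
  | beta A _ _ ihM ihN => exact (red_app (red_lam .refl ihM) ihN).tail (beta_redex _ _ _)

theorem Par.ren {M N : Tm} (h : Par M N) (ξ : ℕ → ℕ) : Par (ren ξ M) (ren ξ N) := by
  induction h generalizing ξ with
  | var i => exact .var _
  | sort s => exact .sort s
  | app _ _ ihM ihN => exact .app (ihM ξ) (ihN ξ)
  | lam _ _ ihA ihM => exact .lam (ihA ξ) (ihM _)
  | pi _ _ ihA ihB => exact .pi (ihA ξ) (ihB _)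
  | beta A _ _ ihM ihN => rw [ren_inst]; exact .beta _ (ihM _) (ihN ξ)

theorem par_up {θ θ' : ℕ → Tm} (h : ∀ i, Par (θ i) (θ' i)) (i : ℕ) : Par (up θ i) (up θ' i) := by
  cases i with
  | zero => exact .var 0
  | succ i => exact (h i).ren _

theorem Par.sub {M N : Tm} (h : Par M N) {θ θ' : ℕ → Tm} (hθ : ∀ i, Par (θ i) (θ' i)) :
    Par (sub θ M) (sub θ' N) := by
  induction h generalizing θ θ' with
  | var i => exact hθ i
  | sort s => exact .sort s
  | app _ _ ihM ihN => exact .app (ihM hθ) (ihN hθ)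
  | lam _ _ ihA ihM => exact .lam (ihA hθ) (ihM (par_up hθ))
  | pi _ _ ihA ihB => exact .pi (ihA hθ) (ihB (par_up hθ))
  | beta A _ _ ihM ihN => rw [sub_inst']; exact .beta _ (ihM (par_up hθ)) (ihN hθ)

theorem Par.inst {M M' N N' : Tm} (hN : Par N N') (hM : Par M M') :
    Par (inst N M) (inst N' M') :=
  hM.sub fun i => by
    cases i with
    | zero => exact hN
    | succ i => exact .var i

/-- Complete development. -/
def rho : Tm → Tm
  | .var i => .var i
  | .sort s => .sort s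
  | .app (.lam _ M) N => inst (rho N) (rho M)
  | .app M N => .app (rho M) (rho N)
  | .lam A M => .lam (rho A) (rho M)
  | .pi A B => .pi (rho A) (rho B)

theorem Par.triangle {M N : Tm} (h : Par M N) : Par N (rho M) := by
  induction h with
  | var i => exact .var i
  | sort s => exact .sort s
  | @app M M' N N' hM _ ihM ihN =>
    cases hM with
    | lam _ _ =>
      simp only [rho] at ihM ⊢
      cases ihM with
      | lam _ h2 => exact .beta _ h2 ihN
    | var i => exact .app ihM ihN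
    | sort s => exact .app ihM ihN
    | app _ _ => exact .app ihM ihN
    | pi _ _ => exact .app ihM ihN
    | beta _ _ _ => exact .app ihM ihN
  | lam _ _ ihA ihM => exact .lam ihA ihM
  | pi _ _ ihA ihB => exact .pi ihA ihB
  | beta A _ _ ihM ihN => exact ihN.inst ihM

theorem red_iff_par {M N : Tm} : Red M N ↔ Relation.ReflTransGen Par M N := by
  constructor <;> intro h
  · induction h with
    | refl => exact .refl
    | tail _ h ih => exact ih.tail (Par.of_beta h)
  · induction h with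
    | refl => exact .refl
    | tail _ h ih => exact ih.trans h.red

theorem confluence {M N L : Tm} (h1 : Red M N) (h2 : Red M L) : ∃ W, Red N W ∧ Red L W := by
  obtain ⟨W, h3, h4⟩ := Relation.church_rosser (r := Par)
    (fun a b c hb hc => ⟨rho a, .single hb.triangle, .single hc.triangle⟩)
    (red_iff_par.1 h1) (red_iff_par.1 h2)
  exact ⟨W, red_iff_par.2 h3, red_iff_par.2 h4⟩

theorem conv_of_red' {M N : Tm} (h : Red M N) : Conv M N := by
  induction h with
  | refl => exact Relation.EqvGen.refl M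
  | tail _ h ih => exact Relation.EqvGen.trans _ _ _ ih (Relation.EqvGen.rel _ _ h)

theorem conv_iff {M N : Tm} : Conv M N ↔ ∃ W, Red M W ∧ Red N W := by
  constructor
  · intro h
    induction h with
    | rel a b h => exact ⟨b, .single h, .refl⟩
    | refl a => exact ⟨a, .refl, .refl⟩
    | symm a b _ ih => exact ih.imp fun _ h => h.symm
    | trans a b c _ _ ih1 ih2 =>
      obtain ⟨W, h1, h2⟩ := ih1
      obtain ⟨W', h3, h4⟩ := ih2
      obtain ⟨Z, h5, h6⟩ := confluence h2 h3
      exact ⟨Z, h1.trans h5, h4.trans h6⟩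
  · rintro ⟨W, h1, h2⟩
    exact Relation.EqvGen.trans _ _ _ (conv_of_red' h1) (Relation.EqvGen.symm _ _ (conv_of_red' h2))

theorem conv_refl (M : Tm) : Conv M M := Relation.EqvGen.refl M
theorem conv_symm {M N : Tm} (h : Conv M N) : Conv N M := Relation.EqvGen.symm _ _ h
theorem conv_trans {M N L : Tm} (h : Conv M N) (h' : Conv N L) : Conv M L :=
  Relation.EqvGen.trans _ _ _ h h'
theorem conv_of_beta {M N : Tm} (h : Beta M N) : Conv M N := Relation.EqvGen.rel _ _ h
theorem conv_of_eq {M N : Tm} (h : M = N) : Conv M N := h ▸ conv_refl M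

theorem conv_of_red {M N : Tm} (h : Red M N) : Conv M N := by
  exact conv_of_red' h

theorem conv_beta (A M N : Tm) : Conv (.app (.lam A M) N) (inst N M) :=
  conv_of_beta (beta_redex A M N)

theorem conv_app {M M' N N' : Tm} (h1 : Conv M M') (h2 : Conv N N') :
    Conv (.app M N) (.app M' N') := by
  obtain ⟨W, a1, a2⟩ := conv_iff.1 h1
  obtain ⟨W', b1, b2⟩ := conv_iff.1 h2
  exact conv_iff.2 ⟨_, red_app a1 b1, red_app a2 b2⟩

theorem conv_lam {A A' M M' : Tm} (h1 : Conv A A') (h2 : Conv M M') :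
    Conv (.lam A M) (.lam A' M') := by
  obtain ⟨W, a1, a2⟩ := conv_iff.1 h1
  obtain ⟨W', b1, b2⟩ := conv_iff.1 h2
  exact conv_iff.2 ⟨_, red_lam a1 b1, red_lam a2 b2⟩

theorem conv_pi {A A' B B' : Tm} (h1 : Conv A A') (h2 : Conv B B') :
    Conv (.pi A B) (.pi A' B') := by
  obtain ⟨W, a1, a2⟩ := conv_iff.1 h1
  obtain ⟨W', b1, b2⟩ := conv_iff.1 h2
  exact conv_iff.2 ⟨_, red_pi a1 b1, red_pi a2 b2⟩

theorem conv_sub {θ θ' : ℕ → Tm} {M M' : Tm} (hθ : ∀ i, Conv (θ i) (θ' i)) (h : Conv M M') :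
    Conv (sub θ M) (sub θ' M') := by
  choose τ h1 h2 using fun i => conv_iff.1 (hθ i)
  obtain ⟨W, a1, a2⟩ := conv_iff.1 h
  exact conv_iff.2 ⟨sub τ W, (red_sub θ a1).trans (red_sub_left h1 W),
    (red_sub θ' a2).trans (red_sub_left h2 W)⟩

theorem conv_ren {M M' : Tm} (ξ : ℕ → ℕ) (h : Conv M M') : Conv (ren ξ M) (ren ξ M') := by
  obtain ⟨W, a1, a2⟩ := conv_iff.1 h
  exact conv_iff.2 ⟨_, red_ren ξ a1, red_ren ξ a2⟩

theorem conv_wk {M M' : Tm} (h : Conv M M') : Conv (wk M) (wk M') := conv_ren _ h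

theorem conv_gs {M M' : Tm} (θ f : ℕ → Tm) (h : Conv M M') : Conv (gs θ f M) (gs θ f M') := by
  induction h with
  | rel a b h => exact conv_of_beta (beta_gs θ f h)
  | refl a => exact conv_refl _
  | symm a b _ ih => exact conv_symm ih
  | trans a b c _ _ ih1 ih2 => exact conv_trans ih1 ih2

theorem conv_inst {N N' M M' : Tm} (h1 : Conv N N') (h2 : Conv M M') :
    Conv (inst N M) (inst N' M') := by
  refine conv_sub (fun i => ?_) h2
  cases i with
  | zero => exact h1
  | succ i => exact conv_refl _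

theorem conv_scons {N N' : Tm} {θ θ' : ℕ → Tm} (h1 : Conv N N') (h : ∀ i, Conv (θ i) (θ' i))
    (i : ℕ) : Conv (scons N θ i) (scons N' θ' i) := by
  cases i with
  | zero => exact h1
  | succ i => exact h i

theorem conv_apps {M M' : Tm} {ts ts' : List Tm} (h : Conv M M') (hts : List.Forall₂ Conv ts ts') :
    Conv (apps M ts) (apps M' ts') := by
  induction hts generalizing M M' with
  | nil => exact h
  | cons h1 _ ih => exact ih (conv_app h h1)

theorem conv_apps_left {M M' : Tm} (h : Conv M M') (ts : List Tm) :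
    Conv (apps M ts) (apps M' ts) := by
  exact conv_apps h (List.forall₂_same.2 fun t _ => conv_refl t)

theorem conv_pi_inj {A A' B B' : Tm} (h : Conv (.pi A B) (.pi A' B')) : Conv A A' ∧ Conv B B' := by
  obtain ⟨W, a1, a2⟩ := conv_iff.1 h
  obtain ⟨A1, B1, rfl, h1, h2⟩ := red_pi_inv a1
  obtain ⟨A2, B2, e, h3, h4⟩ := red_pi_inv a2
  cases e
  exact ⟨conv_iff.2 ⟨_, h1, h3⟩, conv_iff.2 ⟨_, h2, h4⟩⟩

theorem conv_normal_eq {M N : Tm} (h : Conv M N) (hM : Normal M) (hN : Normal N) : M = N := by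
  obtain ⟨W, a1, a2⟩ := conv_iff.1 h
  exact (normal_red_eq hM a1).symm.trans (normal_red_eq hN a2)

theorem conv_normal_red {M N : Tm} (h : Conv M N) (hN : Normal N) : Red M N := by
  obtain ⟨W, a1, a2⟩ := conv_iff.1 h
  rwa [normal_red_eq hN a2] at a1

theorem conv_sort_inj {s t : ℕ ⊕ ℕ} (h : Conv (.sort s) (.sort t)) : s = t := by
  cases conv_normal_eq h (normal_sort s) (normal_sort t)
  rfl

theorem conv_srt_inj {s t : ℕ} (h : Conv (srt s) (srt t)) : s = t :=
  Sum.inl_injective (conv_sort_inj h)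

theorem not_conv_sort_pi {s : ℕ ⊕ ℕ} {A B : Tm} : ¬ Conv (.sort s) (.pi A B) := by
  intro h
  obtain ⟨A', B', e, -⟩ := red_pi_inv (conv_normal_red (conv_symm h) (normal_sort s))
  cases e

theorem conv_pi_red {M A B : Tm} (h : Conv M (.pi A B)) :
    ∃ A' B', Red M (.pi A' B') ∧ Red A A' ∧ Red B B' := by
  obtain ⟨W, a1, a2⟩ := conv_iff.1 h
  obtain ⟨A', B', rfl, h1, h2⟩ := red_pi_inv a2
  exact ⟨A', B', a1, h1, h2⟩

theorem wn_conv {M N : Tm} (h : Conv M N) (hM : WN M) : WN N := by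
  obtain ⟨W, h1, h2⟩ := hM
  exact ⟨W, conv_normal_red (conv_trans (conv_symm h) (conv_of_red h1)) h2, h2⟩

theorem wn_of_normal {M : Tm} (h : Normal M) : WN M := ⟨M, Relation.ReflTransGen.refl, h⟩

open Classical in
/-- The normal form of a weakly normalizing term (the term itself otherwise). -/
noncomputable def nf (M : Tm) : Tm := if h : WN M then Classical.choose h else M

theorem red_nf (M : Tm) : Red M (nf M) := by
  unfold nf
  split_ifs with h
  · exact (Classical.choose_spec h).1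
  · exact .refl

theorem conv_nf (M : Tm) : Conv M (nf M) := conv_of_red (red_nf M)

theorem normal_nf {M : Tm} (h : WN M) : Normal (nf M) := by
  unfold nf
  rw [dif_pos h]
  exact (Classical.choose_spec h).2

theorem nf_eq {M N : Tm} (h : Conv M N) (hN : Normal N) : nf M = N := by
  exact conv_normal_eq (conv_trans (conv_symm (conv_nf M)) h)
    (normal_nf (wn_conv (conv_symm h) (wn_of_normal hN))) hN

theorem nf_of_normal {M : Tm} (h : Normal M) : nf M = M := nf_eq (conv_refl M) h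

theorem nf_congr {M N : Tm} (h : Conv M N) (hM : WN M) : nf M = nf N := by
  exact nf_eq (conv_trans h (conv_nf N)) (normal_nf (wn_conv h hM))

theorem nf_nf (M : Tm) : nf (nf M) = nf M := by
  by_cases h : WN M
  · exact nf_of_normal (normal_nf h)
  · have e : nf M = M := by
      unfold nf
      rw [dif_neg h]
    rw [e, e]

@[simp] theorem nf_sort (s : ℕ ⊕ ℕ) : nf (.sort s) = .sort s := nf_of_normal (normal_sort s)

theorem wn_pi_iff {A B : Tm} : WN (.pi A B) ↔ WN A ∧ WN B := by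
  constructor
  · rintro ⟨W, h1, h2⟩
    obtain ⟨A', B', rfl, h3, h4⟩ := red_pi_inv h1
    exact ⟨⟨A', h3, (normal_pi_iff.1 h2).1⟩, ⟨B', h4, (normal_pi_iff.1 h2).2⟩⟩
  · rintro ⟨⟨A', h1, h2⟩, B', h3, h4⟩
    exact ⟨_, red_pi h1 h3, normal_pi_iff.2 ⟨h2, h4⟩⟩

theorem wn_lam_iff {A M : Tm} : WN (.lam A M) ↔ WN A ∧ WN M := by
  constructor
  · rintro ⟨W, h1, h2⟩
    obtain ⟨A', B', rfl, h3, h4⟩ := red_lam_inv h1
    exact ⟨⟨A', h3, (normal_lam_iff.1 h2).1⟩, ⟨B', h4, (normal_lam_iff.1 h2).2⟩⟩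
  · rintro ⟨⟨A', h1, h2⟩, B', h3, h4⟩
    exact ⟨_, red_lam h1 h3, normal_lam_iff.2 ⟨h2, h4⟩⟩

theorem nf_pi {A B : Tm} (h : WN (.pi A B)) : nf (.pi A B) = .pi (nf A) (nf B) := by
  exact nf_eq (conv_pi (conv_nf _) (conv_nf _))
    (normal_pi_iff.2 ⟨normal_nf (wn_pi_iff.1 h).1, normal_nf (wn_pi_iff.1 h).2⟩)

theorem nf_lam {A M : Tm} (h : WN (.lam A M)) : nf (.lam A M) = .lam (nf A) (nf M) := by
  exact nf_eq (conv_lam (conv_nf _) (conv_nf _))
    (normal_lam_iff.2 ⟨normal_nf (wn_lam_iff.1 h).1, normal_nf (wn_lam_iff.1 h).2⟩)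

theorem neu_red {M N : Tm} (h : Neu M) (hr : Red M N) : Neu N := by
  induction hr with
  | refl => exact h
  | tail _ hb ih => exact ih.beta hb

theorem forall₂_red_step {ts us vs : List Tm} {t t' : Tm}
    (h : List.Forall₂ Red ts (us ++ t :: vs)) (hb : Beta t t') :
    List.Forall₂ Red ts (us ++ t' :: vs) := by
  induction us generalizing ts with
  | nil =>
    cases h with
    | cons a b => exact .cons (a.tail hb) b
  | cons u us ih =>
    cases h with
    | cons a b => exact .cons a (ih b)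

theorem red_apps_neu_inv {h L : Tm} {ts : List Tm} (hn : Neu h) (hr : Red (apps h ts) L) :
    ∃ h' ts', L = apps h' ts' ∧ Red h h' ∧ List.Forall₂ Red ts ts' := by
  induction hr with
  | refl => exact ⟨h, ts, rfl, .refl, List.forall₂_same.2 fun _ _ => .refl⟩
  | tail _ hb ih =>
    obtain ⟨h', ts', rfl, h1, h2⟩ := ih
    rcases beta_apps_inv (neu_red hn h1) hb with ⟨h'', h3, rfl⟩ | ⟨us, t, t', vs, rfl, h3, rfl⟩
    · exact ⟨h'', ts', rfl, h1.tail h3, h2⟩
    · exact ⟨h', _, rfl, h1, forall₂_red_step h2 h3⟩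

theorem normal_apps_inv {h : Tm} {ts : List Tm} (hn : Normal (apps h ts)) :
    Normal h ∧ ∀ t ∈ ts, Normal t := by
  induction ts generalizing h with
  | nil => exact ⟨hn, by simp⟩
  | cons t ts ih =>
    obtain ⟨h1, h2⟩ := ih (h := .app h t) hn
    obtain ⟨h3, h4, -⟩ := normal_app_iff.1 h1
    exact ⟨h3, List.forall_mem_cons.2 ⟨h4, h2⟩⟩

theorem wn_apps_args {h : Tm} {ts : List Tm} (hn : Neu h) (hw : WN (apps h ts)) :
    WN h ∧ ∀ t ∈ ts, WN t := by
  obtain ⟨W, h1, h2⟩ := hw
  obtain ⟨h', ts', rfl, h3, h4⟩ := red_apps_neu_inv hn h1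
  obtain ⟨h5, h6⟩ := normal_apps_inv h2
  refine ⟨⟨h', h3, h5⟩, ?_⟩
  clear h1 h2
  induction h4 with
  | nil => simp
  | cons a _ ih =>
    intro t ht
    rcases List.mem_cons.1 ht with rfl | ht
    · exact ⟨_, a, h6 _ List.mem_cons_self⟩
    · exact ih (fun x hx => h6 x (List.mem_cons_of_mem _ hx)) t ht

theorem nf_apps {h : Tm} {ts : List Tm} (hn : Neu h) (hw : WN (apps h ts)) :
    nf (apps h ts) = apps (nf h) (ts.map nf) := by
  obtain ⟨h1, h2⟩ := wn_apps_args hn hw
  refine nf_eq (conv_apps (conv_nf h) ?_) fun L hL => ?_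
  · rw [List.forall₂_map_right_iff]
    exact List.forall₂_same.2 fun t _ => conv_nf t
  · rcases beta_apps_inv (neu_red hn (red_nf h)) hL with ⟨h', h3, -⟩ | ⟨us, t, t', vs, e, h3, -⟩
    · exact normal_nf h1 _ h3
    · have : t ∈ ts.map nf := by simp [e]
      obtain ⟨u, hu, rfl⟩ := List.mem_map.1 this
      exact normal_nf (h2 u hu) _ h3

theorem wn_ren {M : Tm} (ξ : ℕ → ℕ) (h : WN M) : WN (ren ξ M) := by
  obtain ⟨W, h1, h2⟩ := h
  exact ⟨_, red_ren ξ h1, normal_ren h2 ξ⟩

theorem nf_ren {M : Tm} (ξ : ℕ → ℕ) (h : WN M) : nf (ren ξ M) = ren ξ (nf M) := by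
  exact nf_eq (conv_ren ξ (conv_nf M)) (normal_ren (normal_nf h) ξ)

theorem nf_wk {M : Tm} (h : WN M) : nf (wk M) = wk (nf M) := nf_ren _ h

end Crest.Agent.R298
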