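import Mathlib

/-! Row 298. Mirimanoff's paradox in an abstract three-sorted structure. -/

set_option autoImplicit false

namespace Crest.Agent.R298

/-- Node terms. -/
inductive NT
  | v (i : ℕ)
  | pk (k : ℕ)

/-- Formulas with named variables of three sorts. -/
inductive Fm
  | mem (a b : NT)
  | in1 (a : NT) (j : ℕ)
  | in2 (j k : ℕ)
  | imp (φ ψ : Fm)
  | neg (φ : Fm)
  | allN (i : ℕ) (φ : Fm)
  | allP (j : ℕ) (φ : Fm)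
  | allS (k : ℕ) (φ : Fm)
  | call (φ : Fm) (a b : NT) (j k : ℕ)

structure MD where
  N : Type
  P : Type
  S : Type
  mem : N → N → Prop
  in1 : N → P → Prop
  in2 : P → S → Prop
  pack : S → N
  rr : S → P → S

namespace MD
variable (m : MD)

def ev (ρ : ℕ → m.N) (σ : ℕ → m.S) : NT → m.N
  | .v i => ρ i
  | .pk k => m.pack (σ k)

def Sat : Fm → (ℕ → m.N) → (ℕ → m.P) → (ℕ → m.S) → Prop
  | .mem a b, ρ, _, σ => m.mem (m.ev ρ σ a) (m.ev ρ σ b)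
  | .in1 a j, ρ, π, σ => m.in1 (m.ev ρ σ a) (π j)
  | .in2 j k, _, π, σ => m.in2 (π j) (σ k)
  | .imp φ ψ, ρ, π, σ => Sat φ ρ π σ → Sat ψ ρ π σ
  | .neg φ, ρ, π, σ => ¬ Sat φ ρ π σ
  | .allN i φ, ρ, π, σ => ∀ n, Sat φ (Function.update ρ i n) π σ
  | .allP j φ, ρ, π, σ => ∀ p, Sat φ ρ (Function.update π j p) σ
  | .allS k φ, ρ, π, σ => ∀ s, Sat φ ρ π (Function.update σ k s)
  | .call φ a b j k, ρ, π, σ =>
    Sat φ (fun i => if i = 0 then m.ev ρ σ a else m.ev ρ σ b) (fun _ => π j) (fun _ => σ k)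

structure Ok : Prop where
  neN : Nonempty m.N
  neP : Nonempty m.P
  neS : Nonempty m.S
  in_rr : ∀ s p p', m.in2 p' (m.rr s p) ↔
    (m.in2 p' s ∧ (∀ n, m.in1 n p' → m.in1 n p) ∧ ¬ ∀ n, m.in1 n p → m.in1 n p')
  mem_pack : ∀ s w, m.mem w (m.pack s) ↔
    ∃ p, m.in2 p s ∧ ∀ q, m.in1 (m.pack (m.rr s p)) q → m.in1 w q
  compN : ∀ φ ρ π σ i, ∃ p, ∀ n, m.in1 n p ↔ m.Sat φ (Function.update ρ i n) π σ
  compP : ∀ φ ρ π σ j, ∃ s, ∀ p, m.in2 p s ↔ m.Sat φ ρ (Function.update π j p) σ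

def Leib (a b : m.N) : Prop := ∀ p, m.in1 a p → m.in1 b p
def Wf (x : m.N) : Prop := ∀ p, (∀ z, (∀ w, m.mem w z → m.in1 w p) → m.in1 z p) → m.in1 x p
def Star (z x : m.N) : Prop :=
  ∀ p, (∀ a b, m.in1 a p → m.mem b a → m.in1 b p) → m.in1 x p → m.in1 z p
def Plus (z x : m.N) : Prop := ∃ w, m.mem w x ∧ m.Star z w
def InO (p : m.P) : Prop := ∃ x, m.Wf x ∧ ∀ z, m.in1 z p ↔ m.Star z x
def Gd (s : m.S) (x : m.N) : Prop :=
  ∀ p, m.in2 p s ↔ (m.InO p ∧ (∀ z, m.in1 z p → m.Star z x) ∧ ¬ ∀ z, m.Star z x → m.in1 z p)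

end MD

namespace Fm
def and (φ ψ : Fm) : Fm := neg (imp φ (neg ψ))
def or (φ ψ : Fm) : Fm := imp (neg φ) ψ
def iff (φ ψ : Fm) : Fm := and (imp φ ψ) (imp ψ φ)
def exN (i : ℕ) (φ : Fm) : Fm := neg (allN i (neg φ))
def leib (a b : NT) : Fm := call (allP 1 (imp (in1 (.v 0) 1) (in1 (.v 1) 1))) a b 0 0
def wf (a : NT) : Fm :=
  call (allP 1 (imp (allN 2 (imp (allN 3 (imp (mem (.v 3) (.v 2)) (in1 (.v 3) 1))) (in1 (.v 2) 1)))
    (in1 (.v 0) 1))) a a 0 0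
def star (a b : NT) : Fm :=
  call (allP 1 (imp (allN 2 (allN 3 (imp (in1 (.v 2) 1) (imp (mem (.v 3) (.v 2)) (in1 (.v 3) 1)))))
    (imp (in1 (.v 1) 1) (in1 (.v 0) 1)))) a b 0 0
def plus (a b : NT) : Fm :=
  call (exN 2 (and (mem (.v 2) (.v 1)) (star (.v 0) (.v 2)))) a b 0 0
def inO (j : ℕ) : Fm :=
  call (exN 2 (and (wf (.v 2)) (allN 3 (iff (in1 (.v 3) 0) (star (.v 3) (.v 2)))))) (.v 0) (.v 0) j 0
def gd (k : ℕ) (a : NT) : Fm :=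
  call (allP 1 (iff (in2 1 0) (and (inO 1) (and (allN 2 (imp (in1 (.v 2) 1) (star (.v 2) (.v 0))))
    (neg (allN 2 (imp (star (.v 2) (.v 0)) (in1 (.v 2) 1)))))))) a a 0 k
end Fm

namespace MD
variable {m : MD}

section
variable (ρ : ℕ → m.N) (π : ℕ → m.P) (σ : ℕ → m.S)

@[simp] theorem sat_and (φ ψ : Fm) : m.Sat (φ.and ψ) ρ π σ ↔ m.Sat φ ρ π σ ∧ m.Sat ψ ρ π σ := by
  simp [Fm.and, Sat]
@[simp] theorem sat_or (φ ψ : Fm) : m.Sat (φ.or ψ) ρ π σ ↔ m.Sat φ ρ π σ ∨ m.Sat ψ ρ π σ := by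
  simp only [Fm.or, Sat]; tauto
@[simp] theorem sat_iff (φ ψ : Fm) : m.Sat (φ.iff ψ) ρ π σ ↔ (m.Sat φ ρ π σ ↔ m.Sat ψ ρ π σ) := by
  simp only [Fm.iff, sat_and, Sat]; tauto
@[simp] theorem sat_exN (i : ℕ) (φ : Fm) :
    m.Sat (φ.exN i) ρ π σ ↔ ∃ n, m.Sat φ (Function.update ρ i n) π σ := by
  simp [Fm.exN, Sat]
@[simp] theorem sat_leib (a b : NT) :
    m.Sat (Fm.leib a b) ρ π σ ↔ m.Leib (m.ev ρ σ a) (m.ev ρ σ b) := by
  simp [Fm.leib, Sat, Leib, ev]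
@[simp] theorem sat_wf (a : NT) : m.Sat (Fm.wf a) ρ π σ ↔ m.Wf (m.ev ρ σ a) := by
  simp [Fm.wf, Sat, Wf, ev]
@[simp] theorem sat_star (a b : NT) :
    m.Sat (Fm.star a b) ρ π σ ↔ m.Star (m.ev ρ σ a) (m.ev ρ σ b) := by
  simp [Fm.star, Sat, Star, ev]
@[simp] theorem sat_plus (a b : NT) :
    m.Sat (Fm.plus a b) ρ π σ ↔ m.Plus (m.ev ρ σ a) (m.ev ρ σ b) := by
  simp [Fm.plus, Sat, Plus, ev]
@[simp] theorem sat_inO (j : ℕ) : m.Sat (Fm.inO j) ρ π σ ↔ m.InO (π j) := by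
  simp [Fm.inO, Sat, InO, ev]
@[simp] theorem sat_gd (k : ℕ) (a : NT) :
    m.Sat (Fm.gd k a) ρ π σ ↔ m.Gd (σ k) (m.ev ρ σ a) := by
  simp [Fm.gd, Sat, Gd, ev]
end

/-- A predicate on nodes given by a set. -/
def Df (m : MD) (Q : m.N → Prop) : Prop := ∃ p, ∀ n, m.in1 n p ↔ Q n

theorem Ok.df (h : m.Ok) (φ : Fm) (x : m.N) {Q : m.N → Prop}
    (hQ : ∀ π σ n, m.Sat φ (Function.update (fun _ => x) 0 n) π σ ↔ Q n) : m.Df Q := by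
  obtain ⟨p₀⟩ := h.neP
  obtain ⟨s₀⟩ := h.neS
  obtain ⟨p, hp⟩ := h.compN φ (fun _ => x) (fun _ => p₀) (fun _ => s₀) 0
  exact ⟨p, fun n => (hp n).trans (hQ _ _ n)⟩

theorem Leib.imp {a b : m.N} (hl : m.Leib a b) {Q : m.N → Prop} (hQ : m.Df Q) (ha : Q a) : Q b := by
  obtain ⟨p, hp⟩ := hQ
  exact (hp b).1 (hl p ((hp a).2 ha))

theorem Wf.ind {x : m.N} (hx : m.Wf x) {Q : m.N → Prop} (hQ : m.Df Q)
    (step : ∀ z, (∀ w, m.mem w z → Q w) → Q z) : Q x := by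
  obtain ⟨p, hp⟩ := hQ
  exact (hp x).1 (hx p fun z hz => (hp z).2 (step z fun w hw => (hp w).1 (hz w hw)))

theorem wf_intro {x : m.N} (h : ∀ w, m.mem w x → m.Wf w) : m.Wf x :=
  fun p hp => hp x fun w hw => h w hw p hp

theorem Ok.wf_mem (h : m.Ok) {x w : m.N} (hx : m.Wf x) (hw : m.mem w x) : m.Wf w := by
  have hd : m.Df fun z => ∀ w, m.mem w z → m.Wf w :=
    h.df (.allN 2 (.imp (.mem (.v 2) (.v 0)) (.wf (.v 2)))) x (by simp [Sat, ev])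
  exact hx.ind hd (fun z hz w hw => wf_intro (hz w hw)) w hw

theorem star_refl (x : m.N) : m.Star x x := fun _ _ h => h
theorem Star.trans {x y z : m.N} (h : m.Star x y) (h' : m.Star y z) : m.Star x z :=
  fun p hp hz => h p hp (h' p hp hz)
theorem star_mem {w x : m.N} (h : m.mem w x) : m.Star w x := fun _ hp hx => hp x w hx h

theorem Ok.leib_symm (h : m.Ok) {a b : m.N} (hl : m.Leib a b) : m.Leib b a := by
  have hd : m.Df fun z => m.Leib z a := h.df (.leib (.v 0) (.v 1)) a (by simp [ev])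
  exact hl.imp hd fun _ hp => hp

theorem Ok.star_inv (h : m.Ok) {z x : m.N} (hs : m.Star z x) : m.Leib x z ∨ m.Plus z x := by
  obtain ⟨p, hp⟩ : m.Df fun z => m.Leib x z ∨ m.Plus z x :=
    h.df ((Fm.leib (.v 1) (.v 0)).or (.plus (.v 0) (.v 1))) x (by simp [ev])
  refine (hp z).1 (hs p (fun a b ha hb => (hp b).2 (Or.inr ?_)) ((hp x).2 (Or.inl fun _ hq => hq)))
  rcases (hp a).1 ha with ha | ⟨w, hw, ha⟩
  · have hd : m.Df fun u => m.mem b u := h.df (.mem (.v 1) (.v 0)) b (by simp [Sat, ev])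
    exact ⟨b, (h.leib_symm ha).imp hd hb, star_refl b⟩
  · exact ⟨w, hw, (star_mem hb).trans ha⟩

theorem Ok.not_plus (h : m.Ok) {x : m.N} (hx : m.Wf x) : ¬ m.Plus x x := by
  have hd : m.Df fun z => ¬ m.Plus z z := h.df (.neg (.plus (.v 0) (.v 0))) x (by simp [Sat, ev])
  refine hx.ind hd fun z hz ⟨w, hw, hs⟩ => ?_
  rcases h.star_inv hs with hl | ⟨v, hv, hs'⟩
  · exact hl.imp hd (hz w hw) ⟨w, hw, hs⟩
  · exact hz w hw ⟨v, hv, (star_mem hw).trans hs'⟩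

theorem Ok.df_star (h : m.Ok) (x : m.N) : m.Df fun z => m.Star z x :=
  h.df (.star (.v 0) (.v 1)) x (by simp [ev])

theorem Ok.gd_rr (h : m.Ok) {s : m.S} {p : m.P} {x : m.N} (hp : ∀ z, m.in1 z p ↔ m.Star z x)
    (hs : ∀ p', m.InO p' → (∀ z, m.in1 z p' → m.Star z x) → (¬ ∀ z, m.Star z x → m.in1 z p') →
      m.in2 p' s) (hs' : ∀ p', m.in2 p' s → m.InO p') : m.Gd (m.rr s p) x := by
  intro p'
  rw [h.in_rr]
  simp only [hp]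
  exact ⟨fun ⟨h1, h2, h3⟩ => ⟨hs' _ h1, h2, h3⟩, fun ⟨h1, h2, h3⟩ => ⟨hs _ h1 h2 h3, h2, h3⟩⟩

theorem Ok.gd_sub (h : m.Ok) {s : m.S} {p : m.P} {x w : m.N} (hg : m.Gd s x) (hw : m.Star w x)
    (hp : ∀ z, m.in1 z p ↔ m.Star z w) : m.Gd (m.rr s p) w := by
  refine h.gd_rr hp (fun p' h1 h2 h3 => (hg p').2 ⟨h1, fun z hz => (h2 z hz).trans hw, fun h4 => ?_⟩)
    fun p' h1 => ((hg p').1 h1).1
  exact h3 fun z hz => h4 z (hz.trans hw)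

theorem Ok.mono (h : m.Ok) {s : m.S} {x w : m.N} (hx : m.Wf x) (hw : m.mem w x) (hg : m.Gd s x) :
    ∃ s', m.Gd s' w ∧ m.mem (m.pack s') (m.pack s) := by
  obtain ⟨p, hp⟩ := h.df_star w
  refine ⟨m.rr s p, h.gd_sub hg (star_mem hw) hp, (h.mem_pack _ _).2 ⟨p, (hg p).2 ⟨⟨w,
    h.wf_mem hx hw, hp⟩, fun z hz => ((hp z).1 hz).trans (star_mem hw), fun h4 => ?_⟩,
    fun _ hq => hq⟩⟩
  exact h.not_plus hx ⟨w, hw, (hp x).1 (h4 x (star_refl x))⟩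

theorem Ok.not_mem (h : m.Ok) {x : m.N} (hx : m.Wf x) :
    ∀ s, m.Gd s x → ¬ m.mem (m.pack s) x := by
  have hd : m.Df fun z => m.Wf z → ∀ s, m.Gd s z → ¬ m.mem (m.pack s) z :=
    h.df (.imp (.wf (.v 0)) (.allS 1 (.imp (.gd 1 (.v 0)) (.neg (.mem (.pk 1) (.v 0)))))) x
      (by simp [Sat, ev])
  refine hx.ind hd (fun z hz hwf s hg hm => ?_) hx
  obtain ⟨s', hg', hm'⟩ := h.mono hwf hm hg
  exact hz _ hm (h.wf_mem hwf hm) s' hg' hm'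

theorem Ok.df_wf (h : m.Ok) : m.Df m.Wf := by
  obtain ⟨x⟩ := h.neN
  exact h.df (.wf (.v 0)) x (by simp [ev])

theorem Ok.wf_pack (h : m.Ok) {x : m.N} (hx : m.Wf x) : ∀ s, m.Gd s x → m.Wf (m.pack s) := by
  have hR : m.Df fun z => ∀ s, m.Gd s z → m.Wf (m.pack s) :=
    h.df (.allS 1 (.imp (.gd 1 (.v 0)) (.wf (.pk 1)))) x (by simp [Sat, ev])
  have hT : m.Df fun z => ∀ y, m.Star y z → ∀ s, m.Gd s y → m.Wf (m.pack s) :=
    h.df (.allN 2 (.imp (.star (.v 2) (.v 0)) (.allS 1 (.imp (.gd 1 (.v 2)) (.wf (.pk 1)))))) x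
      (by simp [Sat, ev])
  refine hx.ind hT (fun z hz => ?_) x (star_refl x)
  have key : ∀ s, m.Gd s z → m.Wf (m.pack s) := by
    intro s hg
    refine wf_intro fun w hw => ?_
    obtain ⟨p, hp, hl⟩ := (h.mem_pack _ _).1 hw
    obtain ⟨⟨y, -, hy⟩, h2, h3⟩ := (hg p).1 hp
    have hyz : m.Star y z := h2 y ((hy y).2 (star_refl y))
    refine Leib.imp hl h.df_wf ?_
    rcases h.star_inv hyz with hl' | ⟨v, hv, hyv⟩
    · refine absurd (fun u hu => (hy u).2 ?_) h3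
      have hd : m.Df fun t => m.Star u t := h.df (.star (.v 1) (.v 0)) u (by simp [ev])
      exact hl'.imp hd hu
    · exact hz v hv y hyv _ (h.gd_sub hg hyz hy)
  intro y hy
  rcases h.star_inv hy with hl | ⟨v, hv, hyv⟩
  · exact hl.imp hR key
  · exact hz v hv y hyv

theorem not_ok (m : MD) : ¬ m.Ok := by
  intro h
  obtain ⟨x₀⟩ := h.neN
  obtain ⟨p₀⟩ := h.neP
  obtain ⟨s₀⟩ := h.neS
  obtain ⟨Ω, hΩ⟩ := h.compP (.inO 0) (fun _ => x₀) (fun _ => p₀) (fun _ => s₀) 0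
  simp only [sat_inO, Function.update_self] at hΩ
  have hgd : ∀ {p x}, (∀ z, m.in1 z p ↔ m.Star z x) → m.Gd (m.rr Ω p) x := fun hp =>
    h.gd_rr hp (fun p' h1 _ _ => (hΩ p').2 h1) fun p' h1 => (hΩ p').1 h1
  have hwf : m.Wf (m.pack Ω) := by
    refine wf_intro fun w hw => ?_
    obtain ⟨p, hp, hl⟩ := (h.mem_pack _ _).1 hw
    obtain ⟨x, hx, hpx⟩ := (hΩ p).1 hp
    exact Leib.imp hl h.df_wf (h.wf_pack hx _ (hgd hpx))
  obtain ⟨p, hp⟩ := h.df_star (m.pack Ω)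
  exact h.not_mem hwf _ (hgd hp)
    ((h.mem_pack _ _).2 ⟨p, (hΩ p).2 ⟨_, hwf, hp⟩, fun _ hq => hq⟩)

end MD

end Crest.Agent.R298
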