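import Crest.Agent.R298.Pack
import Crest.Agent.R298.Mir

/-! Row 298. The package universe is a model of the paradox. -/

set_option autoImplicit false

namespace Crest.Agent.R298
open Crest.LogicCS.PTS Crest.LogicCS.PTS.Term

variable {P : Spec ℕ} {s₀ : ℕ} {L : Lg P s₀}

theorem hol_var0 {H : Set ℕ} {Γ : List Tm} {K K' : Tm} (h : wk K = K') :
    Ty P H (K :: Γ) (.var 0) K' := h ▸ Ty.var (Look.here K Γ)

theorem Ty.wk' {H : Set ℕ} {Γ : List Tm} {M A A' : Tm} (h : Ty P H Γ M A) (B : Tm)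
    (e : wk A = A') : Ty P H (B :: Γ) (wk M) A' := e ▸ h.wkT B

theorem KF.hol_wk {y x : ℕ} (F : KF L y x) (K : Tm) : wk (F.kd K) = F.kd (wk K) := by
  rw [wk_eq_sub, F.sub_kd, ← wk_eq_sub]

theorem Lev.im_ex {y x : ℕ} (F : Lev L y x) {K : Tm} (hK : Ty P L.H [] K (srt x)) :
    ∃ p, F.Im K p := by
  have h1 := hK.wk' K rfl
  refine ⟨_, F.im_cmp (φ := F.alp (wk K) (F.el (wk (wk K)) (wk (.var 0)) (.var 0))) hK ?_⟩
  exact F.ty_alp h1 (F.ty_el (h1.wk' _ rfl) ((hol_var0 rfl).wk' _ rfl) (hol_var0 (F.hol_wk _)))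

def Lg.and (L : Lg P s₀) (φ ψ : Tm) : Tm := L.ng (L.imp φ (L.ng ψ))

theorem Lg.sub_and (L : Lg P s₀) (θ : ℕ → Tm) (φ ψ : Tm) :
    sub θ (L.and φ ψ) = L.and (sub θ φ) (sub θ ψ) := by
  simp [Lg.and, L.sub_ng, L.sub_imp]

theorem Lg.ty_and (L : Lg P s₀) {Γ : List Tm} {φ ψ : Tm} (h1 : Ty P L.H Γ φ (srt L.o))
    (h2 : Ty P L.H Γ ψ (srt L.o)) : Ty P L.H Γ (L.and φ ψ) (srt L.o) :=
  L.ty_ng (L.ty_imp h1 (L.ty_ng h2))

theorem Lg.tr_and (L : Lg P s₀) {φ ψ : Tm} (h1 : Ty P L.H [] φ (srt L.o))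
    (h2 : Ty P L.H [] ψ (srt L.o)) : Tr P L.H (L.and φ ψ) ↔ Tr P L.H φ ∧ Tr P L.H ψ := by
  rw [Lg.and, L.tr_ng (L.ty_imp h1 (L.ty_ng h2)), L.tr_imp h1 (L.ty_ng h2), L.tr_ng h2]
  tauto

namespace Uni
variable (U : Uni L)

def Nd (y : Tm) : Tm := U.A.kd (U.Y0 y)
def St (y : Tm) : Tm := U.B.kd (U.Nd y)
def SS (y : Tm) : Tm := U.A.kd (U.St y)
def in1 (y n p : Tm) : Tm := U.B.el (U.Nd y) n p
def in2 (y p s : Tm) : Tm := U.A.el (U.St y) p s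
def sbs (y p q : Tm) : Tm :=
  U.A.alp (U.Y0 y) (L.imp (U.in1 (wk y) (.var 0) (wk p)) (U.in1 (wk y) (.var 0) (wk q)))
def rr (y s p : Tm) : Tm :=
  U.A.cmp (U.St y) (L.and (U.in2 (wk y) (.var 0) (wk s))
    (L.and (U.sbs (wk y) (.var 0) (wk p)) (L.ng (U.sbs (wk y) (wk p) (.var 0)))))
def leib (a b : Tm) : Tm :=
  U.B.alp (U.Nd U.y0) (L.imp (U.in1 U.y0 (wk a) (.var 0)) (U.in1 U.y0 (wk b) (.var 0)))
def memB (y s w : Tm) : Tm :=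
  L.ng (U.B.alp (U.Nd y) (L.imp (U.in2 (wk y) (.var 0) (wk s))
    (L.ng (U.leib (U.pack (wk y) (U.rr (wk y) (wk s) (.var 0))) (wk w)))))
def mem (w x : Tm) : Tm := U.unpack x (U.memB (.var 1) (.var 0) (wk (wk w)))

theorem sub_Nd (θ : ℕ → Tm) (y : Tm) : sub θ (U.Nd y) = U.Nd (sub θ y) := by
  simp [Nd, U.A.sub_kd, U.sub_Y0]
theorem sub_St (θ : ℕ → Tm) (y : Tm) : sub θ (U.St y) = U.St (sub θ y) := by
  simp [St, U.B.sub_kd, U.sub_Nd]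
theorem sub_SS (θ : ℕ → Tm) (y : Tm) : sub θ (U.SS y) = U.SS (sub θ y) := by
  simp [SS, U.A.sub_kd, U.sub_St]
theorem sub_in1 (θ : ℕ → Tm) (y n p : Tm) :
    sub θ (U.in1 y n p) = U.in1 (sub θ y) (sub θ n) (sub θ p) := by
  simp [in1, U.B.sub_el, U.sub_Nd]
theorem sub_in2 (θ : ℕ → Tm) (y n p : Tm) :
    sub θ (U.in2 y n p) = U.in2 (sub θ y) (sub θ n) (sub θ p) := by
  simp [in2, U.A.sub_el, U.sub_St]
theorem sub_sbs (θ : ℕ → Tm) (y p q : Tm) :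
    sub θ (U.sbs y p q) = U.sbs (sub θ y) (sub θ p) (sub θ q) := by
  simp [sbs, U.A.sub_alp, U.sub_Y0, L.sub_imp, U.sub_in1]
theorem sub_rr (θ : ℕ → Tm) (y s p : Tm) :
    sub θ (U.rr y s p) = U.rr (sub θ y) (sub θ s) (sub θ p) := by
  simp [rr, U.A.sub_cmp, U.sub_St, L.sub_and, L.sub_ng, U.sub_in2, U.sub_sbs]
theorem sub_leib (θ : ℕ → Tm) (a b : Tm) :
    sub θ (U.leib a b) = U.leib (sub θ a) (sub θ b) := by
  simp [leib, U.B.sub_alp, U.sub_Nd, L.sub_imp, U.sub_in1, U.sub_y0]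
theorem sub_memB (θ : ℕ → Tm) (y s w : Tm) :
    sub θ (U.memB y s w) = U.memB (sub θ y) (sub θ s) (sub θ w) := by
  simp [memB, U.B.sub_alp, U.sub_Nd, L.sub_imp, L.sub_ng, U.sub_in2, U.sub_leib, U.sub_pack,
    U.sub_rr]
theorem sub_mem (θ : ℕ → Tm) (w x : Tm) : sub θ (U.mem w x) = U.mem (sub θ w) (sub θ x) := by
  have h : up (up θ) 1 = .var 1 := rfl
  simp [mem, U.sub_unpack, U.sub_memB, h]

theorem wk_Y : wk U.Y = U.Y := by rw [wk_eq_sub, U.sub_Y]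
theorem wk_y0 : wk U.y0 = U.y0 := by rw [wk_eq_sub, U.sub_y0]
theorem wk_Nd (y : Tm) : wk (U.Nd y) = U.Nd (wk y) := by rw [wk_eq_sub, U.sub_Nd, ← wk_eq_sub]
theorem wk_St (y : Tm) : wk (U.St y) = U.St (wk y) := by rw [wk_eq_sub, U.sub_St, ← wk_eq_sub]
theorem wk_SS (y : Tm) : wk (U.SS y) = U.SS (wk y) := by rw [wk_eq_sub, U.sub_SS, ← wk_eq_sub]
theorem wk_Nd0 : wk (U.Nd U.y0) = U.Nd U.y0 := by rw [U.wk_Nd, U.wk_y0]
theorem wk_St0 : wk (U.St U.y0) = U.St U.y0 := by rw [U.wk_St, U.wk_y0]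
theorem wk_SS0 : wk (U.SS U.y0) = U.SS U.y0 := by rw [U.wk_SS, U.wk_y0]

section typing
variable {Γ : List Tm} {y n p q s a b w x : Tm}

theorem ty_Nd (hy : Ty P L.H Γ y U.Y) : Ty P L.H Γ (U.Nd y) (srt U.a) := U.A.ty_kd (U.ty_Y0 hy)
theorem ty_St (hy : Ty P L.H Γ y U.Y) : Ty P L.H Γ (U.St y) (srt U.b) := U.B.ty_kd (U.ty_Nd hy)
theorem ty_in1 (hy : Ty P L.H Γ y U.Y) (hn : Ty P L.H Γ n (U.Nd y)) (hp : Ty P L.H Γ p (U.St y)) :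
    Ty P L.H Γ (U.in1 y n p) (srt L.o) := U.B.ty_el (U.ty_Nd hy) hn hp
theorem ty_in2 (hy : Ty P L.H Γ y U.Y) (hp : Ty P L.H Γ p (U.St y)) (hs : Ty P L.H Γ s (U.SS y)) :
    Ty P L.H Γ (U.in2 y p s) (srt L.o) := U.A.ty_el (U.ty_St hy) hp hs

theorem ty_sbs_body (hy : Ty P L.H Γ y U.Y) (hp : Ty P L.H Γ p (U.St y))
    (hq : Ty P L.H Γ q (U.St y)) : Ty P L.H (U.Nd y :: Γ)
      (L.imp (U.in1 (wk y) (.var 0) (wk p)) (U.in1 (wk y) (.var 0) (wk q))) (srt L.o) :=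
  L.ty_imp (U.ty_in1 (hy.wk' _ U.wk_Y) (hol_var0 (U.wk_Nd _)) (hp.wk' _ (U.wk_St _)))
    (U.ty_in1 (hy.wk' _ U.wk_Y) (hol_var0 (U.wk_Nd _)) (hq.wk' _ (U.wk_St _)))

theorem ty_sbs (hy : Ty P L.H Γ y U.Y) (hp : Ty P L.H Γ p (U.St y)) (hq : Ty P L.H Γ q (U.St y)) :
    Ty P L.H Γ (U.sbs y p q) (srt L.o) := U.A.ty_alp (U.ty_Y0 hy) (U.ty_sbs_body hy hp hq)

theorem ty_rr_body (hy : Ty P L.H Γ y U.Y) (hs : Ty P L.H Γ s (U.SS y))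
    (hp : Ty P L.H Γ p (U.St y)) : Ty P L.H (U.St y :: Γ) (L.and (U.in2 (wk y) (.var 0) (wk s))
      (L.and (U.sbs (wk y) (.var 0) (wk p)) (L.ng (U.sbs (wk y) (wk p) (.var 0))))) (srt L.o) :=
  L.ty_and (U.ty_in2 (hy.wk' _ U.wk_Y) (hol_var0 (U.wk_St _)) (hs.wk' _ (U.wk_SS _)))
    (L.ty_and (U.ty_sbs (hy.wk' _ U.wk_Y) (hol_var0 (U.wk_St _)) (hp.wk' _ (U.wk_St _)))
      (L.ty_ng (U.ty_sbs (hy.wk' _ U.wk_Y) (hp.wk' _ (U.wk_St _)) (hol_var0 (U.wk_St _)))))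

theorem ty_rr (hy : Ty P L.H Γ y U.Y) (hs : Ty P L.H Γ s (U.SS y)) (hp : Ty P L.H Γ p (U.St y)) :
    Ty P L.H Γ (U.rr y s p) (U.SS y) := U.A.ty_cmp (U.ty_St hy) (U.ty_rr_body hy hs hp)

theorem ty_leib_body (ha : Ty P L.H Γ a (U.Nd U.y0)) (hb : Ty P L.H Γ b (U.Nd U.y0)) :
    Ty P L.H (U.St U.y0 :: Γ)
      (L.imp (U.in1 U.y0 (wk a) (.var 0)) (U.in1 U.y0 (wk b) (.var 0))) (srt L.o) :=
  L.ty_imp (U.ty_in1 (U.ty_y0 _) (ha.wk' _ U.wk_Nd0) (hol_var0 U.wk_St0))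
    (U.ty_in1 (U.ty_y0 _) (hb.wk' _ U.wk_Nd0) (hol_var0 U.wk_St0))

theorem ty_leib (ha : Ty P L.H Γ a (U.Nd U.y0)) (hb : Ty P L.H Γ b (U.Nd U.y0)) :
    Ty P L.H Γ (U.leib a b) (srt L.o) := U.B.ty_alp (U.ty_Nd (U.ty_y0 _)) (U.ty_leib_body ha hb)

theorem ty_memB_body (hy : Ty P L.H Γ y U.Y) (hs : Ty P L.H Γ s (U.SS y))
    (hw : Ty P L.H Γ w (U.Nd U.y0)) : Ty P L.H (U.St y :: Γ)
      (L.imp (U.in2 (wk y) (.var 0) (wk s))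
        (L.ng (U.leib (U.pack (wk y) (U.rr (wk y) (wk s) (.var 0))) (wk w)))) (srt L.o) :=
  L.ty_imp (U.ty_in2 (hy.wk' _ U.wk_Y) (hol_var0 (U.wk_St _)) (hs.wk' _ (U.wk_SS _)))
    (L.ty_ng (U.ty_leib (U.ty_pack (hy.wk' _ U.wk_Y)
      (U.ty_rr (hy.wk' _ U.wk_Y) (hs.wk' _ (U.wk_SS _)) (hol_var0 (U.wk_St _))))
      (hw.wk' _ U.wk_Nd0)))

theorem ty_memB (hy : Ty P L.H Γ y U.Y) (hs : Ty P L.H Γ s (U.SS y))
    (hw : Ty P L.H Γ w (U.Nd U.y0)) : Ty P L.H Γ (U.memB y s w) (srt L.o) :=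
  L.ty_ng (U.B.ty_alp (U.ty_Nd hy) (U.ty_memB_body hy hs hw))

theorem ty_mem_body (hw : Ty P L.H Γ w (U.Nd U.y0)) : Ty P L.H (U.SS (.var 0) :: U.Y :: Γ)
    (U.memB (.var 1) (.var 0) (wk (wk w))) (srt L.o) :=
  U.ty_memB ((hol_var0 U.wk_Y).wk' _ U.wk_Y) (hol_var0 (U.wk_SS _))
    ((hw.wk' _ U.wk_Nd0).wk' _ U.wk_Nd0)

theorem ty_mem (hw : Ty P L.H Γ w (U.Nd U.y0)) (hx : Ty P L.H Γ x (U.Nd U.y0)) :
    Ty P L.H Γ (U.mem w x) (srt L.o) := U.ty_unpack hx (U.ty_mem_body hw)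

end typing

/-- The model of closed image terms. -/
@[reducible] def md : MD where
  N := {n : Tm // U.A.Im (U.Y0 U.y0) n}
  P := {p : Tm // U.B.Im (U.Nd U.y0) p}
  S := {s : Tm // U.A.Im (U.St U.y0) s}
  mem w x := Tr P L.H (U.mem w.1 x.1)
  in1 n p := Tr P L.H (U.in1 U.y0 n.1 p.1)
  in2 p s := Tr P L.H (U.in2 U.y0 p.1 s.1)
  pack s := ⟨U.pack U.y0 s.1, U.im_pack (U.ty_y0 _) (U.A.im_ty (U.ty_St (U.ty_y0 _)) s.2)⟩
  rr s p := ⟨U.rr U.y0 s.1 p.1, U.A.im_cmp (U.ty_St (U.ty_y0 _)) (U.ty_rr_body (U.ty_y0 _)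
    (U.A.im_ty (U.ty_St (U.ty_y0 _)) s.2) (U.B.im_ty (U.ty_Nd (U.ty_y0 _)) p.2))⟩

theorem tyN (n : U.md.N) : Ty P L.H [] n.1 (U.Nd U.y0) := U.A.im_ty (U.ty_Y0 (U.ty_y0 _)) n.2
theorem tyP (p : U.md.P) : Ty P L.H [] p.1 (U.St U.y0) := U.B.im_ty (U.ty_Nd (U.ty_y0 _)) p.2
theorem tyS (s : U.md.S) : Ty P L.H [] s.1 (U.SS U.y0) := U.A.im_ty (U.ty_St (U.ty_y0 _)) s.2

theorem tr_sbs (p q : U.md.P) :
    Tr P L.H (U.sbs U.y0 p.1 q.1) ↔ ∀ n, U.md.in1 n p → U.md.in1 n q := by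
  rw [sbs, U.A.tr_alp (U.ty_Y0 (U.ty_y0 _)) (U.ty_sbs_body (U.ty_y0 _) (U.tyP p) (U.tyP q)),
    Subtype.forall']
  refine forall_congr' fun n => ?_
  simp only [inst, L.sub_imp, U.sub_in1, sub_scons_wk, sub_id, sub_var, scons_zero]
  exact L.tr_imp (U.ty_in1 (U.ty_y0 _) (U.tyN n) (U.tyP p))
    (U.ty_in1 (U.ty_y0 _) (U.tyN n) (U.tyP q))

theorem tr_leib (a b : U.md.N) :
    Tr P L.H (U.leib a.1 b.1) ↔ ∀ p, U.md.in1 a p → U.md.in1 b p := by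
  rw [leib, U.B.tr_alp (U.ty_Nd (U.ty_y0 _)) (U.ty_leib_body (U.tyN a) (U.tyN b)),
    Subtype.forall']
  refine forall_congr' fun p => ?_
  simp only [inst, L.sub_imp, U.sub_in1, sub_scons_wk, sub_id, sub_var, scons_zero, U.sub_y0]
  exact L.tr_imp (U.ty_in1 (U.ty_y0 _) (U.tyN a) (U.tyP p))
    (U.ty_in1 (U.ty_y0 _) (U.tyN b) (U.tyP p))

theorem in_rr (s : U.md.S) (p p' : U.md.P) : U.md.in2 p' (U.md.rr s p) ↔
    (U.md.in2 p' s ∧ (∀ n, U.md.in1 n p' → U.md.in1 n p) ∧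
      ¬ ∀ n, U.md.in1 n p → U.md.in1 n p') := by
  have h0 := U.ty_y0 []
  refine (U.A.tr_cmp (U.ty_St h0) (U.ty_rr_body h0 (U.tyS s) (U.tyP p)) (U.tyP p')).trans ?_
  simp only [inst, L.sub_and, L.sub_ng, U.sub_in2, U.sub_sbs, sub_scons_wk, sub_id, sub_var,
    scons_zero]
  have t1 := U.ty_sbs h0 (U.tyP p') (U.tyP p)
  have t2 := U.ty_sbs h0 (U.tyP p) (U.tyP p')
  rw [L.tr_and (U.ty_in2 h0 (U.tyP p') (U.tyS s)) (L.ty_and t1 (L.ty_ng t2)),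
    L.tr_and t1 (L.ty_ng t2), L.tr_ng t2, U.tr_sbs, U.tr_sbs]

theorem mem_pack (s : U.md.S) (w : U.md.N) : U.md.mem w (U.md.pack s) ↔
    ∃ p, U.md.in2 p s ∧ ∀ q, U.md.in1 (U.md.pack (U.md.rr s p)) q → U.md.in1 w q := by
  have h0 := U.ty_y0 []
  refine (U.tr_unpack h0 (U.tyS s) (U.ty_mem_body (U.tyN w))).trans ?_
  have e1 : scons s.1 (scons U.y0 Term.var) 1 = U.y0 := rfl
  simp only [U.sub_memB, sub_scons_wk, sub_id, sub_var, scons_zero, e1]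
  have tb := U.ty_memB_body h0 (U.tyS s) (U.tyN w)
  rw [memB, L.tr_ng (U.B.ty_alp (U.ty_Nd h0) tb), U.B.tr_alp (U.ty_Nd h0) tb, Subtype.forall',
    not_forall]
  refine exists_congr fun p => ?_
  simp only [inst, L.sub_imp, L.sub_ng, U.sub_in2, U.sub_leib, U.sub_pack, U.sub_rr, sub_scons_wk,
    sub_id, sub_var, scons_zero]
  have t1 := U.ty_leib (U.tyN (U.md.pack (U.md.rr s p))) (U.tyN w)
  refine (not_congr ((L.tr_imp (U.ty_in2 h0 (U.tyP p) (U.tyS s)) (L.ty_ng t1)).trans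
    (imp_congr_right fun _ => (L.tr_ng t1).trans (not_congr (U.tr_leib _ _))))).trans ?_
  rw [Classical.not_imp, not_not]

def cT (ν σ : ℕ → Tm) : NT → Tm
  | .v i => ν i
  | .pk k => U.pack U.y0 (σ k)

def cF : Fm → (ℕ → Tm) → (ℕ → Tm) → (ℕ → Tm) → Tm
  | .mem a b, ν, _, σ => U.mem (U.cT ν σ a) (U.cT ν σ b)
  | .in1 a j, ν, π, σ => U.in1 U.y0 (U.cT ν σ a) (π j)
  | .in2 j k, _, π, σ => U.in2 U.y0 (π j) (σ k)
  | .imp φ ψ, ν, π, σ => L.imp (cF φ ν π σ) (cF ψ ν π σ)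
  | .neg φ, ν, π, σ => L.ng (cF φ ν π σ)
  | .allN i φ, ν, π, σ => U.A.alp (U.Y0 U.y0)
      (cF φ (Function.update (fun l => wk (ν l)) i (.var 0)) (fun l => wk (π l)) fun l => wk (σ l))
  | .allP j φ, ν, π, σ => U.B.alp (U.Nd U.y0)
      (cF φ (fun l => wk (ν l)) (Function.update (fun l => wk (π l)) j (.var 0)) fun l => wk (σ l))
  | .allS k φ, ν, π, σ => U.A.alp (U.St U.y0)
      (cF φ (fun l => wk (ν l)) (fun l => wk (π l)) (Function.update (fun l => wk (σ l)) k (.var 0)))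
  | .call φ a b j k, ν, π, σ =>
    cF φ (fun i => if i = 0 then U.cT ν σ a else U.cT ν σ b) (fun _ => π j) (fun _ => σ k)

theorem sub_cT (θ ν σ : ℕ → Tm) (a : NT) :
    sub θ (U.cT ν σ a) = U.cT (fun l => sub θ (ν l)) (fun l => sub θ (σ l)) a := by
  cases a <;> simp [cT, U.sub_pack, U.sub_y0]

theorem map_update {α β : Type*} (g : α → β) (ν : ℕ → α) (i : ℕ) (a : α) :
    (fun l => g (Function.update ν i a l)) = Function.update (fun l => g (ν l)) i (g a) := by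
  funext l
  by_cases h : l = i
  · subst h; simp
  · simp [Function.update_of_ne h]

theorem sub_cF (φ : Fm) : ∀ θ ν π σ : ℕ → Tm, sub θ (U.cF φ ν π σ) =
    U.cF φ (fun l => sub θ (ν l)) (fun l => sub θ (π l)) (fun l => sub θ (σ l)) := by
  induction φ with
  | mem a b => intro θ ν π σ; simp only [cF, U.sub_mem, U.sub_cT]
  | in1 a j => intro θ ν π σ; simp only [cF, U.sub_in1, U.sub_cT, U.sub_y0]
  | in2 j k => intro θ ν π σ; simp only [cF, U.sub_in2, U.sub_y0]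
  | imp φ ψ ih1 ih2 => intro θ ν π σ; simp only [cF, L.sub_imp, ih1, ih2]
  | neg φ ih => intro θ ν π σ; simp only [cF, L.sub_ng, ih]
  | allN i φ ih =>
    intro θ ν π σ
    simp only [cF, U.A.sub_alp, ih, U.sub_Y0, U.sub_y0, map_update (sub (up θ)), sub_up_wk,
      sub_var, up_zero]
  | allP i φ ih =>
    intro θ ν π σ
    simp only [cF, U.B.sub_alp, ih, U.sub_Nd, U.sub_y0, map_update (sub (up θ)), sub_up_wk,
      sub_var, up_zero]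
  | allS i φ ih =>
    intro θ ν π σ
    simp only [cF, U.A.sub_alp, ih, U.sub_St, U.sub_y0, map_update (sub (up θ)), sub_up_wk,
      sub_var, up_zero]
  | call φ a b j k ih =>
    intro θ ν π σ
    simp only [cF, ih, apply_ite (sub θ), U.sub_cT]

theorem ty_cT {Γ : List Tm} {ν σ : ℕ → Tm} (hν : ∀ l, Ty P L.H Γ (ν l) (U.Nd U.y0))
    (hσ : ∀ l, Ty P L.H Γ (σ l) (U.SS U.y0)) (a : NT) : Ty P L.H Γ (U.cT ν σ a) (U.Nd U.y0) := by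
  cases a with
  | v i => exact hν i
  | pk k => exact U.ty_pack (U.ty_y0 _) (hσ k)

theorem ty_update {Γ : List Tm} {ν : ℕ → Tm} {K : Tm} (hK : wk K = K)
    (hν : ∀ l, Ty P L.H Γ (ν l) K) (i l : ℕ) :
    Ty P L.H (K :: Γ) (Function.update (fun l => wk (ν l)) i (.var 0) l) K := by
  by_cases h : l = i
  · subst h; simpa using hol_var0 hK
  · simpa [Function.update_of_ne h] using (hν l).wk' _ hK

theorem ty_cF (φ : Fm) : ∀ {Γ : List Tm} {ν π σ : ℕ → Tm}, (∀ l, Ty P L.H Γ (ν l) (U.Nd U.y0)) →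
    (∀ l, Ty P L.H Γ (π l) (U.St U.y0)) → (∀ l, Ty P L.H Γ (σ l) (U.SS U.y0)) →
    Ty P L.H Γ (U.cF φ ν π σ) (srt L.o) := by
  induction φ with
  | mem a b => intro Γ ν π σ h1 _ h3; exact U.ty_mem (U.ty_cT h1 h3 a) (U.ty_cT h1 h3 b)
  | in1 a j => intro Γ ν π σ h1 h2 h3; exact U.ty_in1 (U.ty_y0 _) (U.ty_cT h1 h3 a) (h2 j)
  | in2 j k => intro Γ ν π σ _ h2 h3; exact U.ty_in2 (U.ty_y0 _) (h2 j) (h3 k)
  | imp φ ψ ih1 ih2 => intro Γ ν π σ h1 h2 h3; exact L.ty_imp (ih1 h1 h2 h3) (ih2 h1 h2 h3)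
  | neg φ ih => intro Γ ν π σ h1 h2 h3; exact L.ty_ng (ih h1 h2 h3)
  | allN i φ ih =>
    intro Γ ν π σ h1 h2 h3
    exact U.A.ty_alp (U.ty_Y0 (U.ty_y0 _)) (ih (ty_update U.wk_Nd0 h1 i)
      (fun l => (h2 l).wk' _ U.wk_St0) fun l => (h3 l).wk' _ U.wk_SS0)
  | allP i φ ih =>
    intro Γ ν π σ h1 h2 h3
    exact U.B.ty_alp (U.ty_Nd (U.ty_y0 _)) (ih (fun l => (h1 l).wk' _ U.wk_Nd0)
      (ty_update U.wk_St0 h2 i) fun l => (h3 l).wk' _ U.wk_SS0)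
  | allS i φ ih =>
    intro Γ ν π σ h1 h2 h3
    exact U.A.ty_alp (U.ty_St (U.ty_y0 _)) (ih (fun l => (h1 l).wk' _ U.wk_Nd0)
      (fun l => (h2 l).wk' _ U.wk_St0) (ty_update U.wk_SS0 h3 i))
  | call φ a b j k ih =>
    intro Γ ν π σ h1 h2 h3
    refine ih (fun l => ?_) (fun _ => h2 j) fun _ => h3 k
    by_cases h : l = 0
    · simpa [h] using U.ty_cT h1 h3 a
    · simpa [h] using U.ty_cT h1 h3 b

theorem cT_val (ρ : ℕ → U.md.N) (σ : ℕ → U.md.S) (a : NT) :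
    U.cT (fun l => (ρ l).1) (fun l => (σ l).1) a = (U.md.ev ρ σ a).1 := by
  cases a <;> rfl

theorem tr_cF (φ : Fm) : ∀ (ρ : ℕ → U.md.N) (π : ℕ → U.md.P) (σ : ℕ → U.md.S),
    Tr P L.H (U.cF φ (fun l => (ρ l).1) (fun l => (π l).1) (fun l => (σ l).1)) ↔
      U.md.Sat φ ρ π σ := by
  have ty : ∀ (φ : Fm) (ρ : ℕ → U.md.N) (π : ℕ → U.md.P) (σ : ℕ → U.md.S),
      Ty P L.H [] (U.cF φ (fun l => (ρ l).1) (fun l => (π l).1) (fun l => (σ l).1)) (srt L.o) :=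
    fun φ ρ π σ => U.ty_cF φ (fun l => U.tyN (ρ l)) (fun l => U.tyP (π l)) fun l => U.tyS (σ l)
  induction φ with
  | mem a b => intro ρ π σ; simp only [cF, U.cT_val]; rfl
  | in1 a j => intro ρ π σ; simp only [cF, U.cT_val]; rfl
  | in2 j k => intro ρ π σ; rfl
  | imp φ ψ ih1 ih2 =>
    intro ρ π σ
    rw [cF, L.tr_imp (ty _ _ _ _) (ty _ _ _ _), ih1, ih2]; rfl
  | neg φ ih => intro ρ π σ; rw [cF, L.tr_ng (ty _ _ _ _), ih]; rfl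
  | allN i φ ih =>
    intro ρ π σ
    rw [cF, U.A.tr_alp (U.ty_Y0 (U.ty_y0 _)) (U.ty_cF φ (ty_update U.wk_Nd0 (fun l => U.tyN (ρ l)) i)
      (fun l => (U.tyP (π l)).wk' _ U.wk_St0) fun l => (U.tyS (σ l)).wk' _ U.wk_SS0),
      Subtype.forall']
    refine forall_congr' fun n => ?_
    rw [← ih, map_update Subtype.val]
    simp only [inst, U.sub_cF, map_update (sub _), sub_scons_wk, sub_id, sub_var, scons_zero]
  | allP i φ ih =>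
    intro ρ π σ
    rw [cF, U.B.tr_alp (U.ty_Nd (U.ty_y0 _)) (U.ty_cF φ (fun l => (U.tyN (ρ l)).wk' _ U.wk_Nd0)
      (ty_update U.wk_St0 (fun l => U.tyP (π l)) i) fun l => (U.tyS (σ l)).wk' _ U.wk_SS0),
      Subtype.forall']
    refine forall_congr' fun n => ?_
    rw [← ih, map_update Subtype.val]
    simp only [inst, U.sub_cF, map_update (sub _), sub_scons_wk, sub_id, sub_var, scons_zero]
  | allS i φ ih =>
    intro ρ π σ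
    rw [cF, U.A.tr_alp (U.ty_St (U.ty_y0 _)) (U.ty_cF φ (fun l => (U.tyN (ρ l)).wk' _ U.wk_Nd0)
      (fun l => (U.tyP (π l)).wk' _ U.wk_St0) (ty_update U.wk_SS0 (fun l => U.tyS (σ l)) i)),
      Subtype.forall']
    refine forall_congr' fun n => ?_
    rw [← ih, map_update Subtype.val]
    simp only [inst, U.sub_cF, map_update (sub _), sub_scons_wk, sub_id, sub_var, scons_zero]
  | call φ a b j k ih =>
    intro ρ π σ
    rw [cF, MD.Sat, ← ih]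
    simp only [U.cT_val, apply_ite Subtype.val]

theorem md_ok : U.md.Ok := by
  have h0 := U.ty_y0 []
  refine ⟨?_, ?_, ?_, U.in_rr, U.mem_pack, fun φ ρ π σ i => ?_, fun φ ρ π σ i => ?_⟩
  · obtain ⟨p, hp⟩ := U.A.im_ex (U.ty_Y0 h0); exact ⟨⟨p, hp⟩⟩
  · obtain ⟨p, hp⟩ := U.B.im_ex (U.ty_Nd h0); exact ⟨⟨p, hp⟩⟩
  · obtain ⟨p, hp⟩ := U.A.im_ex (U.ty_St h0); exact ⟨⟨p, hp⟩⟩
  · have ht := U.ty_cF φ (ty_update U.wk_Nd0 (fun l => U.tyN (ρ l)) i)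
      (fun l => (U.tyP (π l)).wk' _ U.wk_St0) fun l => (U.tyS (σ l)).wk' _ U.wk_SS0
    refine ⟨⟨_, U.B.im_cmp (U.ty_Nd h0) ht⟩, fun n => ?_⟩
    refine (U.B.tr_cmp (U.ty_Nd h0) ht (U.tyN n)).trans ?_
    rw [← U.tr_cF, map_update Subtype.val]
    simp only [inst, U.sub_cF, map_update (sub _), sub_scons_wk, sub_id, sub_var, scons_zero]
  · have ht := U.ty_cF φ (fun l => (U.tyN (ρ l)).wk' _ U.wk_Nd0)
      (ty_update U.wk_St0 (fun l => U.tyP (π l)) i) fun l => (U.tyS (σ l)).wk' _ U.wk_SS0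
    refine ⟨⟨_, U.A.im_cmp (U.ty_St h0) ht⟩, fun n => ?_⟩
    refine (U.A.tr_cmp (U.ty_St h0) ht (U.tyP n)).trans ?_
    rw [← U.tr_cF, map_update Subtype.val]
    simp only [inst, U.sub_cF, map_update (sub _), sub_scons_wk, sub_id, sub_var, scons_zero]

end Uni

theorem Uni.false (U : Uni L) : False := U.md.not_ok U.md_ok

end Crest.Agent.R298
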