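import Crest.Agent.R298.ValAux

/-! Row 298. Semantic values of type constructors: the construction in `ZFSet`. -/

set_option autoImplicit false

namespace Crest.Agent.R298
open Crest.LogicCS.PTS Crest.LogicCS.PTS.Term

namespace ValC

variable (P : Spec ℕ) (s₀ : ℕ)

/-- Negative values of rank below `n`. -/
def VM : ℕ → Tm → Tm → ZFSet.{0} → Prop
  | 0 => fun _ _ _ => False
  | n + 1 => fun N K v => VM n N K v ∨
      ∃ g, v = tag (n, g) ∧ G P s₀ (W P s₀ (G P s₀ (W P s₀ (VM n)) false)) true N K g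

/-- Positive values restricted to rank `n`. -/
def VP (n : ℕ) : Tm → Tm → ZFSet.{0} → Prop := G P s₀ (W P s₀ (VM P s₀ n)) false

def VMw (N K : Tm) (v : ZFSet.{0}) : Prop :=
  ∃ m g, v = tag (m, g) ∧ G P s₀ (W P s₀ (VP P s₀ m)) true N K g

def VPw : Tm → Tm → ZFSet.{0} → Prop := G P s₀ (W P s₀ (VMw P s₀)) false

def VX : Bool → Tm → Tm → ZFSet.{0} → Prop
  | true => VPw P s₀
  | false => VMw P s₀

def VS (π : Bool) : Tm → List Ent → Prop := VSg P s₀ (W P s₀ (VX P s₀ π)) π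

def Valid (e : Ent) : Prop :=
  (Tame P s₀ e.ki → e.pol = true) ∧ ∃ v, e.val = some v ∧ W P s₀ (VX P s₀ e.pol) e.tm e.ki v

def Rk (r : ℕ) (e : Ent) : Prop :=
  e.pol = false → Valid P s₀ e → ∀ m g, e.val = some (tag (m, g)) → m < r

noncomputable def res (n : ℕ) (v : ZFSet.{0}) : ZFSet.{0} :=
  ZFSet.sep (fun z => ∃ sp x, z = enc sp x ∧ ∀ y ∈ sp, Rk P s₀ n y) v

open Classical in
noncomputable def resE (n : ℕ) (e : Ent) : Ent :=
  if Tame P s₀ e.ki then e else ⟨e.tm, e.ki, e.pol, e.val.map (res P s₀ n)⟩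

noncomputable def ext (n : ℕ) (K : Tm) (sp' : List Ent) : List Ent :=
  Classical.epsilon fun sp => VS P s₀ true K sp ∧ sp.map (resE P s₀ n) = sp'

noncomputable def ap (e : Ent) (sp : List Ent) : Set Tm :=
  if e.pol = true then look (e.val.getD ∅) sp
  else look (Function.invFun tag (e.val.getD ∅)).2
    (sp.map (resE P s₀ (Function.invFun tag (e.val.getD ∅)).1))

/-- The operations without `mkE`. -/
noncomputable def V₀ : ValD where
  Valid := Valid P s₀
  VS := VS P s₀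
  mkE := fun N A π _ => ⟨N, A, π, none⟩
  ap := ap P s₀
  Rk := Rk P s₀

noncomputable def lvl (A : Tm) (f : List Ent → Set Tm) : ℕ := sInf {n | (V₀ P s₀).Loc P s₀ n A f}

noncomputable def mkE (N A : Tm) (π : Bool) (f : List Ent → Set Tm) : Ent :=
  if nrm P s₀ π A = true then ⟨N, A, true, some (graph (VS P s₀ false A) f)⟩
  else ⟨N, A, false, some (tag (lvl P s₀ A f,
    graph (VSg P s₀ (W P s₀ (VP P s₀ (lvl P s₀ A f))) true A)
      fun sp => f (ext P s₀ (lvl P s₀ A f) A sp)))⟩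

noncomputable def V₁ : ValD where
  Valid := Valid P s₀
  VS := VS P s₀
  mkE := mkE P s₀
  ap := ap P s₀
  Rk := Rk P s₀

variable {P s₀}

theorem VM_iff {n : ℕ} {N K : Tm} {v : ZFSet.{0}} : VM P s₀ n N K v ↔
    ∃ m < n, ∃ g, v = tag (m, g) ∧ G P s₀ (W P s₀ (VP P s₀ m)) true N K g := by
  induction n with
  | zero => simp [VM]
  | succ n ih =>
    simp only [VM, ih]
    constructor
    · rintro (⟨m, hm, h⟩ | h)
      · exact ⟨m, by omega, h⟩
      · exact ⟨n, by omega, h⟩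
    · rintro ⟨m, hm, h⟩
      rcases Nat.lt_succ_iff_lt_or_eq.1 hm with hm | rfl
      · exact Or.inl ⟨m, hm, h⟩
      · exact Or.inr h

theorem small_VM (n : ℕ) : ∀ N K : Tm, Small.{0} {v | VM P s₀ n N K v} := by
  induction n with
  | zero =>
    intro N K
    have : Small.{0} (∅ : Set ZFSet.{0}) := small_empty
    exact small_subset (s := ∅) fun v hv => hv
  | succ n ih =>
    intro N K
    have h1 := ih N K
    have h2 := small_G (P := P) (s₀ := s₀)
      (small_W (P := P) (s₀ := s₀) (small_G (P := P) (s₀ := s₀) (small_W (P := P) (s₀ := s₀) ih)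
        false)) true N K
    refine small_subset (s := {v | VM P s₀ n N K v} ∪ (fun g => tag (n, g)) ''
      {g | G P s₀ (W P s₀ (G P s₀ (W P s₀ (VM P s₀ n)) false)) true N K g}) ?_
    rintro v (h | ⟨g, rfl, h⟩)
    · exact Or.inl h
    · exact Or.inr ⟨g, h, rfl⟩

theorem small_VMw (N K : Tm) : Small.{0} {v | VMw P s₀ N K v} := by
  have := fun n => small_VM (P := P) (s₀ := s₀) n N K
  refine small_subset (s := ⋃ n, {v | VM P s₀ n N K v}) ?_
  rintro v ⟨m, g, h⟩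
  exact Set.mem_iUnion.2 ⟨m + 1, VM_iff.2 ⟨m, by omega, g, h⟩⟩

theorem small_VS_false (K : Tm) : Small.{0} {sp | VS P s₀ false K sp} :=
  small_VSg (small_W small_VMw) false K

theorem small_VSP (m : ℕ) (K : Tm) : Small.{0} {sp | VSg P s₀ (W P s₀ (VP P s₀ m)) true K sp} :=
  small_VSg (small_W (small_G (small_W (small_VM m)) false)) true K

theorem valid_iff {e : Ent} {π : Bool} (h : e.pol = nrm P s₀ π e.ki) :
    Valid P s₀ e ↔ ∃ v, e.val = some v ∧ W P s₀ (VX P s₀ π) e.tm e.ki v := by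
  unfold Valid
  by_cases ht : Tame P s₀ e.ki
  · rw [nrm_tame ht] at h
    simp only [W_tame ht, h, implies_true, true_and]
  · rw [nrm_wild ht] at h
    simp only [ht, h, false_imp_iff, true_and]

theorem VS_mem {π : Bool} {K : Tm} {sp : List Ent} (h : VS P s₀ π K sp) {e : Ent} (he : e ∈ sp) :
    e.pol = nrm P s₀ π e.ki ∧ Valid P s₀ e :=
  ⟨(VSg.mem h e he).1, (valid_iff (VSg.mem h e he).1).2 (VSg.mem h e he).2⟩

theorem VS_tame {K : Tm} (hK : Tame P s₀ K) (π π' : Bool) (sp : List Ent) :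
    VS P s₀ π K sp ↔ VS P s₀ π' K sp := VSg_tame hK _ _ _ _ sp

/-- A valid positive entry is the graph of a function on the negative spines. -/
theorem Valid.pos {e : Ent} (h : Valid P s₀ e) (hp : e.pol = true) :
    ∃ v, e.val = some v ∧ VPw P s₀ e.tm e.ki v := by
  obtain ⟨-, v, h1, h2⟩ := h
  refine ⟨v, h1, ?_⟩
  by_cases ht : Tame P s₀ e.ki
  · exact (VT_iff ht _ _ _ _).1 ((W_tame ht _ _).1 h2)
  · rw [W_wild ht, hp] at h2
    exact h2

theorem Valid.neg {e : Ent} (h : Valid P s₀ e) (hp : e.pol = false) :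
    ∃ m g, e.val = some (tag (m, g)) ∧ G P s₀ (W P s₀ (VP P s₀ m)) true e.tm e.ki g := by
  obtain ⟨h0, v, h1, h2⟩ := h
  have ht : ¬ Tame P s₀ e.ki := fun ht => by simp [h0 ht] at hp
  rw [W_wild ht, hp] at h2
  obtain ⟨m, g, rfl, h3⟩ := h2
  exact ⟨m, g, h1, h3⟩

theorem Rk.mono {r r' : ℕ} {e : Ent} (h : Rk P s₀ r e) (hr : r ≤ r') : Rk P s₀ r' e :=
  fun h1 h2 m g h3 => (h h1 h2 m g h3).trans_le hr

theorem VSM_iff {n : ℕ} {sp : List Ent} : ∀ {K : Tm},
    VSg P s₀ (W P s₀ (VM P s₀ n)) false K sp ↔ VS P s₀ false K sp ∧ ∀ x ∈ sp, Rk P s₀ n x := by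
  induction sp with
  | nil => intro K; simp [VS, VSg]
  | cons e sp ih =>
    intro K
    constructor
    · rintro ⟨A, K₁, rfl, rfl, h2, h3, h4, ⟨v, h5, h5'⟩, h6⟩
      obtain ⟨h7, h8⟩ := ih.1 h6
      by_cases ht : Tame P s₀ e.ki
      · refine ⟨⟨_, K₁, rfl, rfl, h2, h3, h4, ⟨v, h5, (W_tame ht _ _).2 ((W_tame ht _ _).1 h5')⟩, h7⟩,
          List.forall_mem_cons.2 ⟨fun hp => ?_, h8⟩⟩
        rw [h4, nrm_tame ht] at hp
        cases hp
      · obtain ⟨m, hm, g, rfl, hg⟩ := VM_iff.1 ((W_wild ht _ _).1 h5')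
        refine ⟨⟨_, K₁, rfl, rfl, h2, h3, h4, ⟨_, h5, (W_wild ht _ _).2 ⟨m, g, rfl, hg⟩⟩, h7⟩,
          List.forall_mem_cons.2 ⟨fun _ _ m' g' h9 => ?_, h8⟩⟩
        rw [h5] at h9
        have := (Prod.ext_iff.1 (tag_inj (Option.some.inj h9))).1
        simp only at this
        omega
    · rintro ⟨⟨A, K₁, rfl, rfl, h2, h3, h4, ⟨v, h5, h5'⟩, h6⟩, h7⟩
      obtain ⟨h8, h9⟩ := List.forall_mem_cons.1 h7
      refine ⟨_, K₁, rfl, rfl, h2, h3, h4, ⟨v, h5, ?_⟩, ih.2 ⟨h6, h9⟩⟩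
      by_cases ht : Tame P s₀ e.ki
      · exact (W_tame ht _ _).2 ((W_tame ht _ _).1 h5')
      · have hv : Valid P s₀ e := (valid_iff h4).2 ⟨v, h5, h5'⟩
        obtain ⟨m, g, rfl, hg⟩ := (W_wild ht _ _).1 h5'
        exact (W_wild ht _ _).2 (VM_iff.2 ⟨m, h8 (h4.trans (nrm_wild ht _)) hv m g h5, g, rfl, hg⟩)

theorem mem_res {n : ℕ} {v : ZFSet.{0}} {sp : List Ent} {x : Tm} :
    enc sp x ∈ res P s₀ n v ↔ enc sp x ∈ v ∧ ∀ y ∈ sp, Rk P s₀ n y := by
  unfold res
  rw [ZFSet.mem_sep]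
  refine and_congr_right fun _ => ⟨?_, fun h => ⟨sp, x, rfl, h⟩⟩
  rintro ⟨sp', x', h1, h2⟩
  obtain ⟨rfl, rfl⟩ := enc_inj h1
  exact h2

theorem isGraph_res {n : ℕ} {A : Tm} {f : List Ent → Set Tm} {v : ZFSet.{0}}
    (h : IsGraph (VS P s₀ false A) f v) :
    IsGraph (VSg P s₀ (W P s₀ (VM P s₀ n)) false A) f (res P s₀ n v) := by
  intro z
  constructor
  · intro hz
    obtain ⟨sp, x, h1, h2, rfl⟩ := (h z).1 (ZFSet.mem_sep.1 hz).1
    exact ⟨sp, x, VSM_iff.2 ⟨h1, (mem_res.1 hz).2⟩, h2, rfl⟩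
  · rintro ⟨sp, x, h1, h2, rfl⟩
    obtain ⟨h3, h4⟩ := VSM_iff.1 h1
    exact mem_res.2 ⟨(h _).2 ⟨sp, x, h3, h2, rfl⟩, h4⟩

theorem resE_tm (n : ℕ) (e : Ent) : (resE P s₀ n e).tm = e.tm := by
  unfold resE; split_ifs <;> rfl

theorem resE_ki (n : ℕ) (e : Ent) : (resE P s₀ n e).ki = e.ki := by
  unfold resE; split_ifs <;> rfl

theorem resE_pol (n : ℕ) (e : Ent) : (resE P s₀ n e).pol = e.pol := by
  unfold resE; split_ifs <;> rfl

theorem resE_tame (n : ℕ) {e : Ent} (h : Tame P s₀ e.ki) : resE P s₀ n e = e := if_pos h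

theorem resE_wild (n : ℕ) {e : Ent} (h : ¬ Tame P s₀ e.ki) :
    resE P s₀ n e = ⟨e.tm, e.ki, e.pol, e.val.map (res P s₀ n)⟩ := if_neg h

theorem map_tm_resE (n : ℕ) (sp : List Ent) : (sp.map (resE P s₀ n)).map Ent.tm = sp.map Ent.tm := by
  rw [List.map_map]
  exact List.map_congr_left fun e _ => resE_tm n e

theorem VS_resE (n : ℕ) {sp : List Ent} : ∀ {K : Tm}, VS P s₀ true K sp →
    VSg P s₀ (W P s₀ (VP P s₀ n)) true K (sp.map (resE P s₀ n)) := by
  induction sp with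
  | nil => exact fun h => h
  | cons e sp ih =>
    rintro K ⟨A, K₁, rfl, rfl, h2, h3, h4, ⟨v, h5, h5'⟩, h6⟩
    refine ⟨_, K₁, rfl, resE_ki n e, ?_⟩
    rw [resE_tm, resE_pol]
    refine ⟨h2, h3, h4, ?_, ih h6⟩
    by_cases ht : Tame P s₀ e.ki
    · rw [resE_tame n ht]
      exact ⟨v, h5, (W_tame ht _ _).2 ((W_tame ht _ _).1 h5')⟩
    · rw [resE_wild n ht]
      obtain ⟨f, f1, f2⟩ := (W_wild ht _ _).1 h5'
      exact ⟨res P s₀ n v, by simp [h5],
        (W_wild ht _ _).2 ⟨f, fun sp hs => f1 sp (VSM_iff.1 hs).1, isGraph_res f2⟩⟩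

theorem resE_onto (n : ℕ) {sp' : List Ent} : ∀ {K : Tm},
    VSg P s₀ (W P s₀ (VP P s₀ n)) true K sp' →
      ∃ sp, VS P s₀ true K sp ∧ sp.map (resE P s₀ n) = sp' := by
  induction sp' with
  | nil => exact fun h => ⟨[], h, rfl⟩
  | cons e sp' ih =>
    rintro K ⟨A, K₁, rfl, rfl, h2, h3, h4, ⟨v, h5, h5'⟩, h6⟩
    obtain ⟨sp, s1, s2⟩ := ih h6
    by_cases ht : Tame P s₀ e.ki
    · refine ⟨e :: sp, ⟨_, K₁, rfl, rfl, h2, h3, h4,
        ⟨v, h5, (W_tame ht _ _).2 ((W_tame ht _ _).1 h5')⟩, s1⟩, ?_⟩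
      rw [List.map_cons, resE_tame n ht, s2]
    · obtain ⟨f, f1, f2⟩ := (W_wild ht _ _).1 h5'
      classical
      let f' : List Ent → Set Tm := fun sp =>
        if ∀ y ∈ sp, Rk P s₀ n y then f sp else SNT P (apps e.tm (sp.map Ent.tm))
      have hg := isGraph_graph (small_VS_false (P := P) (s₀ := s₀) e.ki) f'
      refine ⟨⟨e.tm, e.ki, e.pol, some (graph (VS P s₀ false e.ki) f')⟩ :: sp,
        ⟨_, K₁, rfl, rfl, h2, h3, h4, ⟨_, rfl, (W_wild ht _ _).2 ⟨f', fun sp hs => ?_, hg⟩⟩, s1⟩, ?_⟩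
      · by_cases hr : ∀ y ∈ sp, Rk P s₀ n y
        · simp only [f', if_pos hr]
          exact f1 sp (VSM_iff.2 ⟨hs, hr⟩)
        · simp only [f', if_neg hr]
          exact cand_snt _
      · have hv : res P s₀ n (graph (VS P s₀ false e.ki) f') = v := by
          refine ((isGraph_res hg).congr (fun _ => Iff.rfl) fun sp hs => ?_).unique f2
          simp only [f', if_pos (VSM_iff.1 hs).2]
        rw [List.map_cons, resE_wild n (by exact ht), s2]
        simp only [Option.map_some, hv, ← h5]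

theorem ext_spec (n : ℕ) {K : Tm} {sp' : List Ent} (h : VSg P s₀ (W P s₀ (VP P s₀ n)) true K sp') :
    VS P s₀ true K (ext P s₀ n K sp') ∧ (ext P s₀ n K sp').map (resE P s₀ n) = sp' :=
  Classical.epsilon_spec (p := fun sp => VS P s₀ true K sp ∧ sp.map (resE P s₀ n) = sp')
    (resE_onto n h)

theorem ap_pos {e : Ent} {v : ZFSet.{0}} (hp : e.pol = true) (hv : e.val = some v) (sp : List Ent) :
    ap P s₀ e sp = look v sp := by
  simp [ap, hp, hv]

theorem ap_neg {e : Ent} {m : ℕ} {g : ZFSet.{0}} (hp : e.pol = false)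
    (hv : e.val = some (tag (m, g))) (sp : List Ent) :
    ap P s₀ e sp = look g (sp.map (resE P s₀ m)) := by
  simp [ap, hp, hv, Function.leftInverse_invFun tag_inj (m, g)]

theorem sim_resE {m r : ℕ} (hm : m ≤ r) {e e' : Ent} (h : (V₀ P s₀).Sim P s₀ r e e') :
    resE P s₀ m e = resE P s₀ m e' := by
  rcases h with rfl | ⟨h1, h2, h3, h4, h5, h6, h7, h8⟩
  · rfl
  obtain ⟨v, v1, f, -, f2⟩ := Valid.pos h6 h3
  obtain ⟨v', v1', f', -, f2'⟩ := Valid.pos h7 h4
  rw [← h2] at f2'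
  have : res P s₀ m v = res P s₀ m v' := by
    refine ((isGraph_res f2).congr (fun _ => Iff.rfl) fun sp hs => ?_).unique (isGraph_res f2')
    obtain ⟨s1, s2⟩ := VSM_iff.1 hs
    have := h8 sp s1 fun x hx => (s2 x hx).mono hm
    change ap P s₀ e sp = ap P s₀ e' sp at this
    rwa [ap_pos h3 v1, ap_pos h4 v1', f2.look_eq s1, f2'.look_eq s1] at this
  rw [resE_wild m h5, resE_wild m (h2 ▸ h5), h1, h2, h3, h4, v1, v1']
  simp [this]

theorem resE_sim {m : ℕ} {e e' : Ent} (h3 : e.pol = true) (h4 : e'.pol = true)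
    (h6 : Valid P s₀ e) (h7 : Valid P s₀ e') (h : resE P s₀ m e = resE P s₀ m e') :
    (V₀ P s₀).Sim P s₀ m e e' := by
  have h1 : e.tm = e'.tm := by rw [← resE_tm m e, h, resE_tm]
  have h2 : e.ki = e'.ki := by rw [← resE_ki m e, h, resE_ki]
  by_cases ht : Tame P s₀ e.ki
  · left
    rwa [resE_tame m ht, resE_tame m (h2 ▸ ht)] at h
  right
  refine ⟨h1, h2, h3, h4, ht, h6, h7, fun sp _ s2 => ?_⟩
  obtain ⟨v, v1, -⟩ := Valid.pos h6 h3
  obtain ⟨v', v1', -⟩ := Valid.pos h7 h4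
  have hv : res P s₀ m v = res P s₀ m v' := by
    have := congrArg Ent.val h
    rw [resE_wild m ht, resE_wild m (h2 ▸ ht)] at this
    simpa [v1, v1'] using this
  change ap P s₀ e sp = ap P s₀ e' sp
  rw [ap_pos h3 v1, ap_pos h4 v1']
  ext x
  have a1 := mem_res (P := P) (s₀ := s₀) (n := m) (v := v) (sp := sp) (x := x)
  have a2 := mem_res (P := P) (s₀ := s₀) (n := m) (v := v') (sp := sp) (x := x)
  rw [hv, a2] at a1
  exact ⟨fun hx => (a1.2 ⟨hx, s2⟩).1, fun hx => (a1.1 ⟨hx, s2⟩).1⟩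

theorem forall₂_sim {m : ℕ} {sp : List Ent} : ∀ {sp' : List Ent},
    (∀ e ∈ sp, e.pol = true ∧ Valid P s₀ e) → (∀ e ∈ sp', e.pol = true ∧ Valid P s₀ e) →
    sp.map (resE P s₀ m) = sp'.map (resE P s₀ m) → List.Forall₂ ((V₀ P s₀).Sim P s₀ m) sp sp' := by
  induction sp with
  | nil =>
    intro sp' _ _ h
    obtain rfl : sp' = [] := by simpa using h.symm
    exact List.Forall₂.nil
  | cons e sp ih =>
    rintro (_ | ⟨e', sp'⟩) h1 h2 h
    · simp at h
    · simp only [List.map_cons, List.cons.injEq] at h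
      obtain ⟨a1, a2⟩ := List.forall_mem_cons.1 h1
      obtain ⟨b1, b2⟩ := List.forall_mem_cons.1 h2
      exact List.Forall₂.cons (resE_sim a1.1 b1.1 a1.2 b1.2 h.1) (ih a2 b2 h.2)

theorem map_resE_of_sim {m r : ℕ} (hm : m ≤ r) {sp sp' : List Ent}
    (h : List.Forall₂ ((V₀ P s₀).Sim P s₀ r) sp sp') :
    sp.map (resE P s₀ m) = sp'.map (resE P s₀ m) := by
  induction h with
  | nil => rfl
  | cons h _ ih => rw [List.map_cons, List.map_cons, sim_resE hm h, ih]

theorem nrm_false {π : Bool} {A : Tm} (h : ¬ nrm P s₀ π A = true) : π = false ∧ ¬ Tame P s₀ A := by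
  have ht : ¬ Tame P s₀ A := fun ht => h (nrm_tame ht π)
  rw [nrm_wild ht] at h
  exact ⟨by simpa using h, ht⟩

theorem VS_not {π : Bool} {A : Tm} (h : nrm P s₀ π A = true) (sp : List Ent) :
    VS P s₀ (!π) A sp ↔ VS P s₀ false A sp := by
  by_cases ht : Tame P s₀ A
  · exact VS_tame ht _ _ sp
  · rw [nrm_wild ht] at h
    rw [h]; rfl

theorem ok : (V₁ P s₀).Ok P s₀ where
  vs_nil := fun _ _ => Iff.rfl
  vs_cons := by
    intro π K e sp
    constructor
    · rintro ⟨A, K₁, rfl, rfl, h2, h3, h4, h5, h6⟩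
      exact ⟨_, K₁, rfl, rfl, h2, h3, h4, (valid_iff h4).2 h5, h6⟩
    · rintro ⟨A, K₁, rfl, rfl, h2, h3, h4, h5, h6⟩
      exact ⟨_, K₁, rfl, rfl, h2, h3, h4, (valid_iff h4).1 h5, h6⟩
  valid_val := by
    rintro e ⟨-, v, h, -⟩
    simp [h]
  valid_pol := fun _ h => h.1
  ap_cand := by
    intro e sp h hs
    change Cand P _ (ap P s₀ e sp)
    cases hp : e.pol
    · obtain ⟨m, g, h1, f, f1, f2⟩ := Valid.neg h hp
      rw [hp] at hs
      have h2 := VS_resE m hs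
      rw [ap_neg hp h1, f2.look_eq h2, ← map_tm_resE m]
      exact f1 _ h2
    · obtain ⟨v, h1, f, f1, f2⟩ := Valid.pos h hp
      rw [hp] at hs
      rw [ap_pos hp h1, f2.look_eq hs]
      exact f1 _ hs
  mk_tm := by
    intro N A π f
    change (mkE P s₀ N A π f).tm = N
    unfold mkE; split_ifs <;> rfl
  mk_ki := by
    intro N A π f
    change (mkE P s₀ N A π f).ki = A
    unfold mkE; split_ifs <;> rfl
  mk_pol := by
    intro N A π f
    change (mkE P s₀ N A π f).pol = _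
    unfold mkE
    split_ifs with h
    · exact h.symm
    · simpa using h
  mk_ext := by
    intro N A π π' f g h hfg
    change mkE P s₀ N A π f = mkE P s₀ N A π' g
    unfold mkE
    rw [← h]
    split_ifs with h1
    · rw [graph_congr fun sp hs => hfg sp ((VS_not h1 sp).2 hs)]
    · obtain ⟨rfl, -⟩ := nrm_false h1
      have hl : lvl P s₀ A f = lvl P s₀ A g := by
        unfold lvl
        congr 1
        ext n
        constructor
        · intro hn sp sp' s1 s2 s3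
          rw [← hfg sp s1, ← hfg sp' s2]
          exact hn sp sp' s1 s2 s3
        · intro hn sp sp' s1 s2 s3
          rw [hfg sp s1, hfg sp' s2]
          exact hn sp sp' s1 s2 s3
      rw [← hl, graph_congr fun sp hs => hfg _ (ext_spec _ hs).1]
  mk_valid := by
    intro N A π f hf
    change Valid P s₀ (mkE P s₀ N A π f)
    unfold mkE
    split_ifs with h1
    · refine ⟨fun _ => rfl, _, rfl, ?_⟩
      have hG : VPw P s₀ N A (graph (VS P s₀ false A) f) :=
        ⟨f, fun sp hs => hf sp ((VS_not h1 sp).2 hs), isGraph_graph (small_VS_false A) f⟩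
      by_cases ht : Tame P s₀ A
      · exact (W_tame ht _ _).2 ((VT_iff ht _ _ _ _).2 hG)
      · exact (W_wild ht _ _).2 hG
    · obtain ⟨rfl, ht⟩ := nrm_false h1
      refine ⟨fun h => absurd h ht, _, rfl, (W_wild ht _ _).2
        ⟨_, _, rfl, _, fun sp hs => ?_, isGraph_graph (small_VSP _ A) _⟩⟩
      obtain ⟨s1, s2⟩ := ext_spec _ hs
      have := hf _ s1
      rwa [← map_tm_resE (P := P) (s₀ := s₀) (lvl P s₀ A f), s2] at this
  ap_mk := by
    intro N A π f sp hl hs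
    change ap P s₀ (mkE P s₀ N A π f) sp = f sp
    unfold mkE
    split_ifs with h1
    · rw [ap_pos rfl rfl, (isGraph_graph (small_VS_false A) f).look_eq ((VS_not h1 sp).1 hs)]
    · have hloc : (V₀ P s₀).Loc P s₀ (lvl P s₀ A f) A f :=
        Nat.sInf_mem (s := {n | (V₀ P s₀).Loc P s₀ n A f}) (hl (by simpa using h1))
      obtain ⟨rfl, -⟩ := nrm_false h1
      have h2 := VS_resE (lvl P s₀ A f) hs
      rw [ap_neg rfl rfl, (isGraph_graph (small_VSP _ A) _).look_eq h2]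
      obtain ⟨s1, s2⟩ := ext_spec _ h2
      refine hloc _ _ s1 hs (forall₂_sim (fun e he => ?_) (fun e he => ?_) s2)
      · exact ⟨(VS_mem s1 he).1.trans (nrm_true _), (VS_mem s1 he).2⟩
      · exact ⟨(VS_mem hs he).1.trans (nrm_true _), (VS_mem hs he).2⟩
  rk_mk := by
    intro N A π f n hn
    change Rk P s₀ (n + 1) (mkE P s₀ N A π f)
    unfold mkE
    split_ifs with h1
    · intro hp; cases hp
    · intro _ _ m g h
      have h2 := (Prod.ext_iff.1 (tag_inj (Option.some.inj h))).1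
      have h3 : lvl P s₀ A f ≤ n := Nat.sInf_le (s := {n | (V₀ P s₀).Loc P s₀ n A f}) hn
      simp only at h2
      omega
  rk_pos := by
    intro r e h hp
    rw [h] at hp; cases hp
  rk_invalid := fun _ _ h _ hv => absurd hv h
  rk_ex := by
    intro e
    by_cases h : ∃ m g, e.val = some (tag (m, g))
    · obtain ⟨m, g, h⟩ := h
      refine ⟨m + 1, fun _ _ m' g' h' => ?_⟩
      rw [h] at h'
      have h2 := (Prod.ext_iff.1 (tag_inj (Option.some.inj h'))).1
      simp only at h2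
      omega
    · exact ⟨0, fun _ _ m g h' => absurd ⟨m, g, h'⟩ h⟩
  rk_mono := fun _ _ _ hr h => Rk.mono h hr
  ap_loc := by
    intro r e h hp hr sp sp' _ _ hs
    obtain ⟨m, g, h1, -⟩ := Valid.neg h hp
    change ap P s₀ e sp = ap P s₀ e sp'
    rw [ap_neg hp h1, ap_neg hp h1, map_resE_of_sim (hr hp h m g h1).le hs]

end ValC

theorem exists_valD (P : Spec ℕ) (s₀ : ℕ) : ∃ V : ValD, V.Ok P s₀ := ⟨_, ValC.ok⟩

end Crest.Agent.R298
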