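import Crest.Agent.R298.Clo
import Crest.Agent.R298.Val

/-! Row 298. The model when the configuration is absent. -/

set_option autoImplicit false

namespace Crest.Agent.R298
open Crest.LogicCS.PTS Crest.LogicCS.PTS.Term

theorem oddBin_good_cons {P : Spec ℕ} {s₀ : ℕ} {V : ValD} {Γ : List Tm} {η : ℕ → Ent} {A : Tm}
    {e : Ent} (hη : V.Good P s₀ Γ η) (hty : Ty P Set.univ [] e.tm (sub (tms η) A))
    (hki : e.ki = nf (sub (tms η) A)) (hpt : V.Valid e → PT P s₀ e.ki e.pol)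
    (hrk : ∀ r, V.Rk r e) : V.Good P s₀ (A :: Γ) (scons e η) := by
  refine ⟨?_, fun i B hB => ?_, fun i B hB => ?_, ?_⟩
  · rw [tms_scons]
    exact hη.tsub.cons hty
  · rw [tms_scons]
    cases hB with
    | here => rw [sub_scons_wk]; exact hki
    | there _ hB => rw [sub_scons_wk]; exact hη.ki _ _ hB
  · cases hB with
    | here => exact hpt
    | there _ hB => exact hη.pt _ _ hB
  · obtain ⟨r, hr⟩ := hη.rk
    refine ⟨r, fun i => ?_⟩
    cases i with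
    | zero => exact hrk r
    | succ i => exact hr i

theorem oddBin_good_nil {P : Spec ℕ} {s₀ : ℕ} {V : ValD} (hV : V.Ok P s₀) :
    ∃ η, V.Good P s₀ [] η :=
  ⟨fun _ => ⟨.var 0, .var 0, true, none⟩, TSub.nil _, fun _ _ h => (by cases h),
    fun _ _ h => (by cases h), 0, fun _ => hV.rk_pos _ _ rfl⟩

theorem oddBin_good_neu {P : Spec ℕ} {s₀ : ℕ} {V : ValD} (hV : V.Ok P s₀) {Γ : List Tm}
    {η : ℕ → Ent} {A N : Tm} {s : ℕ} (hη : V.Good P s₀ Γ η) (hA : Ty P Set.univ Γ A (srt s))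
    (hN : HasT P N (sub (tms η) A)) : ∃ e : Ent, Conv e.tm N ∧ V.Good P s₀ (A :: Γ) (scons e η) :=
  ⟨⟨N, nf (sub (tms η) A), true, none⟩, conv_refl _,
    oddBin_good_cons hη (hN.ty (hA.subT hη.tsub)) rfl
      (fun h => absurd rfl (hV.valid_val _ h)) fun _ => hV.rk_pos _ _ rfl⟩

theorem oddBin_good_adm {P : Spec ℕ} {s₀ : ℕ} {V : ValD} (hV : V.Ok P s₀) {Γ : List Tm}
    {η : ℕ → Ent} {A N : Tm} {e : Ent} {r₁ : ℕ} (hη : V.Good P s₀ Γ η)
    (hA : Ty P Set.univ Γ A (srt r₁)) (hq : QS P s₀ r₁) (hN : HasT P N (sub (tms η) A))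
    (he : V.Adm N (sub (tms η) A) e) : V.Good P s₀ (A :: Γ) (scons e η) := by
  obtain ⟨h1, h2, h3, -⟩ := he
  have hA' : Ty P Set.univ [] (sub (tms η) A) (srt r₁) := hA.subT hη.tsub
  refine oddBin_good_cons hη ?_ h2 (fun _ => ?_) fun _ => hV.rk_pos _ _ h3
  · rw [h1]
    exact hN.nfT.ty hA'
  · rw [h2, h3]
    exact Or.inr ⟨r₁, hA'.nfT Wf.nil, hq.pol⟩

theorem oddBin_subst {P : Spec ℕ} {s₀ : ℕ} {V : ValD} (hV : V.Ok P s₀) (hP : Hyp P)
    (hc : ¬ Config P s₀) {Γ : List Tm} {η : ℕ → Ent} {A B Q N : Tm} {r₁ r₂ r₃ : ℕ}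
    (hΓ : Wf P Set.univ Γ) (hη : V.Good P s₀ Γ η) (hA : Ty P Set.univ Γ A (srt r₁))
    (hB : Ty P Set.univ (A :: Γ) B (srt r₂)) (hr : P.rule r₁ r₂ r₃) (h₂ : InS P s₀ r₂)
    (h₃ : InS P s₀ r₃) (hBn : Normal B) (hQ : Ty P Set.univ Γ Q A)
    (hN : Conv N (sub (tms η) Q)) :
    ∃ e, V.Adm N (sub (tms η) A) e ∧
      msk P s₀ (sub (tms (scons e η)) B) (V.I P s₀ B (scons e η) []) ⊆
        msk P s₀ (sub (tms η) (nf (inst Q B))) (V.I P s₀ (nf (inst Q B)) η []) := by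
  have hq : QS P s₀ r₁ := ⟨r₂, r₃, lrule_of_ty hP hΓ hA hB hr, h₂, h₃⟩
  have h1 : Conv (sub (tms η) Q) (sub (tms η) (nf Q)) :=
    conv_sub (fun _ => conv_refl _) (conv_nf Q)
  have hwn : WN N := wn_conv (conv_symm hN) (hP.ty_wn Wf.nil (hQ.subT hη.tsub))
  refine ⟨V.mkE (nf (sub (tms η) (nf Q))) (nf (sub (tms η) A)) true (V.I P s₀ (nf Q) η),
    ⟨?_, hV.mk_ki _ _ _ _, ?_, hV.code_valid _ _ _ _⟩, ?_⟩
  · rw [hV.mk_tm]
    exact (nf_congr (conv_trans hN h1) hwn).symm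
  · rw [hV.mk_pol, nrm]
    split_ifs <;> rfl
  · rw [hV.subst_eq hP hc hΓ hη hA hB hq h₂ hBn hQ, msk_conv (T' := sub (tms η) (nf (inst Q B)))]
    rw [tms_scons, hV.mk_tm]
    refine conv_trans ?_ (conv_sub (fun _ => conv_refl _) (conv_nf (inst Q B)))
    rw [sub_inst]
    exact conv_sub (conv_scons (conv_symm (conv_trans h1 (conv_nf _))) fun _ => conv_refl _)
      (conv_refl B)

theorem exists_model_val {P : Spec ℕ} {s₀ : ℕ} (hP : Hyp P) (hc : ¬ Config P s₀) :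
    Nonempty (Model.{1} P s₀) := by
  obtain ⟨V, hV⟩ := exists_valD P s₀
  exact ⟨{
    Ent := Ent
    tm := Ent.tm
    D := fun T η => msk P s₀ (sub (tms η) T) (V.I P s₀ T η [])
    Adm := V.Adm
    Good := V.Good P s₀
    good_nil := oddBin_good_nil hV
    good_tsub := fun h => h.tsub
    good_neu := fun _ hη hA hN => oddBin_good_neu hV hη hA hN
    good_adm := fun _ hη hA hr h₂ h₃ hN he => oddBin_good_adm hV hη hA ⟨_, _, hr, h₂, h₃⟩ hN he
    adm_tm := fun h => by rw [h.1]; exact conv_symm (conv_nf _)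
    adm_ex := hV.adm_ex
    cand := fun T η => (hV.i_cand T η []).masked
    low := fun h => msk_low h _
    pi_iff := fun {_ η A B _} _ _ _ _ _ h F => by
      rw [msk_not_low (T := sub (tms η) (.pi A B)) h]
      exact Iff.rfl
    subst := fun hΓ hη hA hB hr h₂ h₃ hBn hQ hN =>
      oddBin_subst hV hP hc hΓ hη hA hB hr h₂ h₃ hBn hQ hN
    weak := fun T e η => by
      rw [tms_scons, sub_scons_wk, wk, V.i_ren]
      rfl }⟩

end Crest.Agent.R298
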