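import Crest.Agent.R298.Cand

/-! Row 298. The model when no rule lies entirely inside the component. -/

set_option autoImplicit false

namespace Crest.Agent.R298
open Crest.LogicCS.PTS Crest.LogicCS.PTS.Term

/-- The terms of a valuation. -/
def unTm (z : ℕ → Tm × Bool) : ℕ → Tm := fun i => (z i).1

theorem unTm_scons (e : Tm × Bool) (z : ℕ → Tm × Bool) :
    unTm (scons e z) = scons e.1 (unTm z) := by
  funext i
  cases i <;> rfl

open Classical in
/-- The value at a type which is not a product. -/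
noncomputable def unBase (P : Spec ℕ) (T : Tm) (z : ℕ → Tm × Bool) : Set Tm :=
  if ∃ i, head T = .var i ∧ (z i).2 = true then CMin P (sub (unTm z) T)
  else SNT P (sub (unTm z) T)

/-- The unmasked interpretation. -/
noncomputable def unJ (P : Spec ℕ) (s₀ : ℕ) : Tm → (ℕ → Tm × Bool) → Set Tm
  | .pi A B, z => {F | F ∈ SNT P (sub (unTm z) (.pi A B)) ∧
      ∀ N ∈ msk P s₀ (sub (unTm z) A) (unJ P s₀ A z), ∀ e : Tm × Bool, e.1 = N →
        Term.app F N ∈ msk P s₀ (sub (unTm (scons e z)) B) (unJ P s₀ B (scons e z))}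
  | .var i, z => unBase P (.var i) z
  | .sort s, z => unBase P (.sort s) z
  | .app M N, z => unBase P (.app M N) z
  | .lam A M, z => unBase P (.lam A M) z

/-- The interpretation. -/
noncomputable def unD (P : Spec ℕ) (s₀ : ℕ) (T : Tm) (z : ℕ → Tm × Bool) : Set Tm :=
  msk P s₀ (sub (unTm z) T) (unJ P s₀ T z)

variable {P : Spec ℕ} {s₀ : ℕ}

theorem unJ_pi (A B : Tm) (z : ℕ → Tm × Bool) (F : Tm) :
    F ∈ unJ P s₀ (.pi A B) z ↔ F ∈ SNT P (sub (unTm z) (.pi A B)) ∧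
      ∀ N ∈ unD P s₀ A z, ∀ e : Tm × Bool, e.1 = N → Term.app F N ∈ unD P s₀ B (scons e z) :=
  Iff.rfl

theorem unJ_other {T : Tm} (h : ∀ A B, T ≠ .pi A B) (z : ℕ → Tm × Bool) :
    unJ P s₀ T z = unBase P T z := by
  cases T with
  | pi A B => exact absurd rfl (h A B)
  | _ => rfl

theorem unBase_cand (T : Tm) (z : ℕ → Tm × Bool) : Cand P (sub (unTm z) T) (unBase P T z) := by
  unfold unBase
  split_ifs
  · exact cand_cmin _
  · exact cand_snt _

theorem unJ_cand (T : Tm) : ∀ z, Cand P (sub (unTm z) T) (unJ P s₀ T z) := by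
  induction T with
  | pi A B ihA ihB =>
    intro z
    have h := cand_pi (P := P) (ι := Tm × Bool) (A := sub (unTm z) A) (B := sub (up (unTm z)) B)
      (X := unD P s₀ A z) (ihA z).masked.le (fun N e => e.1 = N)
      (fun _ e => unD P s₀ B (scons e z)) (fun N _ e he => by
        have := (ihB (scons e z)).masked (s₀ := s₀)
        rw [inst_sub_up, ← he, ← unTm_scons]
        exact this)
    exact h
  | _ => intro z; exact unBase_cand _ z

theorem unD_cand (T : Tm) (z : ℕ → Tm × Bool) : Cand P (sub (unTm z) T) (unD P s₀ T z) :=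
  (unJ_cand T z).masked

theorem un_head_ren (ξ : ℕ → ℕ) (T : Tm) : head (ren ξ T) = ren ξ (head T) := by
  induction T with
  | app M N ihM _ => simpa [head] using ihM
  | _ => rfl

theorem unBase_ren (ξ : ℕ → ℕ) (T : Tm) (z : ℕ → Tm × Bool) :
    unBase P (ren ξ T) z = unBase P T (fun i => z (ξ i)) := by
  have e1 : sub (unTm z) (ren ξ T) = sub (unTm fun i => z (ξ i)) T := sub_ren _ _ _
  have e2 : (∃ i, head (ren ξ T) = .var i ∧ (z i).2 = true) ↔
      ∃ i, head T = .var i ∧ (z (ξ i)).2 = true := by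
    rw [un_head_ren]
    cases head T <;> simp
  unfold unBase
  rw [e1]
  by_cases h : ∃ i, head T = .var i ∧ (z (ξ i)).2 = true
  · rw [if_pos h, if_pos (e2.2 h)]
  · rw [if_neg h, if_neg (fun h' => h (e2.1 h'))]

theorem unJ_ren (T : Tm) : ∀ (ξ : ℕ → ℕ) (z : ℕ → Tm × Bool),
    unJ P s₀ (ren ξ T) z = unJ P s₀ T (fun i => z (ξ i)) := by
  induction T with
  | pi A B ihA ihB =>
    intro ξ z
    have e0 : ∀ (ζ : ℕ → ℕ) (y : ℕ → Tm × Bool) (X : Tm),
        sub (unTm y) (ren ζ X) = sub (unTm fun i => y (ζ i)) X := fun ζ y X => sub_ren _ _ _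
    have e1 : ∀ e : Tm × Bool, (fun i => scons e z (upr ξ i)) = scons e (fun i => z (ξ i)) := by
      intro e
      funext i
      cases i <;> rfl
    ext F
    rw [ren_pi, unJ_pi, unJ_pi, ← ren_pi, e0]
    unfold unD
    simp only [ihA, ihB, e0, e1]
  | var i => intro ξ z; exact unBase_ren ξ (.var i) z
  | sort s => intro ξ z; exact unBase_ren ξ (.sort s) z
  | app M N _ _ => intro ξ z; exact unBase_ren ξ (.app M N) z
  | lam A M _ _ => intro ξ z; exact unBase_ren ξ (.lam A M) z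

theorem unD_wk (T : Tm) (e : Tm × Bool) (z : ℕ → Tm × Bool) :
    unD P s₀ (wk T) (scons e z) = unD P s₀ T z := by
  unfold unD
  rw [unTm_scons, sub_scons_wk]
  congr 1
  exact unJ_ren T Nat.succ (scons e z)

/-- The relation between the valuations `z` (for `T`) and `y` (for `nf (sub θ T)`). -/
structure UnRel (P : Spec ℕ) (k : ℕ) (Δ : List Tm) (θ σ : ℕ → Tm) (z y : ℕ → Tm × Bool) :
    Prop where
  tsub : TSub P Set.univ [] Δ σ
  cσ : ∀ i, Conv (unTm z i) (σ i)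
  cθ : ∀ i, Conv (unTm z i) (sub (unTm y) (θ i))
  flag : ∀ i, i ≠ k → ∃ j, θ i = .var j ∧ (z i).2 = (y j).2

theorem UnRel.conv {k : ℕ} {Δ : List Tm} {θ σ : ℕ → Tm} {z y : ℕ → Tm × Bool}
    (h : UnRel P k Δ θ σ z y) (T : Tm) :
    Conv (sub (unTm z) T) (sub (unTm y) (nf (sub θ T))) := by
  refine conv_trans (conv_sub h.cθ (conv_refl T)) ?_
  rw [← sub_sub]
  exact conv_sub (fun _ => conv_refl _) (conv_nf _)

theorem UnRel.cons {k : ℕ} {Δ : List Tm} {θ σ : ℕ → Tm} {z y : ℕ → Tm × Bool}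
    (h : UnRel P k Δ θ σ z y) {A : Tm} {r : ℕ} (hA : Ty P Set.univ Δ A (srt r)) {e : Tm × Bool}
    (he : HasT P e.1 (sub (unTm z) A)) :
    UnRel P (k + 1) (A :: Δ) (up θ) (scons e.1 σ) (scons e z) (scons e y) := by
  refine ⟨h.tsub.cons ?_, ?_, ?_, ?_⟩
  · exact (he.conv (conv_sub h.cσ (conv_refl A))).ty (s := r) (hA.subT h.tsub)
  · rw [unTm_scons]
    exact conv_scons (conv_refl _) h.cσ
  · intro i
    rw [unTm_scons, unTm_scons]
    cases i with
    | zero => exact conv_refl _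
    | succ i =>
      rw [up_succ, sub_scons_wk]
      exact h.cθ i
  · intro i hi
    cases i with
    | zero => exact ⟨0, rfl, rfl⟩
    | succ i =>
      obtain ⟨j, h1, h2⟩ := h.flag i (fun h0 => hi (by rw [h0]))
      exact ⟨j + 1, by rw [up_succ, h1]; rfl, h2⟩

/-- With flag `f` at `k` the interpretation grows under substitution. -/
def UnInc (P : Spec ℕ) (s₀ : ℕ) (T : Tm) (k : ℕ) (Δ : List Tm) (f : Bool) : Prop :=
  ∀ θ σ z y, UnRel P k Δ θ σ z y → WN (sub θ T) → (z k).2 = f →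
    unD P s₀ T z ⊆ unD P s₀ (nf (sub θ T)) y

/-- With flag `f` at `k` the interpretation shrinks under substitution. -/
def UnDec (P : Spec ℕ) (s₀ : ℕ) (T : Tm) (k : ℕ) (Δ : List Tm) (f : Bool) : Prop :=
  ∀ θ σ z y, UnRel P k Δ θ σ z y → WN (sub θ T) → (z k).2 = f →
    unD P s₀ (nf (sub θ T)) y ⊆ unD P s₀ T z

theorem un_of_eq {T : Tm} {k : ℕ} {Δ : List Tm}
    (h : ∀ θ σ z y, UnRel P k Δ θ σ z y → WN (sub θ T) →
      unD P s₀ T z = unD P s₀ (nf (sub θ T)) y) (f : Bool) :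
    UnInc P s₀ T k Δ f ∧ UnDec P s₀ T k Δ f :=
  ⟨fun θ σ z y h1 h2 _ => (h θ σ z y h1 h2).subset,
    fun θ σ z y h1 h2 _ => (h θ σ z y h1 h2).symm.subset⟩

theorem un_low {T : Tm} {k t : ℕ} {Δ : List Tm} (hT : Ty P Set.univ Δ T (srt t))
    (ht : Low P s₀ t) (f : Bool) : UnInc P s₀ T k Δ f ∧ UnDec P s₀ T k Δ f := by
  refine un_of_eq (fun θ σ z y h _ => ?_) f
  have h1 : LowT P s₀ (sub (unTm z) T) :=
    ⟨sub σ T, t, conv_sub h.cσ (conv_refl T), hT.subT h.tsub, ht⟩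
  unfold unD
  rw [← msk_conv (h.conv T), msk_low h1, msk_low h1]

theorem un_msk_mono {T : Tm} {X Y : Set Tm} (h : X ⊆ Y) : msk P s₀ T X ⊆ msk P s₀ T Y := by
  unfold msk
  split_ifs
  · exact subset_rfl
  · exact h

theorem un_pi_inc {A B : Tm} {k r : ℕ} {Δ : List Tm} {f : Bool}
    (hA : Ty P Set.univ Δ A (srt r)) (h1 : UnDec P s₀ A k Δ f)
    (h2 : UnInc P s₀ B (k + 1) (A :: Δ) f) : UnInc P s₀ (.pi A B) k Δ f := by
  intro θ σ z y h hw hf
  have hc := h.conv (.pi A B)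
  unfold unD
  rw [← msk_conv hc]
  refine un_msk_mono fun F hF => ?_
  rw [sub_pi] at hw
  rw [sub_pi θ, nf_pi hw] at hc ⊢
  rw [unJ_pi] at hF ⊢
  refine ⟨snt_conv hc ▸ hF.1, fun N hN e he => ?_⟩
  have hN' := h1 θ σ z y h (wn_pi_iff.1 hw).1 hf hN
  have hT : HasT P e.1 (sub (unTm z) A) := he ▸ ((unD_cand A z).le hN').2
  exact h2 _ _ _ _ (h.cons hA hT) (wn_pi_iff.1 hw).2 hf (hF.2 N hN' e he)

theorem un_pi_dec {A B : Tm} {k r : ℕ} {Δ : List Tm} {f : Bool}
    (hA : Ty P Set.univ Δ A (srt r)) (h1 : UnInc P s₀ A k Δ f)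
    (h2 : UnDec P s₀ B (k + 1) (A :: Δ) f) : UnDec P s₀ (.pi A B) k Δ f := by
  intro θ σ z y h hw hf
  have hc := h.conv (.pi A B)
  unfold unD
  rw [← msk_conv hc]
  refine un_msk_mono fun F hF => ?_
  rw [sub_pi] at hw
  rw [sub_pi θ, nf_pi hw] at hc hF
  rw [unJ_pi] at hF ⊢
  refine ⟨(snt_conv hc).symm ▸ hF.1, fun N hN e he => ?_⟩
  have hN' := h1 θ σ z y h (wn_pi_iff.1 hw).1 hf hN
  have hT : HasT P e.1 (sub (unTm z) A) := he ▸ ((unD_cand A z).le hN).2
  exact h2 _ _ _ _ (h.cons hA hT) (wn_pi_iff.1 hw).2 hf (hF.2 N hN' e he)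

theorem un_not_pi {T a : Tm} (h : head T = a) (ha : (∃ i, a = .var i) ∨ ∃ s, a = .sort s) :
    ∀ A B, T ≠ .pi A B := by
  rintro A B rfl
  rcases ha with ⟨i, rfl⟩ | ⟨s, rfl⟩ <;> cases h

theorem un_head_nf {T a : Tm} {θ : ℕ → Tm} (h : sub θ (head T) = a)
    (ha : (∃ i, a = .var i) ∨ ∃ s, a = .sort s) (hw : WN (sub θ T)) :
    head (nf (sub θ T)) = a := by
  have e : sub θ T = apps a ((args T).map (sub θ)) := by
    rw [← h, ← sub_apps, apps_head_args]
  have hn : Neu a := by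
    intro A B h0
    rcases ha with ⟨i, rfl⟩ | ⟨s, rfl⟩ <;> cases h0
  rw [e] at hw ⊢
  rw [nf_apps hn hw, head_apps]
  rcases ha with ⟨i, rfl⟩ | ⟨s, rfl⟩
  · rw [nf_of_normal (normal_var i)]
    rfl
  · rw [nf_sort]
    rfl

theorem un_sort {T : Tm} {s : ℕ ⊕ ℕ} (hT : head T = .sort s) (k : ℕ) (Δ : List Tm) (f : Bool) :
    UnInc P s₀ T k Δ f ∧ UnDec P s₀ T k Δ f := by
  refine un_of_eq (fun θ σ z y h hw => ?_) f
  have hc := h.conv T
  have h1 : head (nf (sub θ T)) = .sort s :=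
    un_head_nf (by rw [hT]; rfl) (Or.inr ⟨s, rfl⟩) hw
  unfold unD
  rw [← msk_conv hc, unJ_other (un_not_pi hT (Or.inr ⟨s, rfl⟩)),
    unJ_other (un_not_pi h1 (Or.inr ⟨s, rfl⟩))]
  unfold unBase
  rw [hT, h1, if_neg (by simp), if_neg (by simp), snt_conv hc]

theorem un_var_ne {T : Tm} {i k : ℕ} (hT : head T = .var i) (hk : i ≠ k) (Δ : List Tm)
    (f : Bool) : UnInc P s₀ T k Δ f ∧ UnDec P s₀ T k Δ f := by
  refine un_of_eq (fun θ σ z y h hw => ?_) f
  have hc := h.conv T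
  obtain ⟨j, hj, hf⟩ := h.flag i hk
  have h1 : head (nf (sub θ T)) = .var j :=
    un_head_nf (by rw [hT]; exact hj) (Or.inl ⟨j, rfl⟩) hw
  unfold unD
  rw [← msk_conv hc, unJ_other (un_not_pi hT (Or.inl ⟨i, rfl⟩)),
    unJ_other (un_not_pi h1 (Or.inl ⟨j, rfl⟩))]
  unfold unBase
  rw [hT, h1, snt_conv hc, cmin_conv hc]
  simp [hf]

theorem un_var_eq {T : Tm} {k : ℕ} (hT : head T = .var k) (Δ : List Tm) :
    UnInc P s₀ T k Δ true ∧ UnDec P s₀ T k Δ false := by
  constructor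
  · intro θ σ z y h _ hf
    have hc := h.conv T
    unfold unD
    rw [← msk_conv hc, unJ_other (un_not_pi hT (Or.inl ⟨k, rfl⟩))]
    refine un_msk_mono ?_
    unfold unBase
    rw [if_pos ⟨k, hT, hf⟩, cmin_conv hc]
    exact (unJ_cand _ y).cmin_sub
  · intro θ σ z y h _ hf
    have hc := h.conv T
    unfold unD
    rw [← msk_conv hc, unJ_other (un_not_pi hT (Or.inl ⟨k, rfl⟩))]
    refine un_msk_mono ?_
    unfold unBase
    rw [hT, if_neg (by simp [hf]), snt_conv hc]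
    exact (unJ_cand _ y).le

theorem un_atom {T : Tm} {t : ℕ} {Δ : List Tm} (hn : Normal T) (hT : Ty P Set.univ Δ T (srt t))
    (hp : ∀ A B, T ≠ .pi A B) (k : ℕ) :
    ∃ f f', UnInc P s₀ T k Δ f ∧ UnDec P s₀ T k Δ f' := by
  rcases hT.normal_cases hn with ⟨A, B, rfl⟩ | ⟨A, B, rfl⟩ | ⟨s, rfl⟩ | ⟨i, hi⟩ | ⟨n, hc⟩
  · exact absurd (conv_refl _) hT.lam_not_srt
  · exact absurd rfl (hp A B)
  · exact ⟨true, true, un_sort rfl k Δ true⟩
  · by_cases hk : i = k
    · subst hk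
      exact ⟨true, false, un_var_eq hi Δ⟩
    · exact ⟨true, true, un_var_ne hi hk Δ true⟩
  · exact ⟨true, true, un_sort hc k Δ true⟩

theorem un_key (hP : Hyp P) (hb : ¬ BinS P s₀) (T : Tm) : ∀ (k t : ℕ) (Δ : List Tm), Normal T →
    Wf P Set.univ Δ → InS P s₀ t → Ty P Set.univ Δ T (srt t) →
    ∃ f f', UnInc P s₀ T k Δ f ∧ UnDec P s₀ T k Δ f' := by
  induction T with
  | pi A B ihA ihB =>
    intro k t Δ hn hΔ ht hT
    obtain ⟨r₁, r₂, hA, hB, hr⟩ := hT.gen_pi_srt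
    have hl := lrule_of_ty hP hΔ hA hB hr
    have hn' := normal_pi_iff.1 hn
    rcases ht.dom hl with h1 | h1
    · rcases ht.cod hl with h2 | h2
      · exact absurd ⟨r₁, r₂, t, hl, h1, h2, ht⟩ hb
      · obtain ⟨f, f', hf, hf'⟩ := ihA k r₁ Δ hn'.1 hΔ h1 hA
        exact ⟨f', f, un_pi_inc hA hf' (un_low hB h2 f').1, un_pi_dec hA hf (un_low hB h2 f).2⟩
    · rcases ht.cod hl with h2 | h2
      · obtain ⟨f, f', hf, hf'⟩ := ihB (k + 1) r₂ (A :: Δ) hn'.2 (hΔ.cons hA) h2 hB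
        exact ⟨f, f', un_pi_inc hA (un_low hA h1 f).2 hf, un_pi_dec hA (un_low hA h1 f').1 hf'⟩
      · exact ⟨true, true, un_pi_inc hA (un_low hA h1 _).2 (un_low hB h2 _).1,
          un_pi_dec hA (un_low hA h1 _).1 (un_low hB h2 _).2⟩
  | _ => intro k t Δ hn _ _ hT; exact un_atom hn hT (fun _ _ h => by cases h) k

theorem exists_model_unary {P : Spec ℕ} {s₀ : ℕ} (hP : Hyp P) (h : ¬ BinS P s₀) :
    Nonempty (Model.{0} P s₀) := by
  refine ⟨{ Ent := Tm × Bool
            tm := Prod.fst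
            D := unD P s₀
            Adm := fun N _ e => e.1 = N
            Good := fun Γ z => TSub P Set.univ [] Γ (unTm z)
            good_nil := ⟨fun _ => (.var 0, false), TSub.nil _⟩
            good_tsub := fun h => h
            good_neu := ?_
            good_adm := ?_
            adm_tm := fun h => conv_of_eq h
            adm_ex := fun N _ => ⟨(N, false), rfl⟩
            cand := unD_cand
            low := fun h => msk_low h _
            pi_iff := ?_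
            subst := ?_
            weak := unD_wk }⟩
  · intro Γ η A N s _ hG hA hN
    refine ⟨(N, false), conv_refl _, ?_⟩
    rw [unTm_scons]
    exact hG.cons (hN.ty (s := s) (hA.subT hG))
  · intro Γ η A N e r₁ r₂ r₃ _ hG hA _ _ _ hN he
    rw [unTm_scons, he]
    exact hG.cons (hN.ty (s := r₁) (hA.subT hG))
  · intro Γ η A B t _ _ _ _ _ hl F
    unfold unD
    rw [msk_not_low (T := sub (unTm η) (.pi A B)) hl]
    exact unJ_pi A B η F
  · intro Γ η A B Q N r₁ r₂ r₃ hΓ hG hA hB _ h2 _ hn hQ hN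
    obtain ⟨f, -, hf, -⟩ := un_key hP h B 0 r₂ (A :: Γ) hn (hΓ.cons hA) h2 hB
    refine ⟨(N, f), rfl, ?_⟩
    refine hf (scons Q Term.var) (scons (sub (unTm η) Q) (unTm η)) (scons (N, f) η) η
      ⟨hG.cons (hQ.subT hG), ?_, ?_, ?_⟩ (hP.ty_wn hΓ (hB.instT hQ)) rfl
    · rw [unTm_scons]
      exact conv_scons hN fun _ => conv_refl _
    · intro i
      cases i with
      | zero => exact hN
      | succ i => exact conv_refl _
    · intro i hi
      cases i with
      | zero => exact absurd rfl hi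
      | succ i => exact ⟨i, rfl, rfl⟩

end Crest.Agent.R298
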