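import Crest.Agent.R298.Main
import Crest.Agent.R298.Bip
import Crest.Agent.R298.Unary
import Crest.Agent.R298.OddBin
import Crest.Agent.R298.Hol

/-! Row 298. Assembly. -/

set_option autoImplicit false

namespace Crest.Agent.R298
open Crest.LogicCS.PTS Crest.LogicCS.PTS.Term

theorem appS_all {P : Spec ℕ} (hP : Hyp P) (s : ℕ) : AppS P s := by
  refine reach_ind hP (AppS P) (fun s₀ hlow => ?_) s
  by_cases ho : OddS P s₀
  · by_cases hb : BinS P s₀
    · have hc : ¬ Config P s₀ := fun hc => by
        obtain ⟨k⟩ := exists_hk hP s₀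
        obtain ⟨L⟩ := k.exists_lg ho hb
        obtain ⟨U⟩ := L.exists_uni hc
        exact U.false
      obtain ⟨m⟩ := exists_model_val hP hc
      exact m.appS hP hlow
    · obtain ⟨m⟩ := exists_model_unary hP hb
      exact m.appS hP hlow
  · obtain ⟨m⟩ := exists_model_bip hP ho
    exact m.appS hP hlow

theorem bgk (S : Type*) (P : Spec S) (h : ∀ (Γ : List (Term S)) (M : Term S), Legal P Γ M → WN M)
    (Γ : List (Term S)) (M : Term S) (hM : Legal P Γ M) : SN M :=
  reduce_nat (fun _ hP => legal_sn_of_appS hP (appS_all hP)) S P h Γ M hM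

end Crest.Agent.R298
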