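import Crest.Agent.R298.Transfer

/-! Row 298. The graphs on sorts. -/

set_option autoImplicit false

namespace Crest.Agent.R298
open Crest.LogicCS.PTS Crest.LogicCS.PTS.Term

/-- A product rule whose domain and codomain sorts are live. -/
def LRule (P : Spec ℕ) (a b c : ℕ) : Prop := P.rule a b c ∧ live P a ∧ live P b

/-- Walks along `c → b` (codomain edge) and `c → a` (domain edge) for live rules `(a,b,c)`;
the Boolean is the parity of the number of domain edges. -/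
inductive Walk (P : Spec ℕ) : ℕ → ℕ → Bool → Prop
  | refl (s : ℕ) : Walk P s s false
  | cod {a b c x : ℕ} {p : Bool} : LRule P a b c → Walk P b x p → Walk P c x p
  | dom {a b c x : ℕ} {p : Bool} : LRule P a b c → Walk P a x p → Walk P c x (!p)

def Reach (P : Spec ℕ) (s t : ℕ) : Prop := ∃ p, Walk P s t p
/-- The strongly connected component of `s₀`. -/
def InS (P : Spec ℕ) (s₀ t : ℕ) : Prop := Reach P s₀ t ∧ Reach P t s₀
/-- Strictly below the component of `s₀`. -/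
def Low (P : Spec ℕ) (s₀ t : ℕ) : Prop := Reach P s₀ t ∧ ¬ Reach P t s₀

/-- Walks along codomain edges. -/
inductive CStar (P : Spec ℕ) : ℕ → ℕ → Prop
  | refl (s : ℕ) : CStar P s s
  | step {a b c x : ℕ} : LRule P a b c → CStar P b x → CStar P c x

/-- Types of sort `r` may end in a sort of the component. -/
def Loaded (P : Spec ℕ) (s₀ r : ℕ) : Prop := ∃ n u, CStar P r n ∧ P.ax u n ∧ InS P s₀ u

/-- Walks on the level of kinds: a domain edge needs a loaded codomain sort. -/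
inductive KW (P : Spec ℕ) (s₀ : ℕ) : ℕ → ℕ → Bool → Prop
  | refl (s : ℕ) : KW P s₀ s s false
  | cod {a b c x : ℕ} {p : Bool} : LRule P a b c → KW P s₀ b x p → KW P s₀ c x p
  | dom {a b c x : ℕ} {p : Bool} : LRule P a b c → Loaded P s₀ b → KW P s₀ a x p →
      KW P s₀ c x (!p)

def KR (P : Spec ℕ) (s₀ x y : ℕ) : Prop := ∃ p, KW P s₀ x y p
def KEq (P : Spec ℕ) (s₀ x y : ℕ) : Prop := KR P s₀ x y ∧ KR P s₀ y x

/-- Sorts one can quantify over inside the component. -/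
def QS (P : Spec ℕ) (s₀ q : ℕ) : Prop := ∃ b c, LRule P q b c ∧ InS P s₀ b ∧ InS P s₀ c

/-- The sort `x` occurs with polarity `π` (`true` = positive) below a quantifier. -/
def PolS (P : Spec ℕ) (s₀ x : ℕ) (π : Bool) : Prop := ∃ q, QS P s₀ q ∧ KW P s₀ q x (!π)

/-- The configuration that gives a paradox. -/
def Config (P : Spec ℕ) (s₀ : ℕ) : Prop :=
  ∃ m b c n t r₁ r₂ r₃, LRule P m b c ∧ CStar P m n ∧ P.ax t n ∧ LRule P r₁ r₂ r₃ ∧
    Loaded P s₀ r₂ ∧ KEq P s₀ c b ∧ KEq P s₀ c t ∧ KEq P s₀ c r₁ ∧ KEq P s₀ c r₃ ∧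
    PolS P s₀ c true ∧ PolS P s₀ c false

def OddS (P : Spec ℕ) (s₀ : ℕ) : Prop := Walk P s₀ s₀ true
def BinS (P : Spec ℕ) (s₀ : ℕ) : Prop :=
  ∃ a b c, LRule P a b c ∧ InS P s₀ a ∧ InS P s₀ b ∧ InS P s₀ c

variable {P : Spec ℕ} {s₀ : ℕ} {H : Set ℕ}

theorem Walk.trans {x y z : ℕ} {p q : Bool} (h : Walk P x y p) (h' : Walk P y z q) :
    Walk P x z (xor p q) := by
  induction h generalizing q with
  | refl s => simpa using h'
  | cod hr _ ih => exact Walk.cod hr (ih h')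
  | dom hr _ ih =>
    have := Walk.dom hr (ih h')
    rwa [← Bool.not_xor] at this

theorem KW.trans {x y z : ℕ} {p q : Bool} (h : KW P s₀ x y p) (h' : KW P s₀ y z q) :
    KW P s₀ x z (xor p q) := by
  induction h generalizing q with
  | refl s => simpa using h'
  | cod hr _ ih => exact KW.cod hr (ih h')
  | dom hr hl _ ih =>
    have := KW.dom hr hl (ih h')
    rwa [← Bool.not_xor] at this

theorem CStar.trans {x y z : ℕ} (h : CStar P x y) (h' : CStar P y z) : CStar P x z := by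
  induction h with
  | refl s => exact h'
  | step hr _ ih => exact CStar.step hr (ih h')

theorem CStar.walk {x y : ℕ} (h : CStar P x y) : Walk P x y false := by
  induction h with
  | refl s => exact Walk.refl s
  | step hr _ ih => exact Walk.cod hr ih

theorem CStar.kw {x y : ℕ} (h : CStar P x y) : KW P s₀ x y false := by
  induction h with
  | refl s => exact KW.refl s
  | step hr _ ih => exact KW.cod hr ih

theorem Reach.refl (x : ℕ) : Reach P x x := ⟨_, Walk.refl x⟩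
theorem Reach.trans {x y z : ℕ} (h : Reach P x y) (h' : Reach P y z) : Reach P x z :=
  ⟨_, h.choose_spec.trans h'.choose_spec⟩
theorem KR.refl (x : ℕ) : KR P s₀ x x := ⟨_, KW.refl x⟩
theorem KR.trans {x y z : ℕ} (h : KR P s₀ x y) (h' : KR P s₀ y z) : KR P s₀ x z :=
  ⟨_, h.choose_spec.trans h'.choose_spec⟩
theorem LRule.reach_dom {a b c : ℕ} (h : LRule P a b c) : Reach P c a :=
  ⟨_, Walk.dom h (Walk.refl a)⟩
theorem LRule.reach_cod {a b c : ℕ} (h : LRule P a b c) : Reach P c b :=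
  ⟨_, Walk.cod h (Walk.refl b)⟩
theorem InS.refl : InS P s₀ s₀ := ⟨Reach.refl _, Reach.refl _⟩

theorem Reach.cases {t : ℕ} (h : Reach P s₀ t) : InS P s₀ t ∨ Low P s₀ t := by
  by_cases h' : Reach P t s₀
  · exact Or.inl ⟨h, h'⟩
  · exact Or.inr ⟨h, h'⟩

theorem Low.step {x y : ℕ} (h : Low P s₀ x) (h' : Reach P x y) : Low P s₀ y :=
  ⟨h.1.trans h', fun h2 => h.2 (h'.trans h2)⟩

theorem InS.dom {a b c : ℕ} (hc : InS P s₀ c) (h : LRule P a b c) : InS P s₀ a ∨ Low P s₀ a :=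
  (hc.1.trans h.reach_dom).cases
theorem InS.cod {a b c : ℕ} (hc : InS P s₀ c) (h : LRule P a b c) : InS P s₀ b ∨ Low P s₀ b :=
  (hc.1.trans h.reach_cod).cases

theorem InS.between {x y z : ℕ} (hx : InS P s₀ x) (hz : InS P s₀ z) (h : Reach P x y)
    (h' : Reach P y z) : InS P s₀ y := ⟨hx.1.trans h, h'.trans hz.2⟩

theorem PolS.cod {a b c : ℕ} {π : Bool} (h : PolS P s₀ c π) (hr : LRule P a b c) :
    PolS P s₀ b π := by
  obtain ⟨q, hq, hw⟩ := h
  refine ⟨q, hq, ?_⟩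
  have := hw.trans (KW.cod hr (KW.refl b))
  simpa using this

theorem PolS.dom {a b c : ℕ} {π : Bool} (h : PolS P s₀ c π) (hr : LRule P a b c)
    (hl : Loaded P s₀ b) : PolS P s₀ a (!π) := by
  obtain ⟨q, hq, hw⟩ := h
  refine ⟨q, hq, ?_⟩
  have := hw.trans (KW.dom hr hl (KW.refl a))
  cases π <;> simpa using this

theorem QS.pol {q : ℕ} (h : QS P s₀ q) : PolS P s₀ q true := ⟨q, h, KW.refl q⟩

theorem PolS.mixed {x y : ℕ} (h1 : PolS P s₀ x true) (h2 : PolS P s₀ x false)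
    (h : KR P s₀ x y) : PolS P s₀ y true ∧ PolS P s₀ y false := by
  obtain ⟨q1, hq1, hw1⟩ := h1
  obtain ⟨q2, hq2, hw2⟩ := h2
  obtain ⟨p, hp⟩ := h
  have a1 := hw1.trans hp
  have a2 := hw2.trans hp
  cases p
  · exact ⟨⟨q1, hq1, by simpa using a1⟩, ⟨q2, hq2, by simpa using a2⟩⟩
  · exact ⟨⟨q2, hq2, by simpa using a2⟩, ⟨q1, hq1, by simpa using a1⟩⟩

theorem Loaded.step {a b c : ℕ} (hr : LRule P a b c) (h : Loaded P s₀ b) : Loaded P s₀ c := by
  obtain ⟨n, u, h1, h2, h3⟩ := h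
  exact ⟨n, u, CStar.step hr h1, h2, h3⟩

theorem LRule.live_res {a b c : ℕ} (h : LRule P a b c) (hP : Hyp P) : live P c := by
  obtain ⟨hr, ha, hb⟩ := h
  obtain ⟨c1, h1⟩ := live_cst ha
  obtain ⟨c2, h2⟩ := live_cst hb
  exact hP.ty_live Wf.nil (Ty.prod h1 (h2.of_nil [cst c1]) hr)

theorem lrule_of_ty (hP : Hyp P) {Γ : List Tm} {A B : Tm} {a b c : ℕ} (hΓ : Wf P H Γ)
    (hA : Ty P H Γ A (srt a)) (hB : Ty P H (A :: Γ) B (srt b)) (hr : P.rule a b c) :
    LRule P a b c :=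
  ⟨hr, hP.ty_live hΓ hA, hP.ty_live (Wf.cons hΓ hA) hB⟩

private theorem fin_ind (R : ℕ → ℕ → Prop) (hrefl : ∀ x, R x x)
    (htrans : ∀ x y z, R x y → R y z → R x z) (hfin : ∀ x, {y | R x y}.Finite) (Q : ℕ → Prop)
    (h : ∀ x, (∀ y, R x y → ¬ R y x → Q y) → Q x) (x : ℕ) : Q x := by
  have key : ∀ n x, {y | R x y}.ncard = n → Q x := by
    intro n
    induction n using Nat.strong_induction_on with
    | _ n ih =>
      intro x hx
      refine h x (fun y hxy hyx => ih _ ?_ y rfl)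
      rw [← hx]
      refine Set.ncard_lt_ncard ⟨fun z hz => htrans _ _ _ hxy hz, fun hsub => hyx ?_⟩ (hfin x)
      exact hsub (hrefl x)
  exact key _ x rfl

private def ruleSorts (P : Spec ℕ) : Set ℕ :=
  (fun p : ℕ × ℕ × ℕ => p.1) '' {p : ℕ × ℕ × ℕ | P.rule p.1 p.2.1 p.2.2} ∪
    (fun p : ℕ × ℕ × ℕ => p.2.1) '' {p : ℕ × ℕ × ℕ | P.rule p.1 p.2.1 p.2.2}

private theorem ruleSorts_finite (hP : Hyp P) : (ruleSorts P).Finite :=
  (hP.fin.image _).union (hP.fin.image _)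

private theorem Walk.mem_sorts {x y : ℕ} {p : Bool} (h : Walk P x y p) :
    y ∈ insert x (ruleSorts P) := by
  induction h with
  | refl s => exact Set.mem_insert _ _
  | @cod a b c x p hr _ ih =>
    rcases ih with rfl | ih
    · exact Or.inr (Or.inr ⟨(a, x, c), hr.1, rfl⟩)
    · exact Or.inr ih
  | @dom a b c x p hr _ ih =>
    rcases ih with rfl | ih
    · exact Or.inr (Or.inl ⟨(x, b, c), hr.1, rfl⟩)
    · exact Or.inr ih

private theorem KW.toWalk {x y : ℕ} {p : Bool} (h : KW P s₀ x y p) : Walk P x y p := by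
  induction h with
  | refl s => exact Walk.refl s
  | cod hr _ ih => exact Walk.cod hr ih
  | dom hr _ _ ih => exact Walk.dom hr ih

/-- Induction over the components of the sort graph. -/
theorem reach_ind (hP : Hyp P) (Q : ℕ → Prop) (h : ∀ s, (∀ t, Low P s t → Q t) → Q s) (s : ℕ) :
    Q s := by
  refine fin_ind (Reach P) Reach.refl (fun _ _ _ => Reach.trans) (fun x => ?_) Q
    (fun x hx => h x (fun t ht => hx t ht.1 ht.2)) s
  refine ((ruleSorts_finite hP).insert x).subset ?_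
  rintro y ⟨p, hp⟩
  exact hp.mem_sorts

/-- Induction over the components of the kind graph. -/
theorem kr_ind (hP : Hyp P) (Q : ℕ → Prop)
    (h : ∀ x, (∀ y, KR P s₀ x y → ¬ KR P s₀ y x → Q y) → Q x) (x : ℕ) : Q x := by
  refine fin_ind (KR P s₀) KR.refl (fun _ _ _ => KR.trans) (fun x => ?_) Q h x
  refine ((ruleSorts_finite hP).insert x).subset ?_
  rintro y ⟨p, hp⟩
  exact hp.toWalk.mem_sorts

theorem exists_col (h : ¬ OddS P s₀) : ∃ col : ℕ → Bool, ∀ a b c, LRule P a b c → InS P s₀ c →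
    (InS P s₀ b → col b = col c) ∧ (InS P s₀ a → col a = !col c) := by
  classical
  have uniq : ∀ t, InS P s₀ t → ∀ p, Walk P s₀ t p → decide (Walk P s₀ t true) = p := by
    intro t ht p hp
    cases p
    · refine decide_eq_false (fun h1 => ?_)
      obtain ⟨q, hq⟩ := ht.2
      cases q
      · exact h (by simpa [OddS] using h1.trans hq)
      · exact h (by simpa [OddS] using hp.trans hq)
    · exact decide_eq_true hp
  refine ⟨fun t => decide (Walk P s₀ t true), fun a b c hr hc => ⟨fun hb => ?_, fun ha => ?_⟩⟩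
  · obtain ⟨p, hp⟩ := hc.1
    have h1 := hp.trans (Walk.cod hr (Walk.refl b))
    show decide (Walk P s₀ b true) = decide (Walk P s₀ c true)
    rw [uniq c hc p hp, uniq b hb _ h1]; simp
  · obtain ⟨p, hp⟩ := hc.1
    have h1 := hp.trans (Walk.dom hr (Walk.refl a))
    show decide (Walk P s₀ a true) = !decide (Walk P s₀ c true)
    rw [uniq c hc p hp, uniq a ha _ h1]; simp

theorem OddS.walk (h : OddS P s₀) {x y : ℕ} (hx : InS P s₀ x) (hy : InS P s₀ y) :
    Walk P y x true := by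
  obtain ⟨p, hp⟩ := hy.2
  obtain ⟨q, hq⟩ := hx.1
  have h1 := hp.trans hq
  have h2 := (hp.trans h).trans hq
  cases p <;> cases q
  · simpa using h2
  · simpa using h1
  · simpa using h1
  · simpa using h2

theorem KW.rev {x y : ℕ} {p : Bool} (h : KW P s₀ x y p) (h' : KR P s₀ y x) : KW P s₀ y x p := by
  obtain ⟨q, hq⟩ := h'
  have h2 := (hq.trans h).trans hq
  cases p <;> cases q
  · exact hq
  · simpa using h2
  · simpa using h2
  · exact hq

/-- The data used by the paradox. -/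
theorem Config.data (h : Config P s₀) :
    ∃ m b c n t a qA qB p, LRule P m b c ∧ CStar P m n ∧ P.ax t n ∧
      KW P s₀ a b true ∧ KW P s₀ b a true ∧ KW P s₀ b t p ∧ KW P s₀ t c p ∧
      QS P s₀ qA ∧ KW P s₀ qA b true ∧ QS P s₀ qB ∧ KW P s₀ qB a true := by
  obtain ⟨m, b, c, n, t, r₁, r₂, r₃, hr, hmn, hax, hr', hl, hcb, hct, hc1, hc3,
    ⟨qB, hqB, wB⟩, ⟨qA, hqA, wA⟩⟩ := h
  have ecb : KW P s₀ c b false := KW.cod hr (KW.refl b)
  obtain ⟨a, hba, hab⟩ : ∃ a, KW P s₀ b a true ∧ KR P s₀ a b := by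
    obtain ⟨e, he⟩ := hcb.2.trans hc3.1
    cases e
    · refine ⟨r₁, ?_, hc1.2.trans hcb.1⟩
      simpa using he.trans (KW.dom hr' hl (KW.refl r₁))
    · exact ⟨r₃, he, hc3.2.trans hcb.1⟩
  obtain ⟨p, hp⟩ := hcb.2.trans hct.1
  have hctp : KW P s₀ c t p := by simpa using ecb.trans hp
  refine ⟨m, b, c, n, t, a, qA, qB, p, hr, hmn, hax, hba.rev hab, hba, hp, hctp.rev hct.2,
    hqA, ?_, hqB, ?_⟩
  · simpa using wA.trans ecb
  · simpa using (wB.trans ecb).trans hba

/-- The sort of the type of a spine headed by a variable. -/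
theorem Ty.chain (hP : Hyp P) {Γ : List Tm} {M T A : Tm} {i m : ℕ} (hΓ : Wf P H Γ)
    (hi : Look Γ i A) (hA : Ty P H Γ A (srt m)) (hh : head M = .var i) (h : Ty P H Γ M T) :
    ∃ T₁ n, Conv T₁ T ∧ Ty P H Γ T₁ (srt n) ∧ CStar P m n := by
  induction M generalizing T with
  | var j =>
    have : j = i := by simpa [head] using hh
    subst this
    obtain ⟨A', h1, h2⟩ := h.gen_var
    obtain rfl := hi.unique h1
    exact ⟨A, m, h2, hA, CStar.refl m⟩
  | sort s => simp [head] at hh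
  | app M N ihM _ =>
    obtain ⟨B, C, h1, h2, h3⟩ := h.gen_app
    obtain ⟨T₁, n, c1, t1, cs⟩ := ihM hh h1
    obtain ⟨B', C', r1, r2, r3⟩ := conv_pi_red c1
    obtain ⟨s₁, s₂, g1, g2, g3⟩ := (t1.sr_red hΓ r1).gen_pi_srt
    have hN : Ty P H Γ N B' := Ty.conv h2 g1 (conv_of_red r2)
    refine ⟨inst N C', s₂, conv_trans (conv_inst (conv_refl N) (conv_symm (conv_of_red r3))) h3,
      g2.instT hN, cs.trans (CStar.step (lrule_of_ty hP hΓ g1 g2 g3) (CStar.refl s₂))⟩
  | lam _ _ _ _ => simp [head] at hh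
  | pi _ _ _ _ => simp [head] at hh

end Crest.Agent.R298
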