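import Crest.Agent.R298.Tele

/-! Row 298. A consistent set of constants with witnesses (Henkin construction). -/

set_option autoImplicit false

namespace Crest.Agent.R298
open Crest.LogicCS.PTS Crest.LogicCS.PTS.Term

/-- Answer sorts. -/
def Ans (P : Spec ℕ) (s₀ x : ℕ) : Prop := ∃ a c, LRule P a x c ∧ InS P s₀ a ∧ InS P s₀ c

/-- Truth: having a closed inhabitant. -/
def Tr (P : Spec ℕ) (H : Set ℕ) (ψ : Tm) : Prop := ∃ M, Ty P H [] M ψ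

/-- Telescopes ending in an answer type. -/
inductive EndsE (P : Spec ℕ) (s₀ : ℕ) (E : ℕ → ℕ) : Tm → Prop
  | base (x : ℕ) : Ans P s₀ x → EndsE P s₀ E (cst (E x))
  | pi (A B : Tm) : EndsE P s₀ E B → EndsE P s₀ E (.pi A B)

structure Hk (P : Spec ℕ) (s₀ : ℕ) where
  H : Set ℕ
  D : ℕ → ℕ
  E : ℕ → ℕ
  d : ℕ → ℕ
  tyD : ∀ s Γ, Sup P s → Ty P H Γ (cst (D s)) (srt s)
  tyE : ∀ s Γ, Sup P s → Ty P H Γ (cst (E s)) (srt s)
  tyd : ∀ s Γ, Sup P s → Ty P H Γ (cst (d s)) (cst (D s))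
  cons : ∀ x, Ans P s₀ x → ¬ Tr P H (cst (E x))
  wit : ∀ K ψ u, EndsE P s₀ E ψ → Ty P H [] (.pi K ψ) (srt u) →
    (∀ α, Ty P H [] α K → Tr P H (inst α ψ)) → Tr P H (.pi K ψ)

theorem Tr.conv {P : Spec ℕ} {H : Set ℕ} {ψ ψ' : Tm} {s : ℕ} (h : Tr P H ψ) (hc : Conv ψ ψ')
    (ht : Ty P H [] ψ' (srt s)) : Tr P H ψ' := by
  obtain ⟨M, hM⟩ := h
  exact ⟨M, hM.conv ht hc⟩

theorem tr_conv_iff {P : Spec ℕ} {H : Set ℕ} {ψ ψ' : Tm} {s s' : ℕ} (hc : Conv ψ ψ')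
    (ht : Ty P H [] ψ (srt s)) (ht' : Ty P H [] ψ' (srt s')) : Tr P H ψ ↔ Tr P H ψ' :=
  ⟨fun h => h.conv hc ht', fun h => h.conv (conv_symm hc) ht⟩

section Construction

variable {P : Spec ℕ} {s₀ : ℕ} {H : Set ℕ} {D E : ℕ → ℕ}

theorem hk_cty_pair (T : Tm) (j : ℕ) : cty (Nat.pair (encTm T) j) = T := by
  simp [cty, Function.leftInverse_invFun encTm_injective T]

theorem Tr.mono {H' : Set ℕ} {ψ : Tm} (h : Tr P H ψ) (hH : H ⊆ H') : Tr P H' ψ :=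
  ⟨_, h.choose_spec.mono hH⟩

theorem hk_sup_finite (hP : Hyp P) : {s | Sup P s}.Finite := by
  refine (((hP.fin.image fun p => p.1).union (hP.fin.image fun p => p.2.1)).union
    (hP.fin.image fun p => p.2.2)).subset ?_
  rintro s ⟨a, b, c, hr, rfl | rfl | rfl⟩
  · exact Or.inl (Or.inl ⟨(_, _, _), hr.1, rfl⟩)
  · exact Or.inl (Or.inr ⟨(_, _, _), hr.1, rfl⟩)
  · exact Or.inr ⟨(_, _, _), hr.1, rfl⟩

theorem Sup.isLive {s : ℕ} (h : Sup P s) (hP : Hyp P) : live P s := by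
  obtain ⟨a, b, c, hr, rfl | rfl | rfl⟩ := h
  exacts [hr.2.1, hr.2.2, hr.live_res hP]

theorem CStar.sup {y x : ℕ} (h : CStar P y x) (hy : Sup P y) : Sup P x := by
  induction h with
  | refl s => exact hy
  | step hr _ ih => exact ih ⟨_, _, _, hr, Or.inr (Or.inl rfl)⟩

theorem hk_not_conv_tele (hDE : ∀ s x, D s ≠ E x) {s : ℕ ⊕ ℕ}
    (hs : (∃ t, s = .inl t) ∨ ∃ r, s = .inr (D r)) (ds : List ℕ) (x : ℕ) :
    ¬ Conv (.sort s) (tele D ds (cst (E x))) := by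
  intro h
  cases ds with
  | nil =>
    have := conv_sort_inj h
    rcases hs with ⟨t, rfl⟩ | ⟨r, rfl⟩
    · cases this
    · exact hDE r x (Sum.inr_injective this)
  | cons r ds => exact not_conv_sort_pi h

theorem hk_look {Γ : List Tm} (hΓ : ∀ B ∈ Γ, ∃ r, Conv B (cst (D r))) {i : ℕ} {A : Tm}
    (h : Look Γ i A) : ∃ r, Conv A (cst (D r)) := by
  induction h with
  | here A Γ =>
    obtain ⟨r, hr⟩ := hΓ A List.mem_cons_self
    exact ⟨r, conv_wk hr⟩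
  | there B _ ih =>
    obtain ⟨r, hr⟩ := ih fun C hC => hΓ C (List.mem_cons_of_mem _ hC)
    exact ⟨r, conv_wk hr⟩

/-- No normal term inhabits a dummy telescope ending in an answer type. -/
theorem hk_normal (hDE : ∀ s x, D s ≠ E x)
    (hsh : ∀ n ∈ H, (∃ s, cty n = srt s) ∨ (∃ s, cty n = cst (D s)) ∨
      ∃ ds x s, cty n = .pi (tele D ds (cst (E x))) (cst (E s)))
    (M : Tm) : ∀ {Γ : List Tm} {T : Tm}, (∀ B ∈ Γ, ∃ r, Conv B (cst (D r))) → Normal M →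
      Ty P H Γ M T → (∀ ds x, ¬ Conv T (tele D ds (cst (E x)))) ∧
        ((∀ A B, M ≠ .lam A B) → ∀ A B, Conv T (.pi A B) →
          ∃ ds x, Conv A (tele D ds (cst (E x)))) := by
  have key : ∀ {T : Tm} {s : ℕ ⊕ ℕ} {Q : Prop}, ((∃ t, s = .inl t) ∨ ∃ r, s = .inr (D r)) →
      Conv (.sort s) T → (∀ ds x, ¬ Conv T (tele D ds (cst (E x)))) ∧
        (Q → ∀ A B, Conv T (.pi A B) → ∃ ds x, Conv A (tele D ds (cst (E x)))) :=
    fun hs hc => ⟨fun ds x h => hk_not_conv_tele hDE hs ds x (conv_trans hc h),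
      fun _ A B h => absurd (conv_trans hc h) not_conv_sort_pi⟩
  induction M with
  | var i =>
    intro Γ T hΓ _ h
    obtain ⟨A, h1, h2⟩ := h.gen_var
    obtain ⟨r, hr⟩ := hk_look hΓ h1
    exact key (Or.inr ⟨r, rfl⟩) (conv_trans (conv_symm hr) h2)
  | sort s =>
    intro Γ T hΓ _ h
    rcases s with s | n
    · obtain ⟨t, -, h2⟩ := h.gen_srt
      exact key (Or.inl ⟨t, rfl⟩) h2
    · obtain ⟨h1, h2⟩ := h.gen_cst
      rcases hsh n h1.1 with ⟨s, e⟩ | ⟨s, e⟩ | ⟨ds, x, s, e⟩ <;> rw [e] at h2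
      · exact key (Or.inl ⟨s, rfl⟩) h2
      · exact key (Or.inr ⟨s, rfl⟩) h2
      · refine ⟨fun ds' x' h3 => ?_,
          fun _ A B h3 => ⟨ds, x, conv_symm (conv_pi_inj (conv_trans h2 h3)).1⟩⟩
        cases ds' with
        | nil => exact not_conv_sort_pi (conv_symm (conv_trans h2 h3))
        | cons r ds' =>
          exact hk_not_conv_tele hDE (Or.inr ⟨r, rfl⟩) ds x
            (conv_symm (conv_pi_inj (conv_trans h2 h3)).1)
  | app M N ihM ihN =>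
    intro Γ T hΓ hn h
    obtain ⟨A, B, h1, h2, -⟩ := h.gen_app
    obtain ⟨n1, n2, n3⟩ := normal_app_iff.1 hn
    obtain ⟨ds, x, h3⟩ := (ihM hΓ n1 h1).2 n3 A B (conv_refl _)
    exact absurd h3 ((ihN hΓ n2 h2).1 ds x)
  | lam A M _ ihM =>
    intro Γ T hΓ hn h
    refine ⟨fun ds x h3 => ?_, fun h => absurd rfl (h A M)⟩
    obtain ⟨B, -, -, -, -, -, -, h1, h2⟩ := h.gen_lam
    cases ds with
    | nil => exact not_conv_sort_pi (conv_symm (conv_trans h2 h3))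
    | cons r ds =>
      obtain ⟨c1, c2⟩ := conv_pi_inj (conv_trans h2 h3)
      rw [wk_eq_sub, sub_tele] at c2
      refine (ihM (fun C hC => ?_) (normal_lam_iff.1 hn).2 h1).1 ds x c2
      rcases List.mem_cons.1 hC with rfl | hC
      · exact ⟨r, c1⟩
      · exact hΓ C hC
  | pi A B _ _ =>
    intro Γ T hΓ _ h
    obtain ⟨_, _, t, -, -, -, h2⟩ := h.gen_pi
    exact key (Or.inl ⟨t, rfl⟩) h2

/-- The answer types are equivalent over the casts. -/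
theorem hk_exfalso (hD : ∀ s Γ, Sup P s → Ty P H Γ (cst (D s)) (srt s))
    (hE : ∀ s Γ, Sup P s → Ty P H Γ (cst (E s)) (srt s))
    (hk : ∀ y s z x, LRule P y s z → CStar P y x →
      ∃ ds, CW P y x ds ∧ Tr P H (.pi (tele D ds (cst (E x))) (cst (E s))))
    {x x' : ℕ} (hx : Ans P s₀ x) (hx' : Ans P s₀ x') (h : Tr P H (cst (E x))) :
    Tr P H (cst (E x')) := by
  have cast : ∀ y s z, LRule P y s z → (∃ x, CStar P y x ∧ Tr P H (cst (E x))) →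
      Tr P H (cst (E s)) := by
    rintro y s z hr ⟨x, h1, M, hM⟩
    obtain ⟨ds, h2, k, h3⟩ := hk y s z x hr h1
    exact ⟨_, Ty.app h3 (ty_lams hD h2 (hE x [] (h1.sup ⟨_, _, _, hr, Or.inl rfl⟩)) hM)⟩
  have walk : ∀ z y p, Walk P z y p → (∃ x, CStar P y x ∧ Tr P H (cst (E x))) →
      ∃ x, CStar P z x ∧ Tr P H (cst (E x)) := by
    intro z y p hw hy
    induction hw with
    | refl s => exact hy
    | cod hr _ ih =>
      obtain ⟨x, h1, h2⟩ := ih hy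
      exact ⟨x, CStar.step hr h1, h2⟩
    | dom hr _ ih => exact ⟨_, CStar.step hr (CStar.refl _), cast _ _ _ hr (ih hy)⟩
  obtain ⟨a, c, hr, -, hc⟩ := hx
  obtain ⟨a', c', hr', ha', -⟩ := hx'
  obtain ⟨p, hp⟩ := ha'.2.trans hc.1
  exact cast _ _ _ hr' (walk _ _ _ hp ⟨x, CStar.step hr (CStar.refl _), h⟩)

/-- Refutations of telescopes ending in an answer type. -/
inductive HkRef (P : Spec ℕ) (s₀ : ℕ) (E : ℕ → ℕ) (H : Set ℕ) : Tm → Prop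
  | base (x : ℕ) : Ans P s₀ x → HkRef P s₀ E H (cst (E x))
  | pi {A B N : Tm} : Ty P H [] N A → HkRef P s₀ E H (inst N B) → HkRef P s₀ E H (.pi A B)

theorem HkRef.mono {H' : Set ℕ} {ψ : Tm} (h : HkRef P s₀ E H ψ) (hH : H ⊆ H') :
    HkRef P s₀ E H' ψ := by
  induction h with
  | base x hx => exact .base x hx
  | pi h _ ih => exact .pi (h.mono hH) ih

theorem HkRef.not_tr {ψ : Tm} (h : HkRef P s₀ E H ψ)
    (hc : ∀ x, Ans P s₀ x → ¬ Tr P H (cst (E x))) : ¬ Tr P H ψ := by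
  induction h with
  | base x hx => exact hc x hx
  | pi h _ ih => exact fun ⟨M, hM⟩ => ih ⟨_, hM.app h⟩

/-- Finite consistent extensions of `H₀`. -/
def HkGood (P : Spec ℕ) (s₀ : ℕ) (E : ℕ → ℕ) (H : Set ℕ) : Prop :=
  H.Finite ∧ HWf P H ∧ ∀ x, Ans P s₀ x → ¬ Tr P H (cst (E x))

theorem hk_step {H₀ : Set ℕ}
    (hex : ∀ H, H₀ ⊆ H → ∀ x x', Ans P s₀ x → Ans P s₀ x' → Tr P H (cst (E x)) →
      Tr P H (cst (E x')))
    {ψ : Tm} (hψ : EndsE P s₀ E ψ) : ∀ (θ : ℕ → Tm) (H : Set ℕ) (u : ℕ), H₀ ⊆ H → H.Finite →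
      HWf P H → Ty P H [] (sub θ ψ) (srt u) →
      Tr P H (sub θ ψ) ∨ ∃ H', H ⊆ H' ∧ HkGood P s₀ E H' ∧ HkRef P s₀ E H' (sub θ ψ) := by
  induction hψ with
  | base x hx =>
    intro θ H u h0 hf hw _
    by_cases hc : ∀ x, Ans P s₀ x → ¬ Tr P H (cst (E x))
    · exact Or.inr ⟨H, le_rfl, ⟨hf, hw, hc⟩, .base x hx⟩
    · push Not at hc
      obtain ⟨x', hx', h⟩ := hc
      exact Or.inl (hex H h0 x' x hx' hx h)
  | pi A B _ ih =>
    intro θ H u h0 hf hw ht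
    rw [sub_pi] at ht ⊢
    obtain ⟨s₁, s₂, hA, hB, hr⟩ := ht.gen_pi_srt
    obtain ⟨J, hJ⟩ := hf.bddAbove
    obtain ⟨c, hc, e⟩ := cty_fibre (sub θ A) (J + 1)
    have hlt : ∀ n ∈ H, n < c := fun n hn => lt_of_lt_of_le (Nat.lt_succ_of_le (hJ hn)) hc
    have hw' : HWf P (insert c H) := hw.add hlt (Or.inl ⟨s₁, e ▸ hA⟩)
    have hcT : Ty P (insert c H) [] (cst c) (sub θ A) :=
      e ▸ (hw' c (Set.mem_insert _ _)).ty []
    have hB' := (hB.mono (Set.subset_insert c H)).instT hcT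
    rw [inst_sub_up] at hB'
    rcases ih (scons (cst c) θ) (insert c H) s₂ (h0.trans (Set.subset_insert _ _)) (hf.insert c)
      hw' hB' with ⟨M, hM⟩ | ⟨H', h1, h2, h3⟩
    · rw [← inst_sub_up] at hM
      obtain ⟨M', hM'⟩ := hM.abstract hw (fun h => lt_irrefl _ (hlt c h)) (e ▸ hA.cin)
        (e ▸ hA.scoped) hB.cin hB.scoped
      rw [e] at hM'
      exact Or.inl ⟨_, Ty.abs hA hB hr hM'⟩
    · rw [← inst_sub_up] at h3
      exact Or.inr ⟨H', (Set.subset_insert _ _).trans h1, h2, .pi (hcT.mono h1) h3⟩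

theorem hk_union {F : ℕ → Set ℕ} (hF : Monotone F) {Γ : List Tm} {M A : Tm}
    (h : Ty P (⋃ k, F k) Γ M A) : ∃ k, Ty P (F k) Γ M A := by
  obtain ⟨N, hN⟩ := h.compact
  have : ∀ N, ∃ k, (⋃ k, F k) ∩ Set.Iio N ⊆ F k := by
    intro N
    induction N with
    | zero => exact ⟨0, fun x hx => absurd hx.2 (Nat.not_lt_zero x)⟩
    | succ N ih =>
      obtain ⟨k, hk⟩ := ih
      by_cases hN : N ∈ ⋃ k, F k
      · obtain ⟨j, hj⟩ := Set.mem_iUnion.1 hN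
        refine ⟨max k j, fun x hx => ?_⟩
        rcases Nat.lt_succ_iff_lt_or_eq.1 hx.2 with h | rfl
        · exact hF (le_max_left _ _) (hk ⟨hx.1, h⟩)
        · exact hF (le_max_right _ _) hj
      · refine ⟨k, fun x hx => ?_⟩
        rcases Nat.lt_succ_iff_lt_or_eq.1 hx.2 with h | rfl
        · exact hk ⟨hx.1, h⟩
        · exact absurd hx.1 hN
  obtain ⟨k, hk⟩ := this N
  exact ⟨k, hN.mono hk⟩

/-- The Henkin completion of a finite consistent set. -/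
theorem hk_complete {H₀ : Set ℕ} (h0 : HkGood P s₀ E H₀)
    (hex : ∀ H, H₀ ⊆ H → ∀ x x', Ans P s₀ x → Ans P s₀ x' → Tr P H (cst (E x)) →
      Tr P H (cst (E x'))) :
    ∃ H, H₀ ⊆ H ∧ (∀ x, Ans P s₀ x → ¬ Tr P H (cst (E x))) ∧
      ∀ K ψ u, EndsE P s₀ E ψ → Ty P H [] (.pi K ψ) (srt u) →
        (∀ α, Ty P H [] α K → Tr P H (inst α ψ)) → Tr P H (.pi K ψ) := by
  have hnext : ∀ (k : ℕ) (H : {H // HkGood P s₀ E H}), ∃ H' : {H // HkGood P s₀ E H},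
      H.1 ⊆ H'.1 ∧ ((∃ H'', H.1 ⊆ H'' ∧ HkGood P s₀ E H'' ∧ HkRef P s₀ E H'' (cty k)) →
        HkRef P s₀ E H'.1 (cty k)) := by
    intro k H
    by_cases h : ∃ H'', H.1 ⊆ H'' ∧ HkGood P s₀ E H'' ∧ HkRef P s₀ E H'' (cty k)
    · obtain ⟨H'', h1, h2, h3⟩ := h
      exact ⟨⟨H'', h2⟩, h1, fun _ => h3⟩
    · exact ⟨H, le_rfl, fun h' => absurd h' h⟩
  choose nx hnx1 hnx2 using hnext
  obtain ⟨F, hF0, hFs⟩ : ∃ F : ℕ → {H // HkGood P s₀ E H}, F 0 = ⟨H₀, h0⟩ ∧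
      ∀ k, F (k + 1) = nx k (F k) := ⟨fun k => Nat.rec ⟨H₀, h0⟩ nx k, rfl, fun _ => rfl⟩
  have hmono : Monotone fun k => (F k).1 := monotone_nat_of_le_succ fun k => by
    rw [hFs]; exact hnx1 k _
  have hsub : ∀ k, H₀ ⊆ (F k).1 := fun k => by
    have := hmono (Nat.zero_le k)
    simp only [hF0] at this
    exact this
  have hcons : ∀ x, Ans P s₀ x → ¬ Tr P (⋃ k, (F k).1) (cst (E x)) := by
    rintro x hx ⟨M, hM⟩
    obtain ⟨k, hk⟩ := hk_union hmono hM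
    exact (F k).2.2.2 x hx ⟨M, hk⟩
  refine ⟨⋃ k, (F k).1, (hsub 0).trans (Set.subset_iUnion (fun k => (F k).1) 0), hcons, ?_⟩
  intro K ψ u hψ ht hall
  obtain ⟨j, hj⟩ := hk_union hmono ht
  obtain ⟨k, hjk, e⟩ := cty_fibre (.pi K ψ) j
  have h := hk_step hex (EndsE.pi K ψ hψ) Term.var (F k).1 u (hsub k) (F k).2.1 (F k).2.2.1
    (by rw [sub_id]; exact hj.mono (hmono hjk))
  rw [sub_id] at h
  rcases h with h | h
  · exact h.mono (Set.subset_iUnion (fun k => (F k).1) k)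
  · have h1 := hnx2 k (F k) (e ▸ h)
    rw [e, ← hFs] at h1
    have h2 := h1.mono (Set.subset_iUnion (fun k => (F k).1) (k + 1))
    cases h2 with
    | pi h3 h4 => exact absurd (hall _ h3) (h4.not_tr hcons)

end Construction

theorem exists_hk {P : Spec ℕ} (hP : Hyp P) (s₀ : ℕ) : Nonempty (Hk P s₀) := by
  classical
  have hfin := hk_sup_finite hP
  obtain ⟨D, hD⟩ : ∃ D : ℕ → ℕ, ∀ s, D s = Nat.pair (encTm (srt s)) 0 := ⟨_, fun _ => rfl⟩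
  obtain ⟨E, hE⟩ : ∃ E : ℕ → ℕ, ∀ s, E s = Nat.pair (encTm (srt s)) 1 := ⟨_, fun _ => rfl⟩
  have hDE : ∀ s x, D s ≠ E x := fun s x h => by
    rw [hD, hE, Nat.pair_eq_pair] at h
    exact zero_ne_one h.2
  have cD : ∀ s, cty (D s) = srt s := fun s => by rw [hD, hk_cty_pair]
  have cE : ∀ s, cty (E s) = srt s := fun s => by rw [hE, hk_cty_pair]
  obtain ⟨H₁, hH₁⟩ : ∃ H₁ : Set ℕ, H₁ = D '' {s | Sup P s} ∪ E '' {s | Sup P s} := ⟨_, rfl⟩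
  have f1 : H₁.Finite := hH₁ ▸ (hfin.image D).union (hfin.image E)
  have tD : ∀ s Γ, Sup P s → Ty P H₁ Γ (cst (D s)) (srt s) := fun s Γ hs =>
    cD s ▸ Ty.cstS (hH₁ ▸ Or.inl ⟨s, hs, rfl⟩) (cD s) (hs.isLive hP)
  have tE : ∀ s Γ, Sup P s → Ty P H₁ Γ (cst (E s)) (srt s) := fun s Γ hs =>
    cE s ▸ Ty.cstS (hH₁ ▸ Or.inr ⟨s, hs, rfl⟩) (cE s) (hs.isLive hP)
  obtain ⟨J, hJ⟩ := f1.bddAbove
  obtain ⟨c, hc1, hc2⟩ : ∃ c : Tm → ℕ, (∀ T, cty (c T) = T) ∧ ∀ T, ∀ n ∈ H₁, n < c T :=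
    ⟨fun T => Nat.pair (encTm T) (J + 1), fun T => hk_cty_pair T _, fun T n hn =>
      lt_of_lt_of_le (Nat.lt_succ_of_le (hJ hn)) (Nat.right_le_pair _ _)⟩
  obtain ⟨w, hw⟩ : ∃ w : ℕ → ℕ → List ℕ, ∀ y x, CStar P y x → CW P y x (w y x) := by
    have : ∀ y x, ∃ ds, CStar P y x → CW P y x ds := fun y x => by
      by_cases h : CStar P y x
      · exact ⟨_, fun _ => h.cw.choose_spec⟩
      · exact ⟨[], fun h' => absurd h' h⟩
    choose w hw using this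
    exact ⟨w, hw⟩
  obtain ⟨S, hS⟩ : ∃ S : Set Tm, S = {T | ∃ s, Sup P s ∧ T = cst (D s)} ∪
      {T | ∃ y s z x, LRule P y s z ∧ CStar P y x ∧
        T = .pi (tele D (w y x) (cst (E x))) (cst (E s))} := ⟨_, rfl⟩
  have fS : S.Finite := by
    rw [hS]
    refine ((hfin.image fun s => cst (D s)).subset ?_).union
      (((hfin.prod (hfin.prod hfin)).image fun p =>
        Term.pi (tele D (w p.1 p.2.2) (cst (E p.2.2))) (cst (E p.2.1))).subset ?_)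
    · rintro _ ⟨s, hs, rfl⟩
      exact ⟨s, hs, rfl⟩
    · rintro _ ⟨y, s, z, x, hr, hx, rfl⟩
      exact ⟨(y, s, x), ⟨⟨_, _, _, hr, Or.inl rfl⟩, ⟨_, _, _, hr, Or.inr (Or.inl rfl)⟩,
        hx.sup ⟨_, _, _, hr, Or.inl rfl⟩⟩, rfl⟩
  have tS : ∀ T ∈ S, ∃ u, Ty P H₁ [] T (srt u) := by
    rw [hS]
    rintro _ (⟨s, hs, rfl⟩ | ⟨y, s, z, x, hr, hx, rfl⟩)
    · exact ⟨s, tD s [] hs⟩
    · exact ⟨z, Ty.prod (ty_tele tD (hw y x hx) (tE x [] (hx.sup ⟨_, _, _, hr, Or.inl rfl⟩)))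
        (tE s _ ⟨_, _, _, hr, Or.inr (Or.inl rfl)⟩) hr.1⟩
  have hwf : HWf P (H₁ ∪ c '' S) := by
    rintro n (hn | ⟨T, hT, rfl⟩)
    · refine ⟨Or.inl hn, Or.inr ?_⟩
      rw [hH₁] at hn
      rcases hn with ⟨s, hs, rfl⟩ | ⟨s, hs, rfl⟩
      exacts [⟨s, cD s, Sup.isLive hs hP⟩, ⟨s, cE s, Sup.isLive hs hP⟩]
    · obtain ⟨u, hu⟩ := tS T hT
      exact ⟨Or.inr ⟨T, hT, rfl⟩, Or.inl ⟨u, (hc1 T).symm ▸
        hu.mono fun n hn => ⟨Or.inl hn, hc2 T n hn⟩⟩⟩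
  have tc : ∀ T ∈ S, ∀ Γ, Ty P (H₁ ∪ c '' S) Γ (cst (c T)) T := fun T hT Γ => by
    have := (hwf _ (Or.inr ⟨T, hT, rfl⟩)).ty Γ
    rwa [hc1] at this
  have hcons : ∀ x, Ans P s₀ x → ¬ Tr P (H₁ ∪ c '' S) (cst (E x)) := by
    rintro x - ⟨M, hM⟩
    refine (hk_normal (P := P) hDE ?_ (nf M) (Γ := []) (by simp)
      (normal_nf (hP.ty_wn Wf.nil hM)) (hM.nfT Wf.nil)).1 [] x (conv_refl _)
    rintro n (hn | ⟨T, hT, rfl⟩)
    · rw [hH₁] at hn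
      rcases hn with ⟨s, hs, rfl⟩ | ⟨s, hs, rfl⟩
      exacts [Or.inl ⟨s, cD s⟩, Or.inl ⟨s, cE s⟩]
    · rw [hc1]
      rw [hS] at hT
      rcases hT with ⟨s, -, rfl⟩ | ⟨y, s, z, x, -, -, rfl⟩
      exacts [Or.inr (Or.inl ⟨s, rfl⟩), Or.inr (Or.inr ⟨_, x, s, rfl⟩)]
  obtain ⟨H, h1, h2, h3⟩ := hk_complete (P := P) (s₀ := s₀) (E := E)
    ⟨f1.union (fS.image c), hwf, hcons⟩ (fun H hH x x' hx hx' h =>
      hk_exfalso (D := D) (fun s Γ hs => (tD s Γ hs).mono (Set.subset_union_left.trans hH))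
        (fun s Γ hs => (tE s Γ hs).mono (Set.subset_union_left.trans hH))
        (fun y s z x hr hx => ⟨w y x, hw y x hx, _,
          (tc _ (hS ▸ Or.inr ⟨y, s, z, x, hr, hx, rfl⟩) []).mono hH⟩) hx hx' h)
  exact ⟨⟨H, D, E, fun s => c (cst (D s)),
    fun s Γ hs => (tD s Γ hs).mono (Set.subset_union_left.trans h1),
    fun s Γ hs => (tE s Γ hs).mono (Set.subset_union_left.trans h1),
    fun s Γ hs => (tc _ (hS ▸ Or.inl ⟨s, hs, rfl⟩) Γ).mono h1, h2, h3⟩⟩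

end Crest.Agent.R298
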