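import Crest.Agent.R298.ValDef

/-! Row 298. Interpretation of normal terms as functions on spines. -/

set_option autoImplicit false

namespace Crest.Agent.R298
open Crest.LogicCS.PTS Crest.LogicCS.PTS.Term

def tms (η : ℕ → Ent) : ℕ → Tm := fun i => (η i).tm

/-- The closed instance of `M` applied to the terms of a spine. -/
def full (M : Tm) (η : ℕ → Ent) (sp : List Ent) : Tm := apps (sub (tms η) M) (sp.map Ent.tm)

/-- The current kind and the polarity of the head of a spine headed by a variable. -/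
noncomputable def hdk (η : ℕ → Ent) : Tm → Option (Tm × Bool)
  | .var i => some ((η i).ki, (η i).pol)
  | .app M Q =>
    match hdk η M with
    | some (.pi _ K, π) => some (nf (inst (nf (sub (tms η) Q)) K), π)
    | _ => none
  | _ => none

def ValD.Adm (V : ValD) (N A : Tm) (e : Ent) : Prop :=
  e.tm = nf N ∧ e.ki = nf A ∧ e.pol = true ∧ V.Valid e

open Classical in
/-- The value of an entry at a spine (masked by validity). -/
noncomputable def ValD.hv (V : ValD) (P : Spec ℕ) (e : Ent) (sp : List Ent) : Set Tm :=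
  if V.Valid e ∧ V.VS (!e.pol) e.ki sp then V.ap e sp else SNT P (apps e.tm (sp.map Ent.tm))

noncomputable def ValD.I (V : ValD) (P : Spec ℕ) (s₀ : ℕ) : Tm → (ℕ → Ent) → List Ent → Set Tm
  | .var i, η, sp => V.hv P (η i) sp
  | .sort s, η, sp => SNT P (full (.sort s) η sp)
  | .app M Q, η, sp =>
    match hdk η M with
    | some (.pi A _, π) =>
      V.I P s₀ M η (V.mkE (nf (sub (tms η) Q)) A (!π) (V.I P s₀ Q η) :: sp)
    | _ => SNT P (full (.app M Q) η sp)
  | .lam A M, η, [] => SNT P (full (.lam A M) η [])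
  | .lam _ M, η, e :: sp => V.I P s₀ M (scons e η) sp
  | .pi A B, η, [] =>
    {F | F ∈ SNT P (sub (tms η) (.pi A B)) ∧
      ∀ N ∈ msk P s₀ (sub (tms η) A) (V.I P s₀ A η []), ∀ e, V.Adm N (sub (tms η) A) e →
        Term.app F N ∈ msk P s₀ (sub (tms (scons e η)) B) (V.I P s₀ B (scons e η) [])}
  | .pi A B, η, e :: sp => SNT P (full (.pi A B) η (e :: sp))

/-- The amount by which a term can raise ranks. -/
def wt : Tm → ℕ
  | .var _ => 0
  | .sort _ => 0
  | .app M Q => wt M + wt Q + 1
  | .lam _ M => wt M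
  | .pi A B => wt A + wt B

variable {P : Spec ℕ} {s₀ : ℕ} {V : ValD}

theorem tms_scons (e : Ent) (η : ℕ → Ent) : tms (scons e η) = scons e.tm (tms η) := by
  funext i; cases i <;> rfl

theorem interp_nrm_tame {A : Tm} (h : Tame P s₀ A) (π : Bool) : nrm P s₀ π A = true := by
  simp [nrm, h]

theorem interp_nrm_not_tame {A : Tm} (h : ¬ Tame P s₀ A) (π : Bool) : nrm P s₀ π A = π := by
  simp [nrm, h]

theorem interp_nrm_true (A : Tm) : nrm P s₀ true A = true := by
  simp [nrm]

theorem interp_hdk_cases (η : ℕ → Ent) (M : Tm) :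
    (∃ A K π, hdk η M = some (.pi A K, π)) ∨ ∀ A K π, hdk η M ≠ some (.pi A K, π) := by
  by_cases h : ∃ A K π, hdk η M = some (.pi A K, π)
  · exact Or.inl h
  · exact Or.inr fun A K π h' => h ⟨A, K, π, h'⟩

theorem interp_app_pi {M Q A K : Tm} {π : Bool} {η : ℕ → Ent} {sp : List Ent}
    (h : hdk η M = some (.pi A K, π)) : V.I P s₀ (.app M Q) η sp =
      V.I P s₀ M η (V.mkE (nf (sub (tms η) Q)) A (!π) (V.I P s₀ Q η) :: sp) := by
  rw [ValD.I, h]

theorem interp_app_other {M Q : Tm} {η : ℕ → Ent} {sp : List Ent}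
    (h : ∀ A K π, hdk η M ≠ some (.pi A K, π)) :
    V.I P s₀ (.app M Q) η sp = SNT P (full (.app M Q) η sp) := by
  rw [ValD.I]
  split
  · rename_i A K π h'
    exact absurd h' (h _ _ _)
  · rfl

theorem interp_pi_nil (A B : Tm) (η : ℕ → Ent) : V.I P s₀ (.pi A B) η [] =
    {F | F ∈ SNT P (sub (tms η) (.pi A B)) ∧
      ∀ N ∈ msk P s₀ (sub (tms η) A) (V.I P s₀ A η []), ∀ e, V.Adm N (sub (tms η) A) e →
        Term.app F N ∈ msk P s₀ (sub (tms (scons e η)) B) (V.I P s₀ B (scons e η) [])} := rfl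

theorem interp_full_app (hV : V.Ok P s₀) {M Q A : Tm} {π : Bool} {f : List Ent → Set Tm}
    {η : ℕ → Ent} {sp : List Ent} :
    Conv (full M η (V.mkE (nf (sub (tms η) Q)) A π f :: sp)) (full (.app M Q) η sp) := by
  simp only [full, List.map_cons, apps_cons, hV.mk_tm, sub_app]
  exact conv_apps_left (conv_app (conv_refl _) (conv_symm (conv_nf _))) _

theorem interp_hdk_head {η : ℕ → Ent} {M : Tm} {x : Tm × Bool} (h : hdk η M = some x) :
    ∃ i, head M = .var i := by
  induction M generalizing x with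
  | var i => exact ⟨i, rfl⟩
  | sort s => cases h
  | app M Q ihM _ =>
    cases hk : hdk η M with
    | none => simp [hdk, hk] at h
    | some y => exact ihM hk
  | lam => cases h
  | pi => cases h

theorem ValD.Ok.vs_comp (hV : V.Ok P s₀) {π : Bool} {K : Tm} {sp : List Ent} (h : V.VS π K sp) :
    Comp P s₀ K := by
  induction sp generalizing K with
  | nil =>
    obtain ⟨u, hu, rfl⟩ := (hV.vs_nil _ _).1 h
    exact Comp.fin u hu
  | cons e sp ih =>
    obtain ⟨A, K₁, rfl, -, hn, ht, -, -, h'⟩ := (hV.vs_cons _ _ _ _).1 h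
    exact Comp.step A K₁ e.tm hn ht (ih h')

theorem ValD.Ok.vs_tame (hV : V.Ok P s₀) {π π' : Bool} {K : Tm} {sp : List Ent}
    (hK : Tame P s₀ K) (h : V.VS π K sp) : V.VS π' K sp := by
  induction sp generalizing K with
  | nil => exact (hV.vs_nil _ _).2 ((hV.vs_nil _ _).1 h)
  | cons e sp ih =>
    have hc := hV.vs_comp h
    obtain ⟨A, K₁, rfl, hk, hn, ht, hp, hv, h'⟩ := (hV.vs_cons _ _ _ _).1 h
    have hA : Tame P s₀ A := hK.dom hc
    refine (hV.vs_cons _ _ _ _).2 ⟨A, K₁, rfl, hk, hn, ht, ?_, hv, ih (hK.cod hn ht) h'⟩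
    rw [hp, interp_nrm_tame hA, interp_nrm_tame hA]

theorem ValD.Ok.adm_ex (hV : V.Ok P s₀) (N A : Tm) : ∃ e, V.Adm N A e := by
  refine ⟨V.mkE (nf N) (nf A) true (fun sp => SNT P (apps (nf N) (sp.map Ent.tm))),
    hV.mk_tm _ _ _ _, hV.mk_ki _ _ _ _, ?_, hV.mk_valid _ _ _ _ fun sp _ => cand_snt _⟩
  rw [hV.mk_pol, interp_nrm_true]

theorem ValD.Ok.i_cand (hV : V.Ok P s₀) (M : Tm) (η : ℕ → Ent) (sp : List Ent) :
    Cand P (full M η sp) (V.I P s₀ M η sp) := by
  induction M generalizing η sp with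
  | var i =>
    show Cand P (apps (η i).tm (sp.map Ent.tm)) (V.hv P (η i) sp)
    unfold ValD.hv
    split_ifs with h
    · exact hV.ap_cand _ _ h.1 h.2
    · exact cand_snt _
  | sort s => exact cand_snt _
  | app M Q ihM _ =>
    rcases interp_hdk_cases η M with ⟨A, K, π, h⟩ | h
    · rw [interp_app_pi h]
      exact (ihM _ _).conv (interp_full_app hV)
    · rw [interp_app_other h]
      exact cand_snt _
  | lam A M _ ihM =>
    cases sp with
    | nil => exact cand_snt _
    | cons e sp =>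
      refine (ihM (scons e η) sp).conv (conv_symm ?_)
      have := conv_apps_left (conv_beta (sub (tms η) A) (sub (up (tms η)) M) e.tm)
        (sp.map Ent.tm)
      rw [inst_sub_up, ← tms_scons] at this
      exact this
  | pi A B ihA ihB =>
    cases sp with
    | nil =>
      refine cand_pi (A := sub (tms η) A) (B := sub (up (tms η)) B)
        (X := msk P s₀ (sub (tms η) A) (V.I P s₀ A η [])) (ihA η []).masked.le
        (fun N e => V.Adm N (sub (tms η) A) e)
        (fun _ e => msk P s₀ (sub (tms (scons e η)) B) (V.I P s₀ B (scons e η) [])) ?_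
      intro N _ e he
      refine (ihB (scons e η) []).masked.conv ?_
      rw [inst_sub_up]
      show Conv (sub (tms (scons e η)) B) _
      rw [tms_scons, he.1]
      exact conv_sub (conv_scons (conv_symm (conv_nf N)) fun i => conv_refl _) (conv_refl B)
    | cons e sp => exact cand_snt _

theorem hdk_ren (ξ : ℕ → ℕ) (η : ℕ → Ent) (M : Tm) :
    hdk η (ren ξ M) = hdk (fun i => η (ξ i)) M := by
  induction M with
  | var i => rfl
  | sort s => rfl
  | app M Q ihM _ =>
    simp only [ren_app, hdk, ihM, sub_ren]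
    rfl
  | lam => rfl
  | pi => rfl

theorem ValD.i_ren (V : ValD) (ξ : ℕ → ℕ) (M : Tm) (η : ℕ → Ent) :
    V.I P s₀ (ren ξ M) η = V.I P s₀ M (fun i => η (ξ i)) := by
  have hs : ∀ (ξ : ℕ → ℕ) (η : ℕ → Ent) (e : Ent),
      (fun i => scons e η (upr ξ i)) = scons e (fun i => η (ξ i)) := by
    intro ξ η e; funext i; cases i <;> rfl
  have ht : ∀ (ξ : ℕ → ℕ) (η : ℕ → Ent) (M : Tm),
      sub (tms η) (ren ξ M) = sub (tms fun i => η (ξ i)) M := fun ξ η M => sub_ren _ _ _
  have hf : ∀ (ξ : ℕ → ℕ) (η : ℕ → Ent) (M : Tm) (sp : List Ent),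
      full (ren ξ M) η sp = full M (fun i => η (ξ i)) sp := by
    intro ξ η M sp; simp only [full, ht]
  induction M generalizing ξ η with
  | var i => rfl
  | sort s => rfl
  | app M Q ihM ihQ =>
    funext sp
    rcases interp_hdk_cases (fun i => η (ξ i)) M with ⟨A, K, π, h⟩ | h
    · rw [interp_app_pi h, ren_app, interp_app_pi ((hdk_ren ξ η M).trans h), ihM, ihQ, ht]
    · rw [interp_app_other h, ren_app, interp_app_other (by rw [hdk_ren]; exact h), ← ren_app, hf]
  | lam A M _ ihM =>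
    funext sp
    cases sp with
    | nil => exact congrArg (SNT P) (hf ξ η (.lam A M) [])
    | cons e sp =>
      show V.I P s₀ (ren (upr ξ) M) (scons e η) sp = V.I P s₀ M _ sp
      rw [ihM, hs]
  | pi A B ihA ihB =>
    funext sp
    cases sp with
    | nil =>
      rw [ren_pi, interp_pi_nil, interp_pi_nil, ← ren_pi, ht, ht, ihA]
      simp only [ht, ihB, hs]
    | cons e sp => exact congrArg (SNT P) (hf ξ η (.pi A B) (e :: sp))

theorem interp_code_valid (hV : V.Ok P s₀) (Q A : Tm) (π : Bool) (η : ℕ → Ent) :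
    V.Valid (V.mkE (nf (sub (tms η) Q)) A π (V.I P s₀ Q η)) :=
  hV.mk_valid _ _ _ _ fun sp _ => (hV.i_cand Q η sp).conv (conv_apps_left (conv_nf _) _)

theorem interp_sim_refl_list (n : ℕ) (sp : List Ent) : List.Forall₂ (V.Sim P s₀ n) sp sp :=
  List.forall₂_same.2 fun _ _ => Or.inl rfl

theorem interp_sim_anti (hV : V.Ok P s₀) {n n' : ℕ} (h : n' ≤ n) {e e' : Ent}
    (hs : V.Sim P s₀ n e e') : V.Sim P s₀ n' e e' := by
  rcases hs with hs | ⟨h1, h2, h3, h4, h5, h6, h7, h8⟩
  · exact Or.inl hs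
  · exact Or.inr ⟨h1, h2, h3, h4, h5, h6, h7,
      fun sp hsp hr => h8 sp hsp fun x hx => hV.rk_mono _ _ _ h (hr x hx)⟩

theorem interp_sim_inv {n : ℕ} {e e' : Ent} (hs : V.Sim P s₀ n e e') :
    e.tm = e'.tm ∧ e.ki = e'.ki ∧ e.pol = e'.pol ∧ (V.Valid e ↔ V.Valid e') := by
  rcases hs with rfl | ⟨h1, h2, h3, h4, -, h6, h7, -⟩
  · exact ⟨rfl, rfl, rfl, Iff.rfl⟩
  · exact ⟨h1, h2, h3.trans h4.symm, iff_of_true h6 h7⟩

theorem interp_tms_sim {n : ℕ} {η η' : ℕ → Ent} (h : ∀ i, V.Sim P s₀ n (η i) (η' i)) :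
    tms η = tms η' := funext fun i => (interp_sim_inv (h i)).1

theorem interp_map_sim {n : ℕ} {sp sp' : List Ent} (h : List.Forall₂ (V.Sim P s₀ n) sp sp') :
    sp.map Ent.tm = sp'.map Ent.tm := by
  induction h with
  | nil => rfl
  | cons he _ ih => rw [List.map_cons, List.map_cons, ih, (interp_sim_inv he).1]

theorem interp_full_sim {n : ℕ} (M : Tm) {η η' : ℕ → Ent} {sp sp' : List Ent}
    (h : ∀ i, V.Sim P s₀ n (η i) (η' i)) (h' : List.Forall₂ (V.Sim P s₀ n) sp sp') :
    full M η sp = full M η' sp' := by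
  rw [full, full, interp_tms_sim h, interp_map_sim h']

theorem interp_hdk_sim {n : ℕ} {η η' : ℕ → Ent} (h : ∀ i, V.Sim P s₀ n (η i) (η' i)) (M : Tm) :
    hdk η M = hdk η' M := by
  induction M with
  | var i => rw [hdk, hdk, (interp_sim_inv (h i)).2.1, (interp_sim_inv (h i)).2.2.1]
  | sort s => rfl
  | app M Q ihM _ => rw [hdk, hdk, ihM, interp_tms_sim h]
  | lam => rfl
  | pi => rfl

theorem interp_vs_sim (hV : V.Ok P s₀) {n : ℕ} {π : Bool} {sp sp' : List Ent}
    (h : List.Forall₂ (V.Sim P s₀ n) sp sp') (K : Tm) : V.VS π K sp ↔ V.VS π K sp' := by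
  induction h generalizing K with
  | nil => exact Iff.rfl
  | cons he _ ih =>
    obtain ⟨h1, h2, h3, h4⟩ := interp_sim_inv he
    simp only [hV.vs_cons, ih, h1, h2, h3, h4]

theorem interp_vs_false (hV : V.Ok P s₀) {n : ℕ} {sp sp' : List Ent}
    (h : List.Forall₂ (V.Sim P s₀ n) sp sp') {K : Tm} (hs : V.VS false K sp) : sp = sp' := by
  induction h generalizing K with
  | nil => rfl
  | cons he _ ih =>
    obtain ⟨A, K₁, -, hk, -, -, hp, -, h'⟩ := (hV.vs_cons _ _ _ _).1 hs
    rw [ih h']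
    rcases he with rfl | ⟨-, -, h3, -, h5, -⟩
    · rfl
    · rw [hk] at h5
      rw [interp_nrm_not_tame h5, h3] at hp
      cases hp

theorem interp_vs_true (hV : V.Ok P s₀) {sp : List Ent} {K : Tm} (hs : V.VS true K sp) :
    ∀ x ∈ sp, x.pol = true := by
  induction sp generalizing K with
  | nil => intro x hx; cases hx
  | cons e sp ih =>
    obtain ⟨A, K₁, -, -, -, -, hp, -, h'⟩ := (hV.vs_cons _ _ _ _).1 hs
    intro x hx
    rcases List.mem_cons.1 hx with rfl | hx
    · rw [hp, interp_nrm_true]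
    · exact ih h' x hx

theorem interp_hv_sim (hV : V.Ok P s₀) {n r : ℕ} {e e' : Ent} {sp sp' : List Ent}
    (he : V.Sim P s₀ n e e') (hsp : List.Forall₂ (V.Sim P s₀ n) sp sp') (hr : V.Rk r e)
    (hrs : ∀ x ∈ sp, V.Rk r x) (hn : r ≤ n) : V.hv P e sp = V.hv P e' sp' := by
  obtain ⟨h1, h2, h3, h4⟩ := interp_sim_inv he
  have hiff : (V.Valid e ∧ V.VS (!e.pol) e.ki sp) ↔ (V.Valid e' ∧ V.VS (!e'.pol) e'.ki sp') := by
    rw [← h2, ← h3, h4, interp_vs_sim hV hsp]
  unfold ValD.hv
  by_cases hc : V.Valid e ∧ V.VS (!e.pol) e.ki sp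
  · rw [if_pos hc, if_pos (hiff.1 hc)]
    obtain ⟨hv, hs⟩ := hc
    cases hp : e.pol with
    | true =>
      rw [hp] at hs
      obtain rfl := interp_vs_false hV hsp hs
      rcases he with rfl | ⟨-, -, -, -, -, -, -, h8⟩
      · rfl
      · exact h8 sp hs fun x hx => hV.rk_mono _ _ _ hn (hrs x hx)
    | false =>
      rw [hp] at hs
      rcases he with rfl | ⟨-, -, h3', -⟩
      · exact hV.ap_loc r e hv hp hr sp sp' hs ((interp_vs_sim hV hsp _).1 hs)
          (hsp.imp fun _ _ h => interp_sim_anti hV hn h)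
      · rw [hp] at h3'; cases h3'
  · rw [if_neg hc, if_neg fun h => hc (hiff.2 h), h1, interp_map_sim hsp]

/-- Locality: the interpretation only inspects positive values up to a bounded rank. -/
theorem ValD.Ok.i_sim (hV : V.Ok P s₀) (M : Tm) : ∀ (n r : ℕ) (η η' : ℕ → Ent)
    (sp sp' : List Ent), (∀ i, V.Sim P s₀ n (η i) (η' i)) → List.Forall₂ (V.Sim P s₀ n) sp sp' →
    (∀ i, V.Rk r (η i)) → (∀ x ∈ sp, V.Rk r x) → r + wt M ≤ n →
    V.I P s₀ M η sp = V.I P s₀ M η' sp' := by
  induction M with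
  | var i =>
    intro n r η η' sp sp' hη hsp hr hrs hn
    exact interp_hv_sim hV (hη i) hsp (hr i) hrs hn
  | sort s =>
    intro n r η η' sp sp' hη hsp _ _ _
    exact congrArg (SNT P) (interp_full_sim _ hη hsp)
  | app M Q ihM ihQ =>
    intro n r η η' sp sp' hη hsp hr hrs hn
    have hn' : r + (wt M + wt Q + 1) ≤ n := hn
    have hk := interp_hdk_sim hη M
    rcases interp_hdk_cases η M with ⟨A, K, π, h⟩ | h
    · rw [interp_app_pi h, interp_app_pi (hk.symm.trans h), ← interp_tms_sim hη]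
      by_cases hc : Tame P s₀ A ∨ π = true
      · have hpos : ∀ sp₀, V.VS (!!π) A sp₀ → V.VS true A sp₀ := by
          intro sp₀ h₀
          rcases hc with hc | hc
          · exact hV.vs_tame hc h₀
          · subst hc; exact h₀
        have hx : V.mkE (nf (sub (tms η) Q)) A (!π) (V.I P s₀ Q η) =
            V.mkE (nf (sub (tms η) Q)) A (!π) (V.I P s₀ Q η') := by
          refine hV.mk_ext _ _ _ _ _ _ rfl fun sp₀ h₀ => ?_
          exact ihQ n r η η' sp₀ sp₀ hη (interp_sim_refl_list n sp₀) hr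
            (fun x hx => hV.rk_pos _ _ (interp_vs_true hV (hpos sp₀ h₀) x hx)) (by omega)
        have hrk : V.Rk (r + wt Q + 1) (V.mkE (nf (sub (tms η) Q)) A (!π) (V.I P s₀ Q η)) := by
          refine hV.rk_mk _ _ _ _ _ fun sp₁ sp₂ h₁ _ h₃ => ?_
          exact ihQ (r + wt Q) r η η sp₁ sp₂ (fun i => Or.inl rfl) h₃ hr
            (fun x hx => hV.rk_pos _ _ (interp_vs_true hV h₁ x hx)) le_rfl
        rw [← hx]
        refine ihM n (r + wt Q + 1) η η' _ _ hη (List.Forall₂.cons (Or.inl rfl) hsp)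
          (fun i => hV.rk_mono _ _ _ (by omega) (hr i)) ?_ (by omega)
        intro x hx
        rcases List.mem_cons.1 hx with rfl | hx
        · exact hrk
        · exact hV.rk_mono _ _ _ (by omega) (hrs x hx)
      · have hA : ¬ Tame P s₀ A := fun h => hc (Or.inl h)
        have hπ : π = false := by
          cases π
          · rfl
          · exact absurd (Or.inr rfl) hc
        subst hπ
        have hx : V.Sim P s₀ (n - wt Q) (V.mkE (nf (sub (tms η) Q)) A true (V.I P s₀ Q η))
            (V.mkE (nf (sub (tms η) Q)) A true (V.I P s₀ Q η')) := by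
          refine Or.inr ⟨by rw [hV.mk_tm, hV.mk_tm], by rw [hV.mk_ki, hV.mk_ki],
            by rw [hV.mk_pol, interp_nrm_true], by rw [hV.mk_pol, interp_nrm_true],
            by rw [hV.mk_ki]; exact hA, interp_code_valid hV Q A true η, ?_, ?_⟩
          · rw [interp_tms_sim hη]; exact interp_code_valid hV Q A true η'
          · intro sp₀ h₀ hr₀
            rw [hV.mk_ki] at h₀
            rw [hV.ap_mk _ A true _ sp₀ (by rw [interp_nrm_true]; intro h; cases h) h₀,
              hV.ap_mk _ A true _ sp₀ (by rw [interp_nrm_true]; intro h; cases h) h₀]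
            exact ihQ n (n - wt Q) η η' sp₀ sp₀ hη (interp_sim_refl_list n sp₀)
              (fun i => hV.rk_mono _ _ _ (by omega) (hr i)) hr₀ (by omega)
        refine ihM (n - wt Q) r η η' _ _ (fun i => interp_sim_anti hV (by omega) (hη i))
          (List.Forall₂.cons hx (hsp.imp fun _ _ h => interp_sim_anti hV (by omega) h)) hr ?_
          (by omega)
        intro x hx
        rcases List.mem_cons.1 hx with rfl | hx
        · exact hV.rk_pos _ _ (by rw [hV.mk_pol]; exact interp_nrm_true _)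
        · exact hrs x hx
    · rw [interp_app_other h, interp_app_other (by rw [← hk]; exact h), interp_full_sim _ hη hsp]
  | lam A M _ ihM =>
    intro n r η η' sp sp' hη hsp hr hrs hn
    cases hsp with
    | nil => exact congrArg (SNT P) (interp_full_sim _ hη List.Forall₂.nil)
    | @cons e e' sp sp' he hsp =>
      refine ihM n r (scons e η) (scons e' η') sp sp' ?_ hsp ?_
        (fun x hx => hrs x (List.mem_cons_of_mem _ hx)) hn
      · intro i
        cases i with
        | zero => exact he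
        | succ i => exact hη i
      · intro i
        cases i with
        | zero => exact hrs e List.mem_cons_self
        | succ i => exact hr i
  | pi A B ihA ihB =>
    intro n r η η' sp sp' hη hsp hr hrs hn
    have hn' : r + (wt A + wt B) ≤ n := hn
    cases hsp with
    | nil =>
      have hA := ihA n r η η' [] [] hη List.Forall₂.nil hr hrs (by omega)
      have hB : ∀ e : Ent, e.pol = true →
          V.I P s₀ B (scons e η) [] = V.I P s₀ B (scons e η') [] := by
        intro e he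
        refine ihB n r _ _ [] [] ?_ List.Forall₂.nil ?_ hrs (by omega)
        · intro i
          cases i with
          | zero => exact Or.inl rfl
          | succ i => exact hη i
        · intro i
          cases i with
          | zero => exact hV.rk_pos _ _ he
          | succ i => exact hr i
      rw [interp_pi_nil, interp_pi_nil, hA]
      simp only [tms_scons, ← interp_tms_sim hη]
      ext F
      refine and_congr_right fun _ => forall₂_congr fun N _ => forall₂_congr fun e he => ?_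
      rw [hB e he.2.2.1]
    | cons he hsp =>
      exact congrArg (SNT P) (interp_full_sim _ hη (List.Forall₂.cons he hsp))

theorem ValD.Ok.i_loc (hV : V.Ok P s₀) (M A : Tm) {r : ℕ} {η : ℕ → Ent}
    (h : ∀ i, V.Rk r (η i)) : V.Loc P s₀ (r + wt M) A (V.I P s₀ M η) := by
  intro sp sp' h₁ _ h₃
  exact hV.i_sim M (r + wt M) r η η sp sp' (fun i => Or.inl rfl) h₃ h
    (fun x hx => hV.rk_pos _ _ (interp_vs_true hV h₁ x hx)) le_rfl

theorem ValD.Ok.code_valid (hV : V.Ok P s₀) (Q A : Tm) (π : Bool) (η : ℕ → Ent) :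
    V.Valid (V.mkE (nf (sub (tms η) Q)) A π (V.I P s₀ Q η)) := by
  exact interp_code_valid hV Q A π η

/-- Applying the code of a term gives back its interpretation. -/
theorem ValD.Ok.hv_code (hV : V.Ok P s₀) (Q A : Tm) (π : Bool) {r : ℕ} {η : ℕ → Ent}
    (h : ∀ i, V.Rk r (η i)) {sp : List Ent} (hsp : V.VS (!π) A sp) :
    V.hv P (V.mkE (nf (sub (tms η) Q)) A π (V.I P s₀ Q η)) sp = V.I P s₀ Q η sp := by
  have hvs : V.VS (!nrm P s₀ π A) A sp := by
    by_cases hA : Tame P s₀ A
    · exact hV.vs_tame hA hsp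
    · rw [interp_nrm_not_tame hA]; exact hsp
  unfold ValD.hv
  rw [if_pos ⟨hV.code_valid Q A π η, by rw [hV.mk_pol, hV.mk_ki]; exact hvs⟩]
  exact hV.ap_mk _ _ _ _ _ (fun _ => ⟨_, hV.i_loc Q A h⟩) hsp

/-- A spine whose head has no valid value is interpreted by `SNT`. -/
theorem ValD.Ok.i_invalid (hV : V.Ok P s₀) {M : Tm} {η : ℕ → Ent}
    (h : (∃ i, head M = .var i ∧ ¬ V.Valid (η i)) ∨ (∃ s, head M = .sort s) ∨
      ((∃ A B, head M = .pi A B) ∧ ∃ M₁ M₂, M = .app M₁ M₂)) (sp : List Ent) :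
    V.I P s₀ M η sp = SNT P (full M η sp) := by
  induction M generalizing sp with
  | var i =>
    rcases h with ⟨j, h, hj⟩ | ⟨s, h⟩ | ⟨⟨A, B, h⟩, -⟩
    · cases h
      show V.hv P (η i) sp = _
      unfold ValD.hv
      rw [if_neg fun h => hj h.1]
      rfl
    · cases h
    · cases h
  | sort s => rfl
  | app M Q ihM _ =>
    rcases interp_hdk_cases η M with ⟨A, K, π, hk⟩ | hk
    · obtain ⟨i, hi⟩ := interp_hdk_head hk
      have hh : head (.app M Q) = .var i := hi
      rcases h with h | ⟨s, h⟩ | ⟨⟨A, B, h⟩, -⟩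
      · rw [interp_app_pi hk, ihM (Or.inl h)]
        exact snt_conv (interp_full_app hV)
      · rw [hh] at h; cases h
      · rw [hh] at h; cases h
    · exact interp_app_other hk
  | lam A M =>
    rcases h with ⟨j, h, -⟩ | ⟨s, h⟩ | ⟨⟨A, B, h⟩, -⟩ <;> cases h
  | pi A B =>
    rcases h with ⟨j, h, -⟩ | ⟨s, h⟩ | ⟨-, ⟨M₁, M₂, h⟩⟩ <;> cases h

end Crest.Agent.R298
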