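import Crest.Agent.R298.Henkin

/-! Row 298. Classical connectives and quantifiers inside an odd binary component. -/

set_option autoImplicit false

namespace Crest.Agent.R298
open Crest.LogicCS.PTS Crest.LogicCS.PTS.Term

structure Lg (P : Spec ℕ) (s₀ : ℕ) extends Hk P s₀ where
  o : ℕ
  fup : ℕ → Tm → Tm
  fdn : ℕ → Tm → Tm
  ng : Tm → Tm
  imp : Tm → Tm → Tm
  all : ℕ → Tm → Tm → Tm
  ty_fup : ∀ {u Γ ψ}, InS P s₀ u → Ty P H Γ ψ (srt u) → Ty P H Γ (fup u ψ) (srt o)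
  ty_fdn : ∀ {u Γ ψ}, InS P s₀ u → Ty P H Γ ψ (srt o) → Ty P H Γ (fdn u ψ) (srt u)
  ty_ng : ∀ {Γ ψ}, Ty P H Γ ψ (srt o) → Ty P H Γ (ng ψ) (srt o)
  ty_imp : ∀ {Γ φ ψ}, Ty P H Γ φ (srt o) → Ty P H Γ ψ (srt o) → Ty P H Γ (imp φ ψ) (srt o)
  ty_all : ∀ {q Γ K ψ}, QS P s₀ q → Ty P H Γ K (srt q) → Ty P H (K :: Γ) ψ (srt o) →
    Ty P H Γ (all q K ψ) (srt o)
  sub_fup : ∀ θ u ψ, sub θ (fup u ψ) = fup u (sub θ ψ)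
  sub_fdn : ∀ θ u ψ, sub θ (fdn u ψ) = fdn u (sub θ ψ)
  sub_ng : ∀ θ ψ, sub θ (ng ψ) = ng (sub θ ψ)
  sub_imp : ∀ θ φ ψ, sub θ (imp φ ψ) = imp (sub θ φ) (sub θ ψ)
  sub_all : ∀ θ q K ψ, sub θ (all q K ψ) = all q (sub θ K) (sub (up θ) ψ)
  tr_fup : ∀ {u ψ}, InS P s₀ u → Ty P H [] ψ (srt u) → (Tr P H (fup u ψ) ↔ Tr P H ψ)
  tr_fdn : ∀ {u ψ}, InS P s₀ u → Ty P H [] ψ (srt o) → (Tr P H (fdn u ψ) ↔ Tr P H ψ)
  tr_ng : ∀ {ψ}, Ty P H [] ψ (srt o) → (Tr P H (ng ψ) ↔ ¬ Tr P H ψ)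
  tr_imp : ∀ {φ ψ}, Ty P H [] φ (srt o) → Ty P H [] ψ (srt o) →
    (Tr P H (imp φ ψ) ↔ (Tr P H φ → Tr P H ψ))
  tr_all : ∀ {q K ψ}, QS P s₀ q → Ty P H [] K (srt q) → Ty P H [K] ψ (srt o) →
    (Tr P H (all q K ψ) ↔ ∀ α, Ty P H [] α K → Tr P H (inst α ψ))

/-- A codomain step (`false`) or a domain step (`true`). -/
def logicStep (D E : ℕ → ℕ) : Bool × ℕ → Tm → Tm
  | (false, r), ψ => .pi (cst (D r)) (wk ψ)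
  | (true, r), ψ => .pi ψ (cst (E r))

/-- Wrapping along a list of steps. -/
def logicWrap (D E : ℕ → ℕ) : List (Bool × ℕ) → Tm → Tm
  | [], ψ => ψ
  | s :: l, ψ => logicStep D E s (logicWrap D E l ψ)

theorem logic_sub_wrap (D E : ℕ → ℕ) (θ : ℕ → Tm) (l : List (Bool × ℕ)) (ψ : Tm) :
    sub θ (logicWrap D E l ψ) = logicWrap D E l (sub θ ψ) := by
  induction l with
  | nil => rfl
  | cons s l ih =>
    obtain ⟨b, r⟩ := s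
    cases b <;> simp [logicWrap, logicStep, ih]

theorem logic_ends_sub {P : Spec ℕ} {s₀ : ℕ} {E : ℕ → ℕ} {ψ : Tm} (h : EndsE P s₀ E ψ)
    (θ : ℕ → Tm) : EndsE P s₀ E (sub θ ψ) := by
  induction h generalizing θ with
  | base x hx => exact EndsE.base x hx
  | pi A B _ ih => exact EndsE.pi _ _ (ih _)

theorem logic_ends_wk {P : Spec ℕ} {s₀ : ℕ} {E : ℕ → ℕ} {ψ : Tm} (h : EndsE P s₀ E ψ) :
    EndsE P s₀ E (wk ψ) := by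
  rw [wk_eq_sub]
  exact logic_ends_sub h _

/-- Truth of a product whose codomain ends in an answer type. -/
theorem logic_tr_pi {P : Spec ℕ} {s₀ : ℕ} (k : Hk P s₀) {K ψ : Tm} {u : ℕ}
    (he : EndsE P s₀ k.E ψ) (ht : Ty P k.H [] (.pi K ψ) (srt u)) :
    Tr P k.H (.pi K ψ) ↔ ∀ α, Ty P k.H [] α K → Tr P k.H (inst α ψ) :=
  ⟨fun ⟨_, hM⟩ _ hα => ⟨_, Ty.app hM hα⟩, k.wit K ψ u he ht⟩

theorem logic_walk {P : Spec ℕ} {s₀ : ℕ} (k : Hk P s₀) {y x : ℕ} {p : Bool} (h : Walk P y x p)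
    (hy : InS P s₀ y) (hx : InS P s₀ x) : ∃ l : List (Bool × ℕ),
      (∀ Γ ψ, Ty P k.H Γ ψ (srt x) → Ty P k.H Γ (logicWrap k.D k.E l ψ) (srt y)) ∧
      (∀ ψ, Ty P k.H [] ψ (srt x) →
        (Tr P k.H (logicWrap k.D k.E l ψ) ↔ (Tr P k.H ψ ↔ p = false))) ∧
      (p = true → ∀ ψ, EndsE P s₀ k.E (logicWrap k.D k.E l ψ)) := by
  induction h with
  | refl s => exact ⟨[], fun _ _ h => h, fun ψ _ => by simp [logicWrap], fun h => by cases h⟩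
  | @cod a b c x p hr hw ih =>
    obtain ⟨l, h1, h2, h3⟩ := ih (hy.between hx hr.reach_cod ⟨_, hw⟩) hx
    have hs : Sup P a := ⟨_, _, _, hr, Or.inl rfl⟩
    refine ⟨(false, a) :: l, fun Γ ψ hψ => Ty.prod (k.tyD _ _ hs) ((h1 Γ ψ hψ).wkT _) hr.1,
      fun ψ hψ => Iff.trans ⟨?_, ?_⟩ (h2 ψ hψ), fun hp ψ => EndsE.pi _ _ (logic_ends_wk (h3 hp ψ))⟩
    · rintro ⟨M, hM⟩
      have := Ty.app hM (k.tyd _ _ hs)
      rw [inst_wk] at this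
      exact ⟨_, this⟩
    · rintro ⟨M, hM⟩
      exact ⟨_, Ty.abs (k.tyD _ _ hs) ((h1 [] ψ hψ).wkT _) hr.1 (hM.wkT _)⟩
  | @dom a b c x p hr hw ih =>
    have ha : InS P s₀ a := hy.between hx hr.reach_dom ⟨_, hw⟩
    obtain ⟨l, h1, h2, -⟩ := ih ha hx
    have hs : Sup P b := ⟨_, _, _, hr, Or.inr (Or.inl rfl)⟩
    have hA : Ans P s₀ b := ⟨a, c, hr, ha, hy⟩
    have ht : ∀ Γ ψ, Ty P k.H Γ ψ (srt x) →
        Ty P k.H Γ (.pi (logicWrap k.D k.E l ψ) (cst (k.E b))) (srt c) :=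
      fun Γ ψ hψ => Ty.prod (h1 Γ ψ hψ) (k.tyE _ _ hs) hr.1
    refine ⟨(true, b) :: l, ht, fun ψ hψ => ?_, fun _ ψ => EndsE.pi _ _ (EndsE.base b hA)⟩
    have h4 : Tr P k.H (.pi (logicWrap k.D k.E l ψ) (cst (k.E b))) ↔
        ¬ Tr P k.H (logicWrap k.D k.E l ψ) := by
      rw [logic_tr_pi k (EndsE.base b hA) (ht [] ψ hψ)]
      exact ⟨fun h ⟨M, hM⟩ => k.cons b hA (h M hM), fun h α hα => (h ⟨α, hα⟩).elim⟩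
    refine h4.trans ?_
    rw [h2 ψ hψ]
    cases p <;> simp

theorem logic_neg {P : Spec ℕ} {s₀ : ℕ} (k : Hk P s₀) (ho : OddS P s₀) :
    ∃ N : ℕ → ℕ → Tm → Tm, (∀ θ x y ψ, sub θ (N x y ψ) = N x y (sub θ ψ)) ∧
      ∀ x y, InS P s₀ x → InS P s₀ y →
        (∀ Γ ψ, Ty P k.H Γ ψ (srt x) → Ty P k.H Γ (N x y ψ) (srt y)) ∧
        (∀ ψ, Ty P k.H [] ψ (srt x) → (Tr P k.H (N x y ψ) ↔ ¬ Tr P k.H ψ)) ∧
        ∀ ψ, EndsE P s₀ k.E (N x y ψ) := by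
  have : ∀ x y, ∃ l : List (Bool × ℕ), InS P s₀ x → InS P s₀ y →
      (∀ Γ ψ, Ty P k.H Γ ψ (srt x) → Ty P k.H Γ (logicWrap k.D k.E l ψ) (srt y)) ∧
      (∀ ψ, Ty P k.H [] ψ (srt x) → (Tr P k.H (logicWrap k.D k.E l ψ) ↔ ¬ Tr P k.H ψ)) ∧
      ∀ ψ, EndsE P s₀ k.E (logicWrap k.D k.E l ψ) := by
    intro x y
    by_cases h : InS P s₀ x ∧ InS P s₀ y
    · obtain ⟨l, h1, h2, h3⟩ := logic_walk k (ho.walk h.1 h.2) h.2 h.1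
      exact ⟨l, fun _ _ => ⟨h1, fun ψ hψ => by simpa using h2 ψ hψ, h3 rfl⟩⟩
    · exact ⟨[], fun hx hy => (h ⟨hx, hy⟩).elim⟩
  choose l hl using this
  exact ⟨fun x y => logicWrap k.D k.E (l x y), fun θ x y ψ => logic_sub_wrap _ _ θ _ ψ, hl⟩

theorem Hk.exists_lg {P : Spec ℕ} {s₀ : ℕ} (k : Hk P s₀) (ho : OddS P s₀) (hb : BinS P s₀) :
    Nonempty (Lg P s₀) := by
  obtain ⟨N, sN, hN⟩ := logic_neg k ho
  obtain ⟨b₁, b₂, b₃, hbr, hb₁, hb₂, hb₃⟩ := hb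
  have hq : ∀ q, ∃ b c, QS P s₀ q → LRule P q b c ∧ InS P s₀ b ∧ InS P s₀ c := by
    intro q
    by_cases h : QS P s₀ q
    · obtain ⟨b, c, h⟩ := h
      exact ⟨b, c, fun _ => h⟩
    · exact ⟨0, 0, fun h' => (h h').elim⟩
  choose c₂ c₃ hc using hq
  have h0 : InS P s₀ s₀ := InS.refl
  obtain ⟨Q, sQ, tyQ, trQ, eQ⟩ : ∃ Q : ℕ → ℕ → Tm → Tm,
      (∀ θ x y ψ, sub θ (Q x y ψ) = Q x y (sub θ ψ)) ∧
      (∀ {x y Γ ψ}, InS P s₀ x → InS P s₀ y → Ty P k.H Γ ψ (srt x) →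
        Ty P k.H Γ (Q x y ψ) (srt y)) ∧
      (∀ {x y ψ}, InS P s₀ x → InS P s₀ y → Ty P k.H [] ψ (srt x) →
        (Tr P k.H (Q x y ψ) ↔ Tr P k.H ψ)) ∧
      ∀ {x y}, InS P s₀ x → InS P s₀ y → ∀ ψ, EndsE P s₀ k.E (Q x y ψ) :=
    ⟨fun x y ψ => N x y (N x x ψ), fun θ x y ψ => by rw [sN, sN],
      fun hx hy h => (hN _ _ hx hy).1 _ _ ((hN _ _ hx hx).1 _ _ h),
      fun hx hy h => by
        rw [(hN _ _ hx hy).2.1 _ ((hN _ _ hx hx).1 _ _ h), (hN _ _ hx hx).2.1 _ h, not_not],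
      fun hx hy ψ => (hN _ _ hx hy).2.2 _⟩
  have tyI : ∀ {Γ φ ψ}, Ty P k.H Γ φ (srt s₀) → Ty P k.H Γ ψ (srt s₀) →
      Ty P k.H Γ (.pi (Q s₀ b₁ φ) (wk (Q s₀ b₂ ψ))) (srt b₃) :=
    fun hφ hψ => Ty.prod (tyQ h0 hb₁ hφ) ((tyQ h0 hb₂ hψ).wkT _) hbr.1
  have tyA : ∀ {q Γ K ψ}, QS P s₀ q → Ty P k.H Γ K (srt q) → Ty P k.H (K :: Γ) ψ (srt s₀) →
      Ty P k.H Γ (.pi K (Q s₀ (c₂ q) ψ)) (srt (c₃ q)) :=
    fun h hK hψ => Ty.prod hK (tyQ h0 (hc _ h).2.1 hψ) (hc _ h).1.1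
  exact ⟨{
    toHk := k
    o := s₀
    fup := fun u => Q u s₀
    fdn := fun u => Q s₀ u
    ng := N s₀ s₀
    imp := fun φ ψ => Q b₃ s₀ (.pi (Q s₀ b₁ φ) (wk (Q s₀ b₂ ψ)))
    all := fun q K ψ => Q (c₃ q) s₀ (.pi K (Q s₀ (c₂ q) ψ))
    ty_fup := fun hu h => tyQ hu h0 h
    ty_fdn := fun hu h => tyQ h0 hu h
    ty_ng := fun h => (hN _ _ h0 h0).1 _ _ h
    ty_imp := fun hφ hψ => tyQ hb₃ h0 (tyI hφ hψ)
    ty_all := fun h hK hψ => tyQ (hc _ h).2.2 h0 (tyA h hK hψ)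
    sub_fup := fun θ u ψ => sQ θ _ _ ψ
    sub_fdn := fun θ u ψ => sQ θ _ _ ψ
    sub_ng := fun θ ψ => sN θ _ _ ψ
    sub_imp := fun θ φ ψ => by simp only [sQ, sub_pi, sub_up_wk]
    sub_all := fun θ q K ψ => by simp only [sQ, sub_pi]
    tr_fup := fun hu h => trQ hu h0 h
    tr_fdn := fun hu h => trQ h0 hu h
    tr_ng := fun h => (hN _ _ h0 h0).2.1 _ h
    tr_imp := fun hφ hψ => by
      rw [trQ hb₃ h0 (tyI hφ hψ), logic_tr_pi k (logic_ends_wk (eQ h0 hb₂ _)) (tyI hφ hψ),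
        ← trQ h0 hb₁ hφ, ← trQ h0 hb₂ hψ]
      simp only [inst_wk]
      exact ⟨fun h ⟨M, hM⟩ => h M hM, fun h α hα => h ⟨α, hα⟩⟩
    tr_all := fun h hK hψ => by
      rw [trQ (hc _ h).2.2 h0 (tyA h hK hψ), logic_tr_pi k (eQ h0 (hc _ h).2.1 _) (tyA h hK hψ)]
      refine forall_congr' fun α => imp_congr_right fun hα => ?_
      rw [inst, sQ]
      exact trQ h0 (hc _ h).2.1 (hψ.instT hα) }⟩

end Crest.Agent.R298
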