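import Crest.Agent.R298.Cand

/-! Row 298. The main lemma: a model of the component gives `AppS`. -/

set_option autoImplicit false

namespace Crest.Agent.R298
open Crest.LogicCS.PTS Crest.LogicCS.PTS.Term

variable {P : Spec ℕ} {s₀ : ℕ}

/-- The invariant on the closing substitution `ρ`. -/
structure Model.Env.{u} (m : Model.{u} P s₀) (Γ : List Tm) (η : ℕ → m.Ent) (ρ : ℕ → Tm) :
    Prop where
  wf : Wf P Set.univ Γ
  good : m.Good Γ η
  conv : ∀ i, Conv (ρ i) (m.tm (η i))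
  tsub : TSub P Set.univ [] Γ ρ
  val : ∀ i A, Look Γ i A → (∃ c, ρ i = cst c) ∨
    ((∃ s, Reach P s₀ s ∧ Ty P Set.univ Γ A (srt s)) ∧ ρ i ∈ m.D (nf A) η)

section aux
universe u
variable {m : Model.{u} P s₀} {Γ : List Tm} {η : ℕ → m.Ent} {ρ : ℕ → Tm}

theorem Model.Env.hasT (E : m.Env Γ η ρ) {M T : Tm} (h : Ty P Set.univ Γ M T) :
    HasT P (sub ρ M) (sub (fun i => m.tm (η i)) (nf T)) :=
  ⟨sub ρ T, h.subT E.tsub, conv_sub E.conv (conv_nf T)⟩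

theorem Model.Env.low (E : m.Env Γ η ρ) {T : Tm} {t : ℕ} (h : Ty P Set.univ Γ T (srt t))
    (ht : Low P s₀ t) : LowT P s₀ (sub (fun i => m.tm (η i)) T) :=
  LowT.of_ty (h.subT (m.good_tsub E.good)) ht

theorem Model.Env.conv_cons (E : m.Env Γ η ρ) {e : m.Ent} {N : Tm} (hc : Conv (m.tm e) N) :
    ∀ i, Conv (scons N ρ i) (m.tm (scons e η i))
  | 0 => conv_symm hc
  | i + 1 => E.conv i

theorem Model.Env.ext (hP : Hyp P) (E : m.Env Γ η ρ) {A N : Tm} {e : m.Ent} {s : ℕ}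
    (hA : Ty P Set.univ Γ A (srt s)) (hg : m.Good (A :: Γ) (scons e η)) (hc : Conv (m.tm e) N)
    (hN : Ty P Set.univ [] N (sub ρ A))
    (hv : (∃ c, N = cst c) ∨ (Reach P s₀ s ∧ N ∈ m.D (nf A) η)) :
    m.Env (A :: Γ) (scons e η) (scons N ρ) := by
  refine ⟨E.wf.cons hA, hg, E.conv_cons hc, E.tsub.cons hN, fun i B hB => ?_⟩
  cases hB with
  | here =>
    rcases hv with hv | ⟨hs, hv⟩
    · exact Or.inl hv
    · refine Or.inr ⟨⟨s, hs, hA.wkT A⟩, ?_⟩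
      rw [nf_wk (hP.ty_wn E.wf hA), m.weak]
      exact hv
  | @there _ j B _ hB =>
    rcases E.val j B hB with hv | ⟨⟨t, ht, hBt⟩, hv⟩
    · exact Or.inl hv
    · refine Or.inr ⟨⟨t, ht, hBt.wkT A⟩, ?_⟩
      rw [nf_wk (hP.ty_wn E.wf hBt), m.weak]
      exact hv

/-- The claim of the main lemma. -/
def Model.Cl (m : Model.{u} P s₀) (M : Tm) : Prop :=
  ∀ {Γ : List Tm} {η : ℕ → m.Ent} {ρ : ℕ → Tm} {T : Tm},
    m.Env Γ η ρ → Ty P Set.univ Γ M T →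
    Sn (sub ρ M) ∧ ∀ t, Reach P s₀ t → Ty P Set.univ Γ T (srt t) → sub ρ M ∈ m.D (nf T) η

theorem Model.Cl.under (hP : Hyp P) {M A B : Tm} {s : ℕ} (ih : m.Cl M) (E : m.Env Γ η ρ)
    (hA : Ty P Set.univ Γ A (srt s)) (hM : Ty P Set.univ (A :: Γ) M B) : Sn (sub (up ρ) M) := by
  obtain ⟨c, hc⟩ := exists_cst (s := s) (hA.subT E.tsub)
  obtain ⟨e, he, hg⟩ := m.good_neu E.wf E.good hA
    ((HasT.of_ty hc).conv (conv_sub E.conv (conv_refl A)))
  have h := (ih (E.ext hP hA hg he hc (Or.inl ⟨c, rfl⟩)) hM).1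
  rw [← inst_sub_up] at h
  exact sn_of_sub h

theorem Model.Env.spine (E : m.Env Γ η ρ) {h T : Tm} {ts : List Tm} (ih : ∀ t ∈ ts, m.Cl t)
    (hty : Ty P Set.univ Γ (apps h ts) T) (hn : Neu (sub ρ h)) (hs : Sn (sub ρ h)) :
    Sn (sub ρ (apps h ts)) ∧
      ∀ t, Reach P s₀ t → Ty P Set.univ Γ T (srt t) → sub ρ (apps h ts) ∈ m.D (nf T) η := by
  have h1 : Sn (sub ρ (apps h ts)) := by
    rw [sub_apps]
    refine sn_apps_neu hn hs fun t ht => ?_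
    obtain ⟨u, hu, rfl⟩ := List.mem_map.1 ht
    obtain ⟨T', hT'⟩ := hty.gen_apps.2 u hu
    exact (ih u hu E hT').1
  refine ⟨h1, fun t _ _ => (m.cand _ _).neu _ ⟨h1, E.hasT hty⟩ ?_⟩
  rw [sub_apps]
  intro A B
  rw [head_apps]
  exact hn A B

/-- One elimination step. -/
theorem Model.Env.step (hP : Hyp P) (hlow : ∀ t, Low P s₀ t → AppS P t) (E : m.Env Γ η ρ)
    {U Q A B : Tm} {s : ℕ} (hs : Reach P s₀ s) (hpi : Ty P Set.univ Γ (.pi A B) (srt s))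
    (hn : Normal (.pi A B : Tm)) (hU : Ty P Set.univ Γ U (.pi A B)) (hQ : Ty P Set.univ Γ Q A)
    (hF : sub ρ U ∈ m.D (.pi A B) η) (ih : m.Cl Q) :
    ∃ r, Reach P s₀ r ∧ Ty P Set.univ Γ (inst Q B) (srt r) ∧
      sub ρ (.app U Q) ∈ m.D (nf (inst Q B)) η := by
  obtain ⟨r₁, r₂, hA, hB, hr⟩ := hpi.gen_pi_srt
  have hl := lrule_of_ty hP E.wf hA hB hr
  have hT : Ty P Set.univ Γ (inst Q B) (srt r₂) := hB.instT hQ
  have hN := (ih E hQ).2 r₁ (hs.trans hl.reach_dom) hA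
  rw [nf_of_normal (normal_pi_iff.1 hn).1] at hN
  have hty := E.hasT (hU.app hQ)
  have hcv : Conv (sub ρ Q) (sub (fun i => m.tm (η i)) Q) := conv_sub E.conv (conv_refl Q)
  refine ⟨r₂, hs.trans hl.reach_cod, hT, ?_⟩
  by_cases hL : LowT P s₀ (sub (fun i => m.tm (η i)) (.pi A B))
  · have hN' := (m.cand _ _).le hN
    have h1 := LowT.app hP hlow (LowT.pi_dom hP hL) ((m.cand _ _).le hF) hN'
    have h2 : LowT P s₀ (sub (fun i => m.tm (η i)) (nf (inst Q B))) := by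
      refine (lowT_conv ?_).1 (LowT.pi_cod hP hL hN'.2)
      refine conv_trans (conv_inst hcv (conv_refl _)) ?_
      rw [← sub_inst']
      exact conv_sub (fun _ => conv_refl _) (conv_nf _)
    rw [m.low h2]
    exact ⟨h1.1, hty⟩
  · have hin : InS P s₀ s := hs.cases.resolve_right fun h => hL (E.low hpi h)
    have h1 := ((m.pi_iff E.wf E.good hpi hin hn hL _).1 hF).2 _ hN
    rcases hin.cod hl with h2 | h2
    · obtain ⟨e, he, hsub⟩ := m.subst E.wf E.good hA hB hr h2 hin (normal_pi_iff.1 hn).2 hQ hcv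
      exact hsub (h1 e he)
    · obtain ⟨e, he⟩ := m.adm_ex (sub ρ Q) (sub (fun i => m.tm (η i)) A)
      rw [m.low (E.low (hT.nfT E.wf) h2)]
      exact ⟨((m.cand _ _).le (h1 e he)).1, hty⟩

/-- Spines headed by a variable that has a value. -/
theorem Model.Env.val_spine (hP : Hyp P) (hlow : ∀ t, Low P s₀ t → AppS P t) (E : m.Env Γ η ρ)
    {i s : ℕ} {A : Tm} (hi : Look Γ i A) (hs : Reach P s₀ s) (hA : Ty P Set.univ Γ A (srt s))
    (hv : ρ i ∈ m.D (nf A) η) (ts : List Tm) : (∀ t ∈ ts, m.Cl t) →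
    ∀ T, Ty P Set.univ Γ (apps (.var i) ts) T →
      ∃ T₁ s₁, Ty P Set.univ Γ (apps (.var i) ts) T₁ ∧ Ty P Set.univ Γ T₁ (srt s₁) ∧
        Reach P s₀ s₁ ∧ sub ρ (apps (.var i) ts) ∈ m.D (nf T₁) η := by
  induction ts using List.reverseRecOn with
  | nil => exact fun _ _ _ => ⟨A, s, Ty.var hi, hA, hs, hv⟩
  | append_singleton us Q ih =>
    intro hts T hT
    rw [apps_snoc] at hT ⊢
    obtain ⟨A₀, B₀, hU, hQ, -⟩ := hT.gen_app
    obtain ⟨T₁, s₁, hU₁, hT₁, hs₁, hD⟩ :=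
      ih (fun t ht => hts t (List.mem_append_left _ ht)) _ hU
    have hc : Conv T₁ (.pi A₀ B₀) := Ty.unique (Or.inl ⟨i, by rw [head_apps]; rfl⟩) hU₁ hU
    have hn := normal_nf (hP.ty_wn E.wf hT₁)
    obtain ⟨A', B', h1, h2, -⟩ := conv_pi_red (conv_trans (conv_symm (conv_nf T₁)) hc)
    have e := normal_red_eq hn h1
    have hpi := hT₁.nfT E.wf
    have hU' := hU₁.red_type E.wf (red_nf T₁)
    rw [← e] at hn hpi hU' hD
    have hQ' := hQ.red_type E.wf h2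
    obtain ⟨r, hr, hT', hD'⟩ := E.step hP hlow hs₁ hpi hn hU' hQ' hD
      (hts Q (List.mem_append_right _ (List.mem_singleton_self Q)))
    exact ⟨_, r, hU'.app hQ', hT', hr, hD'⟩

theorem Model.cl_var (hP : Hyp P) (hlow : ∀ t, Low P s₀ t → AppS P t) (i : ℕ) {ts : List Tm}
    (ih : ∀ t ∈ ts, m.Cl t) : m.Cl (apps (.var i) ts) := by
  intro Γ η ρ T E hT
  obtain ⟨T', hT'⟩ := hT.gen_apps.1
  obtain ⟨A, hi, -⟩ := hT'.gen_var
  rcases E.val i A hi with ⟨c, hc⟩ | ⟨⟨s, hs, hA⟩, hv⟩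
  · refine E.spine ih hT ?_ ?_
    · rw [sub_var, hc]
      intro A B h
      cases h
    · rw [sub_var, hc]
      exact sn_sort _
  · obtain ⟨T₁, s₁, h1, h2, -, h4⟩ := E.val_spine hP hlow hi hs hA hv ts ih T hT
    refine ⟨((m.cand _ _).le h4).1, fun t _ _ => ?_⟩
    rw [← nf_congr (Ty.unique (Or.inl ⟨i, by rw [head_apps]; rfl⟩) h1 hT) (hP.ty_wn E.wf h2)]
    exact h4

theorem Model.cl_lam (hP : Hyp P) {A M : Tm} (ihA : m.Cl A) (ihM : m.Cl M) :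
    m.Cl (.lam A M) := by
  intro Γ η ρ T E hT
  obtain ⟨B, s₁, s₂, s₃, hA, hB, hr, hM, hc⟩ := hT.gen_lam
  have hsA := (ihA E hA).1
  have hsn : Sn (sub ρ (.lam A M)) := sn_lam hsA (ihM.under hP E hA hM)
  refine ⟨hsn, fun t ht hTt => ?_⟩
  have hty := E.hasT hT
  by_cases hL : LowT P s₀ (sub (fun i => m.tm (η i)) (nf T))
  · rw [m.low hL]
    exact ⟨hsn, hty⟩
  have hpi := hTt.nfT E.wf
  have hin : InS P s₀ t := ht.cases.resolve_right fun h => hL (E.low hpi h)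
  have hw := hP.ty_wn E.wf (hA.prod hB hr)
  have hn := normal_nf (hP.ty_wn E.wf hTt)
  have hT' := hT.red_type E.wf (red_nf T)
  have e : nf T = .pi (nf A) (nf B) := by rw [← nf_congr hc hw, nf_pi hw]
  rw [e] at hL hpi hn hT' hty ⊢
  obtain ⟨r₁, r₂, hA', hB', hr'⟩ := hpi.gen_pi_srt
  have hl := lrule_of_ty hP E.wf hA' hB' hr'
  have hM' : Ty P Set.univ (nf A :: Γ) M (nf B) :=
    (hM.ctx_conv (conv_nf A) hA).conv hB' (conv_nf B)
  refine (m.pi_iff E.wf E.good hpi hin hn hL _).2 ⟨⟨hsn, hty⟩, fun N hN e he => ?_⟩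
  have hN' := (m.cand _ _).le hN
  have hNt : Ty P Set.univ [] N (sub ρ (nf A)) :=
    (hN'.2.conv (conv_symm (conv_sub E.conv (conv_refl _)))).ty (s := r₁) (hA'.subT E.tsub)
  have hcv : Conv (sub (scons N ρ) (nf B)) (sub (fun i => m.tm (scons e η i)) (nf B)) :=
    conv_sub (E.conv_cons (m.adm_tm he)) (conv_refl _)
  have hv : (∃ c, N = cst c) ∨ (Reach P s₀ r₁ ∧ N ∈ m.D (nf (nf A)) η) :=
    Or.inr ⟨ht.trans hl.reach_dom, by rw [nf_nf]; exact hN⟩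
  refine (m.cand _ _).exp (sub ρ A) (sub (up ρ) M) N [] hsA hN'.1 ?_ ?_
  · refine ⟨_, Ty.app (hT'.subT E.tsub) hNt, ?_⟩
    rw [inst_sub_up]
    exact hcv
  · rw [apps_nil, inst_sub_up]
    rcases hin.cod hl with h2 | h2
    · have hg := m.good_adm E.wf E.good hA' hl h2 hin hN'.2 he
      have := (ihM (E.ext hP hA' hg (m.adm_tm he) hNt hv) hM').2 r₂ h2.1 hB'
      rwa [nf_nf] at this
    · obtain ⟨e', he', hg⟩ := m.good_neu E.wf E.good hA' hN'.2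
      have E' := E.ext hP hA' hg he' hNt hv
      rw [m.low ((lowT_conv hcv).1 (LowT.of_ty (hB'.subT E'.tsub) h2))]
      exact ⟨(ihM E' hM').1, _, hM'.subT E'.tsub, hcv⟩

theorem Model.cl_red {A M N : Tm} {ts : List Tm} (ihA : m.Cl A) (ihN : m.Cl N)
    (ih : m.Cl (apps (inst N M) ts)) : m.Cl (apps (.app (.lam A M) N) ts) := by
  intro Γ η ρ T E hT
  obtain ⟨T', hT'⟩ := hT.gen_apps.1
  obtain ⟨A₀, B₀, hL, hN, -⟩ := hT'.gen_app
  obtain ⟨B, s₁, s₂, s₃, hA, -⟩ := hL.gen_lam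
  have hsA := (ihA E hA).1
  have hsN := (ihN E hN).1
  have h := ih E (hT.sr E.wf (beta_apps (beta_redex A M N) ts))
  have hty := E.hasT hT
  rw [sub_apps, sub_inst'] at h
  rw [sub_apps] at hty ⊢
  exact ⟨sn_expand hsA hsN h.1,
    fun t ht hTt => (m.cand _ _).exp _ _ _ _ hsA hsN hty (h.2 t ht hTt)⟩

end aux

theorem Model.main.{u} (hP : Hyp P) (hlow : ∀ t, Low P s₀ t → AppS P t) (m : Model.{u} P s₀)
    {M : Tm} (hM : SNi M) : ∀ {Γ : List Tm} {η : ℕ → m.Ent} {ρ : ℕ → Tm} {T : Tm},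
      m.Env Γ η ρ → Ty P Set.univ Γ M T →
      Sn (sub ρ M) ∧ ∀ t, Reach P s₀ t → Ty P Set.univ Γ T (srt t) → sub ρ M ∈ m.D (nf T) η := by
  change m.Cl M
  induction hM with
  | var i ts _ ih => exact Model.cl_var hP hlow i ih
  | sort s ts _ ih =>
    intro Γ η ρ T E hT
    exact E.spine ih hT (fun _ _ h => by cases h) (sn_sort s)
  | pi A B ts _ _ _ ihA ihB ih =>
    intro Γ η ρ T E hT
    obtain ⟨T', hT'⟩ := hT.gen_apps.1
    obtain ⟨s₁, s₂, s₃, hA, hB, -⟩ := hT'.gen_pi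
    exact E.spine ih hT (fun _ _ h => by cases h) (sn_pi (ihA E hA).1 (ihB.under hP E hA hB))
  | lam A M _ _ ihA ihM => exact Model.cl_lam hP ihA ihM
  | red A M N ts _ _ _ ihA ihN ih => exact Model.cl_red ihA ihN ih

theorem Model.appS.{u} (hP : Hyp P) (hlow : ∀ t, Low P s₀ t → AppS P t) (m : Model.{u} P s₀) :
    AppS P s₀ := by
  intro F N A B hF hN hA sF sN
  obtain ⟨η, hη⟩ := m.good_nil
  have E : m.Env [] η (fun i => m.tm (η i)) :=
    ⟨Wf.nil, hη, fun _ => conv_refl _, TSub.nil _, fun _ _ h => by cases h⟩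
  have h1 := (m.main hP hlow sN.sni E hN).2 s₀ (Reach.refl _) hA
  rw [Scoped.sub_eq hN.scoped] at h1
  have hN' : Ty P Set.univ [] N (sub (fun i => m.tm (η i)) A) := by
    rw [Scoped.sub_eq hA.scoped]
    exact hN
  obtain ⟨e, he, hg⟩ := m.good_neu Wf.nil hη hA (HasT.of_ty hN')
  have E' := E.ext hP hA hg he hN' (Or.inr ⟨Reach.refl _, h1⟩)
  have h2 := (m.main hP hlow (sn_app_var sF.wkA 0).sni E'
    (Ty.app (hF.wkT A) (Ty.var (Look.here A [])))).1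
  rw [sub_app, sub_scons_wk, Scoped.sub_eq hF.scoped] at h2
  exact h2

theorem sn_of_appS_aux (h : ∀ s, AppS P s) {H : Set ℕ} {Γ : List Tm} {M A : Tm}
    (hM : Ty P H Γ M A) (hH : H = Set.univ) (hΓ : Wf P Set.univ Γ) (κ : ℕ → ℕ)
    (hκ : TSub P Set.univ [] Γ (fun i => cst (κ i))) : Sn (sub (fun i => cst (κ i)) M) := by
  have under : ∀ {Γ : List Tm} {A M : Tm} {s : ℕ} (κ : ℕ → ℕ), Ty P Set.univ Γ A (srt s) →
      TSub P Set.univ [] Γ (fun i => cst (κ i)) →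
      (∀ κ : ℕ → ℕ, TSub P Set.univ [] (A :: Γ) (fun i => cst (κ i)) →
        Sn (sub (fun i => cst (κ i)) M)) → Sn (sub (up fun i => cst (κ i)) M) := by
    intro Γ A M s κ hA hκ ih
    obtain ⟨c, hc⟩ := exists_cst (s := s) (hA.subT hκ)
    have h1 := ih (scons c κ) (by rw [scons_comp cst]; exact hκ.cons hc)
    rw [scons_comp cst, ← inst_sub_up] at h1
    exact sn_of_sub h1
  induction hM generalizing κ with
  | var _ => exact sn_sort _
  | ax _ => exact sn_sort _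
  | cstT _ _ _ => exact sn_sort _
  | cstS _ _ _ => exact sn_sort _
  | prod h1 _ _ ih1 ih2 =>
    subst hH
    exact sn_pi (ih1 rfl hΓ κ hκ) (under κ h1 hκ (ih2 rfl (hΓ.cons h1)))
  | abs h1 _ _ _ ih1 _ ih3 =>
    subst hH
    exact sn_lam (ih1 rfl hΓ κ hκ) (under κ h1 hκ (ih3 rfl (hΓ.cons h1)))
  | app h1 h2 ih1 ih2 =>
    subst hH
    obtain ⟨s₁, s₂, s₃, hA, -⟩ := h1.correct_pi hΓ
    exact h s₁ _ _ _ _ (h1.subT hκ) (h2.subT hκ) (hA.subT hκ) (ih1 rfl hΓ κ hκ) (ih2 rfl hΓ κ hκ)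
  | conv _ _ _ ih1 _ => exact ih1 hH hΓ κ hκ

/-- If application preserves `Sn` at every sort, every typed term is `Sn`. -/
theorem sn_of_appS (hP : Hyp P) (h : ∀ s, AppS P s) {Γ : List Tm} {M A : Tm}
    (hΓ : Wf P Set.univ Γ) (hM : Ty P Set.univ Γ M A) : Sn M := by
  obtain ⟨κ, hκ⟩ := hΓ.exists_csub
  exact sn_of_sub (sn_of_appS_aux h hM rfl hΓ κ hκ)

theorem legal_sn_of_appS (hP : Hyp P) (h : ∀ s, AppS P s) (Γ : List (Term ℕ)) (M : Term ℕ)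
    (hM : Legal P Γ M) : SN M := by
  refine sn_of_tmap (Sum.inl : ℕ → ℕ ⊕ ℕ) (sn_iff.1 ?_)
  obtain ⟨N, hN | hN⟩ := hM
  · obtain ⟨h1, h2⟩ := ty_of_typed hN
    exact sn_of_appS hP h (h1.mono (Set.subset_univ _)) (h2.mono (Set.subset_univ _))
  · obtain ⟨h1, h2⟩ := ty_of_typed hN
    rcases h2.correct h1 with ⟨s, hs⟩ | ⟨s, hs⟩
    · rw [hs]
      exact sn_sort _
    · exact sn_of_appS hP h (h1.mono (Set.subset_univ _)) (hs.mono (Set.subset_univ _))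

end Crest.Agent.R298
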