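import Crest.Agent.R298.Logic

/-! Row 298. Iterated predicate kinds along walks of the kind graph. -/

set_option autoImplicit false

namespace Crest.Agent.R298
open Crest.LogicCS.PTS Crest.LogicCS.PTS.Term

variable {P : Spec ℕ} {s₀ : ℕ}

/-- A kind former from sort `x` to sort `y`. -/
structure KF (L : Lg P s₀) (y x : ℕ) where
  kd : Tm → Tm
  ty_kd : ∀ {Γ K}, Ty P L.H Γ K (srt x) → Ty P L.H Γ (kd K) (srt y)
  sub_kd : ∀ θ K, sub θ (kd K) = kd (sub θ K)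

/-- Odd nests behave like power sets. -/
structure ON (L : Lg P s₀) (y x : ℕ) extends KF L y x where
  abst : Tm → Tm → Tm
  run : Tm → Tm → Tm → Tm
  ty_abst : ∀ {Γ K φ}, Ty P L.H Γ K (srt x) → Ty P L.H (K :: Γ) φ (srt L.o) →
    Ty P L.H Γ (abst K φ) (kd K)
  ty_run : ∀ {Γ K p a}, Ty P L.H Γ K (srt x) → Ty P L.H Γ p (kd K) → Ty P L.H Γ a K →
    Ty P L.H Γ (run K p a) (srt L.o)
  sub_abst : ∀ θ K φ, sub θ (abst K φ) = abst (sub θ K) (sub (up θ) φ)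
  sub_run : ∀ θ K p a, sub θ (run K p a) = run (sub θ K) (sub θ p) (sub θ a)
  beta : ∀ {K φ a}, Ty P L.H [] K (srt x) → Ty P L.H [K] φ (srt L.o) → Ty P L.H [] a K →
    (Tr P L.H (run K (abst K φ) a) ↔ Tr P L.H (inst a φ))

/-- Even nests receive the elements. -/
structure EN (L : Lg P s₀) (y x : ℕ) extends KF L y x where
  img : Tm → Tm → Tm
  test : Tm → Tm → Tm → Tm
  ty_img : ∀ {Γ K a}, Ty P L.H Γ K (srt x) → Ty P L.H Γ a K → Ty P L.H Γ (img K a) (kd K)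
  ty_test : ∀ {Γ K p φ}, Ty P L.H Γ K (srt x) → Ty P L.H Γ p (kd K) →
    Ty P L.H (K :: Γ) φ (srt L.o) → Ty P L.H Γ (test K p φ) (srt L.o)
  sub_img : ∀ θ K a, sub θ (img K a) = img (sub θ K) (sub θ a)
  sub_test : ∀ θ K p φ, sub θ (test K p φ) = test (sub θ K) (sub θ p) (sub (up θ) φ)
  beta : ∀ {K φ a}, Ty P L.H [] K (srt x) → Ty P L.H [K] φ (srt L.o) → Ty P L.H [] a K →
    (Tr P L.H (test K (img K a) φ) ↔ Tr P L.H (inst a φ))

/-- A power-set level with comprehension and quantification over the image elements `Im`. -/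
structure Lev (L : Lg P s₀) (y x : ℕ) extends KF L y x where
  el : Tm → Tm → Tm → Tm
  cmp : Tm → Tm → Tm
  alp : Tm → Tm → Tm
  Im : Tm → Tm → Prop
  ty_el : ∀ {Γ K a p}, Ty P L.H Γ K (srt x) → Ty P L.H Γ a K → Ty P L.H Γ p (kd K) →
    Ty P L.H Γ (el K a p) (srt L.o)
  ty_cmp : ∀ {Γ K φ}, Ty P L.H Γ K (srt x) → Ty P L.H (K :: Γ) φ (srt L.o) →
    Ty P L.H Γ (cmp K φ) (kd K)
  ty_alp : ∀ {Γ K φ}, Ty P L.H Γ K (srt x) → Ty P L.H (kd K :: Γ) φ (srt L.o) →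
    Ty P L.H Γ (alp K φ) (srt L.o)
  sub_el : ∀ θ K a p, sub θ (el K a p) = el (sub θ K) (sub θ a) (sub θ p)
  sub_cmp : ∀ θ K φ, sub θ (cmp K φ) = cmp (sub θ K) (sub (up θ) φ)
  sub_alp : ∀ θ K φ, sub θ (alp K φ) = alp (sub θ K) (sub (up θ) φ)
  im_ty : ∀ {K p}, Ty P L.H [] K (srt x) → Im K p → Ty P L.H [] p (kd K)
  im_cmp : ∀ {K φ}, Ty P L.H [] K (srt x) → Ty P L.H [K] φ (srt L.o) → Im K (cmp K φ)
  tr_cmp : ∀ {K φ a}, Ty P L.H [] K (srt x) → Ty P L.H [K] φ (srt L.o) → Ty P L.H [] a K →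
    (Tr P L.H (el K a (cmp K φ)) ↔ Tr P L.H (inst a φ))
  tr_alp : ∀ {K φ}, Ty P L.H [] K (srt x) → Ty P L.H [kd K] φ (srt L.o) →
    (Tr P L.H (alp K φ) ↔ ∀ p, Im K p → Tr P L.H (inst p φ))

/-! ### Auxiliary material -/

section NestAux

variable {H : Set ℕ}

/-- The shift substitution. -/
def nsh : ℕ → Tm := fun i => .var (i + 1)

/-- Weakening below the first variable. -/
def nlf (φ : Tm) : Tm := sub (up nsh) φ

theorem sub_nsh (M : Tm) : sub nsh M = wk M := (wk_eq_sub M).symm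

theorem tsub_nsh (Γ : List Tm) (B : Tm) : TSub P H (B :: Γ) Γ nsh := by
  intro i A h
  rw [sub_nsh]
  exact Ty.var (Look.there B h)

theorem Ty.nlfT {Γ : List Tm} {K φ : Tm} {s : ℕ} (h : Ty P H (K :: Γ) φ (srt s)) (B : Tm) :
    Ty P H (wk K :: B :: Γ) (nlf φ) (srt s) := by
  have := h.subT ((tsub_nsh Γ B).lift K)
  rwa [sub_nsh] at this

theorem sub_nlf (θ : ℕ → Tm) (φ : Tm) : sub (up (up θ)) (nlf φ) = nlf (sub (up θ) φ) := by
  simp only [nlf, sub_sub]; congr 1; funext i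
  cases i with
  | zero => rfl
  | succ i => simp only [up_succ, sub_up_wk, sub_nsh]; rfl

theorem inst_nlf (N φ : Tm) : sub (up (scons N Term.var)) (nlf φ) = φ := by
  simp only [nlf, sub_sub]
  conv_rhs => rw [← sub_id φ]
  congr 1; funext i
  cases i with
  | zero => rfl
  | succ i => rfl

theorem ty_var0 (Γ : List Tm) (A : Tm) : Ty P H (A :: Γ) (.var 0) (wk A) :=
  Ty.var (Look.here A Γ)

theorem Ty.wkS {Γ : List Tm} {M : Tm} {s : ℕ} (h : Ty P H Γ M (srt s)) (B : Tm) :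
    Ty P H (B :: Γ) (wk M) (srt s) := h.wkT B

theorem Ty.instS {Γ : List Tm} {M N A : Tm} {s : ℕ} (h : Ty P H (A :: Γ) M (srt s))
    (hN : Ty P H Γ N A) : Ty P H Γ (inst N M) (srt s) := h.instT hN

end NestAux

variable {L : Lg P s₀}

theorem KF.wk_kd {y x : ℕ} (F : KF L y x) (K : Tm) : wk (F.kd K) = F.kd (wk K) := by
  rw [← sub_nsh, F.sub_kd, sub_nsh]

theorem KF.ty_var0 {y x : ℕ} (F : KF L y x) (Γ : List Tm) (K : Tm) :
    Ty P L.H (F.kd K :: Γ) (.var 0) (F.kd (wk K)) := by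
  rw [← F.wk_kd]; exact R298.ty_var0 Γ _

/-- Composition of kind formers. -/
def KF.comp {z y x : ℕ} (R : KF L z y) (S : KF L y x) : KF L z x where
  kd K := R.kd (S.kd K)
  ty_kd h := R.ty_kd (S.ty_kd h)
  sub_kd θ K := by rw [R.sub_kd, S.sub_kd]

/-- `test` applied to the fresh variable. -/
def EN.tv {y x : ℕ} (S : EN L y x) (K φ : Tm) : Tm := S.test (wk K) (.var 0) (nlf φ)

theorem EN.ty_tv {y x : ℕ} (S : EN L y x) {Γ : List Tm} {K φ : Tm} (hK : Ty P L.H Γ K (srt x))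
    (hφ : Ty P L.H (K :: Γ) φ (srt L.o)) : Ty P L.H (S.kd K :: Γ) (S.tv K φ) (srt L.o) :=
  S.ty_test (hK.wkS _) (S.toKF.ty_var0 Γ K) (hφ.nlfT _)

theorem EN.sub_tv {y x : ℕ} (S : EN L y x) (θ : ℕ → Tm) (K φ : Tm) :
    sub (up θ) (S.tv K φ) = S.tv (sub θ K) (sub (up θ) φ) := by
  simp only [EN.tv, S.sub_test, sub_up_wk, sub_nlf]; rfl

theorem EN.inst_tv {y x : ℕ} (S : EN L y x) (p K φ : Tm) :
    inst p (S.tv K φ) = S.test K p φ := by
  simp only [EN.tv, inst, S.sub_test, sub_scons_wk, sub_id, inst_nlf]; rfl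

/-- `run` applied to the fresh variable. -/
def ON.rv {y x : ℕ} (S : ON L y x) (K a : Tm) : Tm := S.run (wk K) (.var 0) (wk a)

theorem ON.ty_rv {y x : ℕ} (S : ON L y x) {Γ : List Tm} {K a : Tm} (hK : Ty P L.H Γ K (srt x))
    (ha : Ty P L.H Γ a K) : Ty P L.H (S.kd K :: Γ) (S.rv K a) (srt L.o) :=
  S.ty_run (hK.wkS _) (S.toKF.ty_var0 Γ K) (ha.wkT _)

theorem ON.sub_rv {y x : ℕ} (S : ON L y x) (θ : ℕ → Tm) (K a : Tm) :
    sub (up θ) (S.rv K a) = S.rv (sub θ K) (sub θ a) := by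
  simp only [ON.rv, S.sub_run, sub_up_wk]; rfl

theorem ON.inst_rv {y x : ℕ} (S : ON L y x) (p K a : Tm) :
    inst p (S.rv K a) = S.run K p a := by
  simp only [ON.rv, inst, S.sub_run, sub_scons_wk, sub_id]; rfl

/-- The identity nest. -/
def EN.idn (L : Lg P s₀) (x : ℕ) : EN L x x where
  kd K := K
  ty_kd h := h
  sub_kd _ _ := rfl
  img _ a := a
  test _ p φ := inst p φ
  ty_img _ ha := ha
  ty_test _ hp hφ := hφ.instS hp
  sub_img _ _ _ := rfl
  sub_test θ _ p φ := sub_inst' θ p φ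
  beta _ _ _ := Iff.rfl

/-- The nest of a codomain edge. -/
def EN.cod (L : Lg P s₀) {r b c : ℕ} (hr : LRule P r b c) : EN L c b where
  kd K := .pi (cst (L.D r)) (wk K)
  ty_kd h := Ty.prod (L.tyD _ _ ⟨_, _, _, hr, Or.inl rfl⟩) (h.wkS _) hr.1
  sub_kd θ K := by simp only [sub_pi, sub_sort, sub_up_wk]
  img _ a := .lam (cst (L.D r)) (wk a)
  test _ p φ := inst (.app p (cst (L.d r))) φ
  ty_img hK ha := Ty.abs (L.tyD _ _ ⟨_, _, _, hr, Or.inl rfl⟩) (hK.wkS _) hr.1 (ha.wkT _)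
  ty_test _ hp hφ := by
    have := Ty.app hp (L.tyd _ _ ⟨_, _, _, hr, Or.inl rfl⟩)
    rw [inst_wk] at this
    exact hφ.instS this
  sub_img θ _ a := by simp only [sub_lam, sub_sort, sub_up_wk]
  sub_test θ _ p φ := by rw [sub_inst']; rfl
  beta := by
    intro K φ a hK hφ ha
    have h1 := Ty.app (Ty.abs (L.tyD _ _ ⟨_, _, _, hr, Or.inl rfl⟩) (hK.wkS _) hr.1 (ha.wkT _))
      (L.tyd _ _ ⟨_, _, _, hr, Or.inl rfl⟩)
    rw [inst_wk] at h1
    have h2 := conv_beta (cst (L.D r)) (wk a) (cst (L.d r))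
    rw [inst_wk] at h2
    exact tr_conv_iff (conv_inst h2 (conv_refl φ)) (hφ.instS h1) (hφ.instS ha)

theorem nest_ty_app (L : Lg P s₀) {b n u : ℕ} {ds : List ℕ} (hw : CW P b n ds) {Γ : List Tm}
    {K p a : Tm} (hp : Ty P L.H Γ p (.pi K (tele L.D ds (srt u)))) (ha : Ty P L.H Γ a K) :
    Ty P L.H Γ (appd L.d (.app p a) ds) (srt u) := by
  have := Ty.app hp ha
  rw [inst, sub_tele] at this
  exact ty_appd L.tyd hw this

/-- The nest of a domain edge with a loaded codomain. -/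
def ON.dom (L : Lg P s₀) {a b c n u : ℕ} {ds : List ℕ} (hr : LRule P a b c) (hw : CW P b n ds)
    (hax : P.ax u n) (hu : InS P s₀ u) : ON L c a where
  kd K := .pi K (tele L.D ds (srt u))
  ty_kd h := Ty.prod h (ty_tele L.tyD hw (Ty.ax hax)) hr.1
  sub_kd θ K := by simp only [sub_pi, sub_tele, sub_sort]
  abst K φ := .lam K (lams L.D ds (L.fdn u φ))
  run _ p a := L.fup u (appd L.d (.app p a) ds)
  ty_abst hK hφ := Ty.abs hK (ty_tele L.tyD hw (Ty.ax hax)) hr.1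
    (ty_lams L.tyD hw (Ty.ax hax) (L.ty_fdn hu hφ))
  ty_run _ hp ha := L.ty_fup hu (nest_ty_app L hw hp ha)
  sub_abst θ K φ := by simp only [sub_lam, sub_lams, L.sub_fdn]
  sub_run θ K p a := by simp only [L.sub_fup, sub_appd, sub_app]
  beta := by
    intro K φ x hK hφ hx
    have h1 := nest_ty_app L hw (Ty.abs hK (ty_tele L.tyD hw (Ty.ax hax)) hr.1
      (ty_lams L.tyD hw (Ty.ax hax) (L.ty_fdn hu hφ))) hx
    have h2 := conv_beta K (lams L.D ds (L.fdn u φ)) x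
    rw [inst, sub_lams, L.sub_fdn] at h2
    have h3 := conv_trans (conv_appd (d := L.d) h2 ds) (conv_appd_lams ds _)
    have h4 := hφ.instS hx
    exact (L.tr_fup hu h1).trans
      ((tr_conv_iff h3 h1 (L.ty_fdn hu h4)).trans (L.tr_fdn hu h4))

/-- even after even -/
def EN.compE {z y x : ℕ} (R : EN L z y) (S : EN L y x) : EN L z x where
  toKF := R.toKF.comp S.toKF
  img K a := R.img (S.kd K) (S.img K a)
  test K p φ := R.test (S.kd K) p (S.tv K φ)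
  ty_img hK ha := R.ty_img (S.ty_kd hK) (S.ty_img hK ha)
  ty_test hK hp hφ := R.ty_test (S.ty_kd hK) hp (S.ty_tv hK hφ)
  sub_img θ K a := by rw [R.sub_img, S.sub_kd, S.sub_img]
  sub_test θ K p φ := by rw [R.sub_test, S.sub_kd, S.sub_tv]
  beta hK hφ ha := by
    rw [R.beta (S.ty_kd hK) (S.ty_tv hK hφ) (S.ty_img hK ha), S.inst_tv]
    exact S.beta hK hφ ha

/-- even after odd -/
def EN.compO {z y x : ℕ} (R : EN L z y) (S : ON L y x) : ON L z x where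
  toKF := R.toKF.comp S.toKF
  abst K φ := R.img (S.kd K) (S.abst K φ)
  run K p a := R.test (S.kd K) p (S.rv K a)
  ty_abst hK hφ := R.ty_img (S.ty_kd hK) (S.ty_abst hK hφ)
  ty_run hK hp ha := R.ty_test (S.ty_kd hK) hp (S.ty_rv hK ha)
  sub_abst θ K φ := by rw [R.sub_img, S.sub_kd, S.sub_abst]
  sub_run θ K p a := by rw [R.sub_test, S.sub_kd, S.sub_rv]
  beta hK hφ ha := by
    rw [R.beta (S.ty_kd hK) (S.ty_rv hK ha) (S.ty_abst hK hφ), S.inst_rv]
    exact S.beta hK hφ ha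

/-- odd after even -/
def ON.compE {z y x : ℕ} (R : ON L z y) (S : EN L y x) : ON L z x where
  toKF := R.toKF.comp S.toKF
  abst K φ := R.abst (S.kd K) (S.tv K φ)
  run K p a := R.run (S.kd K) p (S.img K a)
  ty_abst hK hφ := R.ty_abst (S.ty_kd hK) (S.ty_tv hK hφ)
  ty_run hK hp ha := R.ty_run (S.ty_kd hK) hp (S.ty_img hK ha)
  sub_abst θ K φ := by rw [R.sub_abst, S.sub_kd, S.sub_tv]
  sub_run θ K p a := by rw [R.sub_run, S.sub_kd, S.sub_img]
  beta hK hφ ha := by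
    rw [R.beta (S.ty_kd hK) (S.ty_tv hK hφ) (S.ty_img hK ha), S.inst_tv]
    exact S.beta hK hφ ha

/-- odd after odd -/
def ON.compO {z y x : ℕ} (R : ON L z y) (S : ON L y x) : EN L z x where
  toKF := R.toKF.comp S.toKF
  img K a := R.abst (S.kd K) (S.rv K a)
  test K p φ := R.run (S.kd K) p (S.abst K φ)
  ty_img hK ha := R.ty_abst (S.ty_kd hK) (S.ty_rv hK ha)
  ty_test hK hp hφ := R.ty_run (S.ty_kd hK) hp (S.ty_abst hK hφ)
  sub_img θ K a := by rw [R.sub_abst, S.sub_kd, S.sub_rv]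
  sub_test θ K p φ := by rw [R.sub_run, S.sub_kd, S.sub_abst]
  beta hK hφ ha := by
    rw [R.beta (S.ty_kd hK) (S.ty_rv hK ha) (S.ty_abst hK hφ), S.inst_rv]
    exact S.beta hK hφ ha

theorem Lg.exists_nest (L : Lg P s₀) {y x : ℕ} {p : Bool} (h : KW P s₀ y x p) :
    (p = false → Nonempty (EN L y x)) ∧ (p = true → Nonempty (ON L y x)) := by
  induction h with
  | refl s => exact ⟨fun _ => ⟨EN.idn L s⟩, fun h => by cases h⟩
  | cod hr _ ih =>
    exact ⟨fun h => (ih.1 h).elim fun S => ⟨(EN.cod L hr).compE S⟩,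
      fun h => (ih.2 h).elim fun S => ⟨(EN.cod L hr).compO S⟩⟩
  | @dom a b c x p hr hl _ ih =>
    obtain ⟨n, u, h1, h2, h3⟩ := hl
    obtain ⟨ds, hw⟩ := h1.cw
    refine ⟨fun h => ?_, fun h => ?_⟩
    · have hp : p = true := by cases p <;> simp_all
      exact (ih.2 hp).elim fun S => ⟨(ON.dom L hr hw h2 h3).compO S⟩
    · have hp : p = false := by cases p <;> simp_all
      exact (ih.1 hp).elim fun S => ⟨(ON.dom L hr hw h2 h3).compE S⟩

/-- The embedding of `w'.kd K` into `w.kd K`. -/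
def ON.emb {y x q : ℕ} (w : ON L y x) (w' : ON L q x) (K z : Tm) : Tm :=
  w.abst K (w'.run (wk K) (wk z) (.var 0))

theorem ON.ty_emb_body {x q : ℕ} (w' : ON L q x) {Γ : List Tm} {K z : Tm}
    (hK : Ty P L.H Γ K (srt x)) (hz : Ty P L.H Γ z (w'.kd K)) :
    Ty P L.H (K :: Γ) (w'.run (wk K) (wk z) (.var 0)) (srt L.o) := by
  refine w'.ty_run (hK.wkS _) ?_ (ty_var0 Γ K)
  rw [← w'.toKF.wk_kd]
  exact hz.wkT _

theorem ON.ty_emb {y x q : ℕ} (w : ON L y x) (w' : ON L q x) {Γ : List Tm} {K z : Tm}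
    (hK : Ty P L.H Γ K (srt x)) (hz : Ty P L.H Γ z (w'.kd K)) :
    Ty P L.H Γ (w.emb w' K z) (w.kd K) :=
  w.ty_abst hK (w'.ty_emb_body hK hz)

theorem ON.sub_emb {y x q : ℕ} (w : ON L y x) (w' : ON L q x) (θ : ℕ → Tm) (K z : Tm) :
    sub θ (w.emb w' K z) = w.emb w' (sub θ K) (sub θ z) := by
  simp only [ON.emb, w.sub_abst, w'.sub_run, sub_up_wk]; rfl

/-- The body of the quantifier over the image. -/
def ON.qb {y x q : ℕ} (w : ON L y x) (w' : ON L q x) (K φ : Tm) : Tm :=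
  sub (scons (w.emb w' (wk K) (.var 0)) nsh) φ

theorem ON.ty_qb {y x q : ℕ} (w : ON L y x) (w' : ON L q x) {Γ : List Tm} {K φ : Tm}
    (hK : Ty P L.H Γ K (srt x)) (hφ : Ty P L.H (w.kd K :: Γ) φ (srt L.o)) :
    Ty P L.H (w'.kd K :: Γ) (w.qb w' K φ) (srt L.o) := by
  refine hφ.subT ((tsub_nsh Γ _).cons ?_)
  rw [sub_nsh, w.toKF.wk_kd]
  exact w.ty_emb w' (hK.wkS _) (w'.toKF.ty_var0 Γ K)

theorem ON.sub_qb {y x q : ℕ} (w : ON L y x) (w' : ON L q x) (θ : ℕ → Tm) (K φ : Tm) :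
    sub (up θ) (w.qb w' K φ) = w.qb w' (sub θ K) (sub (up θ) φ) := by
  simp only [ON.qb, sub_sub]; congr 1; funext i
  cases i with
  | zero => simp only [scons_zero, w.sub_emb, sub_up_wk, up_zero, sub_var]
  | succ i => simp only [scons_succ, up_succ, sub_scons_wk, sub_nsh]; rfl

theorem ON.inst_qb {y x q : ℕ} (w : ON L y x) (w' : ON L q x) (z K φ : Tm) :
    inst z (w.qb w' K φ) = inst (w.emb w' K z) φ := by
  simp only [ON.qb, inst, sub_sub]; congr 1; funext i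
  cases i with
  | zero => simp only [scons_zero, w.sub_emb, sub_scons_wk, sub_id, sub_var]
  | succ i => rfl

theorem Lg.exists_pair (L : Lg P s₀) {b t c : ℕ} {p : Bool} (h1 : KW P s₀ b t p)
    (h2 : KW P s₀ t c p) :
    ∃ (R : KF L b t) (S : KF L t c) (E : EN L b c), ∀ K, E.kd K = R.kd (S.kd K) := by
  cases p with
  | false =>
    obtain ⟨R⟩ := (L.exists_nest h1).1 rfl
    obtain ⟨S⟩ := (L.exists_nest h2).1 rfl
    exact ⟨R.toKF, S.toKF, R.compE S, fun _ => rfl⟩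
  | true =>
    obtain ⟨R⟩ := (L.exists_nest h1).2 rfl
    obtain ⟨S⟩ := (L.exists_nest h2).2 rfl
    exact ⟨R.toKF, S.toKF, R.compO S, fun _ => rfl⟩

theorem Lg.exists_lev (L : Lg P s₀) {y x q : ℕ} (h : KW P s₀ y x true) (hq : QS P s₀ q)
    (h' : KW P s₀ q x true) : Nonempty (Lev L y x) := by
  obtain ⟨w⟩ := (L.exists_nest h).2 rfl
  obtain ⟨w'⟩ := (L.exists_nest h').2 rfl
  refine ⟨{
    toKF := w.toKF
    el := fun K a p => w.run K p a
    cmp := fun K φ => w.emb w' K (w'.abst K φ)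
    alp := fun K φ => L.all q (w'.kd K) (w.qb w' K φ)
    Im := fun K p => ∃ z, Ty P L.H [] z (w'.kd K) ∧ p = w.emb w' K z
    ty_el := fun hK ha hp => w.ty_run hK hp ha
    ty_cmp := fun hK hφ => w.ty_emb w' hK (w'.ty_abst hK hφ)
    ty_alp := fun hK hφ => L.ty_all hq (w'.ty_kd hK) (w.ty_qb w' hK hφ)
    sub_el := fun θ K a p => w.sub_run θ K p a
    sub_cmp := fun θ K φ => by rw [w.sub_emb, w'.sub_abst]
    sub_alp := fun θ K φ => by rw [L.sub_all, w'.sub_kd, w.sub_qb]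
    im_ty := ?_
    im_cmp := fun hK hφ => ⟨_, w'.ty_abst hK hφ, rfl⟩
    tr_cmp := ?_
    tr_alp := ?_ }⟩
  · rintro K p hK ⟨z, hz, rfl⟩
    exact w.ty_emb w' hK hz
  · intro K φ a hK hφ ha
    have h1 := w.beta hK (w'.ty_emb_body hK (w'.ty_abst hK hφ)) ha
    have h2 : inst a (w'.run (wk K) (wk (w'.abst K φ)) (.var 0)) = w'.run K (w'.abst K φ) a := by
      simp only [inst, w'.sub_run, sub_scons_wk, sub_id]; rfl
    rw [h2] at h1
    exact h1.trans (w'.beta hK hφ ha)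
  · intro K φ hK hφ
    refine (L.tr_all hq (w'.ty_kd hK) (w.ty_qb w' hK hφ)).trans ⟨?_, ?_⟩
    · rintro hall p ⟨z, hz, rfl⟩
      have := hall z hz
      rwa [w.inst_qb] at this
    · intro hall z hz
      rw [w.inst_qb]
      exact hall _ ⟨z, hz, rfl⟩

end Crest.Agent.R298
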