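import Crest.Agent.R298.Nest

/-! Row 298. The impredicative package of structures. -/

set_option autoImplicit false

namespace Crest.Agent.R298
open Crest.LogicCS.PTS Crest.LogicCS.PTS.Term

variable {P : Spec ℕ} {s₀ : ℕ}

/-- For `y : Y`, `A.kd (Y0 y)` are the nodes, `B.kd (nodes)` the sets of nodes and `A.kd (sets)`
the structures; `pack y s` is a node over `y0`. -/
structure Uni (L : Lg P s₀) where
  a : ℕ
  b : ℕ
  A : Lev L a b
  B : Lev L b a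
  Y : Tm
  y0 : Tm
  Y0 : Tm → Tm
  pack : Tm → Tm → Tm
  unpack : Tm → Tm → Tm
  sub_Y : ∀ θ, sub θ Y = Y
  sub_y0 : ∀ θ, sub θ y0 = y0
  sub_Y0 : ∀ θ y, sub θ (Y0 y) = Y0 (sub θ y)
  sub_pack : ∀ θ y s, sub θ (pack y s) = pack (sub θ y) (sub θ s)
  sub_unpack : ∀ θ n φ, sub θ (unpack n φ) = unpack (sub θ n) (sub (up (up θ)) φ)
  ty_y0 : ∀ Γ, Ty P L.H Γ y0 Y
  ty_Y0 : ∀ {Γ y}, Ty P L.H Γ y Y → Ty P L.H Γ (Y0 y) (srt b)
  ty_pack : ∀ {Γ y s}, Ty P L.H Γ y Y → Ty P L.H Γ s (A.kd (B.kd (A.kd (Y0 y)))) →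
    Ty P L.H Γ (pack y s) (A.kd (Y0 y0))
  ty_unpack : ∀ {Γ n φ}, Ty P L.H Γ n (A.kd (Y0 y0)) →
    Ty P L.H (A.kd (B.kd (A.kd (Y0 (.var 0)))) :: Y :: Γ) φ (srt L.o) →
    Ty P L.H Γ (unpack n φ) (srt L.o)
  im_pack : ∀ {y s}, Ty P L.H [] y Y → Ty P L.H [] s (A.kd (B.kd (A.kd (Y0 y)))) →
    A.Im (Y0 y0) (pack y s)
  tr_unpack : ∀ {y s φ}, Ty P L.H [] y Y → Ty P L.H [] s (A.kd (B.kd (A.kd (Y0 y)))) →
    Ty P L.H [A.kd (B.kd (A.kd (Y0 (.var 0)))), Y] φ (srt L.o) →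
    (Tr P L.H (unpack (pack y s) φ) ↔ Tr P L.H (sub (scons s (scons y Term.var)) φ))

theorem KF.pack_conv {L : Lg P s₀} {y x : ℕ} (R : KF L y x) {K K' : Tm} (h : Conv K K') :
    Conv (R.kd K) (R.kd K') := by
  have e : ∀ K, R.kd K = inst K (R.kd (.var 0)) := fun K => by
    simp only [inst, R.sub_kd, sub_var, scons_zero]
  rw [e K, e K']
  exact conv_inst h (conv_refl _)

theorem KF.pack_wk {L : Lg P s₀} {y x : ℕ} (R : KF L y x) (K : Tm) :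
    wk (R.kd K) = R.kd (wk K) := by
  simp only [wk_eq_sub, R.sub_kd]

theorem Lev.pack_conv_el {L : Lg P s₀} {y x : ℕ} (B : Lev L y x) (K a : Tm) {q q' : Tm}
    (h : Conv q q') : Conv (B.el K a q) (B.el K a q') := by
  have e : ∀ q, B.el K a q = inst q (B.el (wk K) (wk a) (.var 0)) := fun q => by
    simp only [inst, B.sub_el, sub_var, scons_zero, sub_scons_wk, sub_id]
  rw [e q, e q']
  exact conv_inst h (conv_refl _)

theorem Lg.exists_uni (L : Lg P s₀) (hc : Config P s₀) : Nonempty (Uni L) := by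
  obtain ⟨m, b, c, n, t, a, qA, qB, p, hr, hmn, htn, hab, hba, hbt, htc, hqA, hqAb, hqB, hqBa⟩ :=
    hc.data
  obtain ⟨A⟩ := L.exists_lev hab hqA hqAb
  obtain ⟨B⟩ := L.exists_lev hba hqB hqBa
  obtain ⟨R, S, E, hE⟩ := L.exists_pair hbt htc
  obtain ⟨ds, hw⟩ := hmn.cw
  -- the objects
  obtain ⟨Y, hY⟩ : ∃ Y, Y = tele L.D ds (srt t) := ⟨_, rfl⟩
  obtain ⟨Y0, hY0⟩ : ∃ Y0 : Tm → Tm, Y0 = fun y => R.kd (appd L.d y ds) := ⟨_, rfl⟩
  obtain ⟨SS, hSS⟩ : ∃ SS : Tm → Tm, SS = fun y => A.kd (B.kd (A.kd (Y0 y))) := ⟨_, rfl⟩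
  obtain ⟨U, hU⟩ : ∃ U : Tm, U = .pi Y (B.kd (SS (.var 0))) := ⟨_, rfl⟩
  obtain ⟨y0, hy0⟩ : ∃ y0, y0 = lams L.D ds (S.kd U) := ⟨_, rfl⟩
  -- naturality
  have sY : ∀ θ, sub θ Y = Y := fun θ => by rw [hY, sub_tele]; rfl
  have sY0 : ∀ θ y, sub θ (Y0 y) = Y0 (sub θ y) := fun θ y => by
    simp only [hY0, R.sub_kd, sub_appd]
  have sSS : ∀ θ y, sub θ (SS y) = SS (sub θ y) := fun θ y => by
    simp only [hSS, A.sub_kd, B.sub_kd, sY0]
  have sU : ∀ θ, sub θ U = U := fun θ => by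
    rw [hU]; simp only [sub_pi, sY, B.sub_kd, sSS, sub_var, up_zero]
  have sy0 : ∀ θ, sub θ y0 = y0 := fun θ => by rw [hy0, sub_lams, S.sub_kd, sU]
  have wY : wk Y = Y := by rw [wk_eq_sub, sY]
  have wU : wk U = U := by rw [wk_eq_sub, sU]
  have wN : wk (Y0 y0) = Y0 y0 := by rw [wk_eq_sub, sY0, sy0]
  have wSS : ∀ y, wk (SS y) = SS (wk y) := fun y => by simp only [wk_eq_sub, sSS]
  -- typing
  have tY : ∀ Γ, Ty P L.H Γ Y (srt m) := fun Γ => by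
    rw [hY]; exact ty_tele L.tyD hw (Ty.ax htn)
  have tY0 : ∀ {Γ y}, Ty P L.H Γ y Y → Ty P L.H Γ (Y0 y) (srt b) := fun {Γ y} h => by
    rw [hY] at h; rw [hY0]; exact R.ty_kd (ty_appd L.tyd hw h)
  have tSS : ∀ {Γ y}, Ty P L.H Γ y Y → Ty P L.H Γ (SS y) (srt a) := fun {Γ y} h => by
    rw [hSS]; exact A.ty_kd (B.ty_kd (A.ty_kd (tY0 h)))
  have tv : ∀ Γ, Ty P L.H (Y :: Γ) (.var 0) Y := fun Γ => by
    have := Ty.var (P := P) (H := L.H) (Look.here Y Γ)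
    rwa [wY] at this
  have tU : ∀ Γ, Ty P L.H Γ U (srt c) := fun Γ => by
    rw [hU]; exact Ty.prod (tY Γ) (B.ty_kd (tSS (tv Γ))) hr.1
  have ty0 : ∀ Γ, Ty P L.H Γ y0 Y := fun Γ => by
    rw [hy0, hY]; exact ty_lams L.tyD hw (Ty.ax htn) (S.ty_kd (tU Γ))
  have cN : Conv (Y0 y0) (E.kd U) := by
    rw [hE, hY0, hy0]; exact R.pack_conv (conv_appd_lams ds _)
  have tvN : ∀ Γ, Ty P L.H (Y0 y0 :: Γ) (.var 0) (E.kd U) := fun Γ => by
    have := Ty.var (P := P) (H := L.H) (Look.here (Y0 y0) Γ)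
    rw [wN] at this
    exact this.conv (E.ty_kd (tU _)) cN
  have tapp : ∀ {Γ f y}, Ty P L.H Γ f U → Ty P L.H Γ y Y →
      Ty P L.H Γ (.app f y) (B.kd (SS y)) := fun {Γ f y} hf hy => by
    rw [hU] at hf
    have := Ty.app hf hy
    rwa [inst, B.sub_kd, sSS] at this
  have tψ : ∀ {Γ y s}, Ty P L.H Γ y Y → Ty P L.H Γ s (SS y) →
      Ty P L.H (U :: Γ) (B.el (SS (wk y)) (wk s) (.app (.var 0) (wk y))) (srt L.o) :=
    fun {Γ y s} hy hs => by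
    have h1 := hy.wkT U
    have h2 := hs.wkT U
    rw [wY] at h1
    rw [wSS] at h2
    have h3 := Ty.var (P := P) (H := L.H) (Look.here U Γ)
    rw [wU] at h3
    exact B.ty_el (tSS h1) h2 (tapp h3 h1)
  have tφ : ∀ {Γ y s}, Ty P L.H Γ y Y → Ty P L.H Γ s (SS y) →
      Ty P L.H (Y0 y0 :: Γ) (E.test U (.var 0)
        (B.el (SS (wk (wk y))) (wk (wk s)) (.app (.var 0) (wk (wk y))))) (srt L.o) :=
    fun {Γ y s} hy hs => by
    have h1 := hy.wkT (Y0 y0)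
    have h2 := hs.wkT (Y0 y0)
    rw [wY] at h1
    rw [wSS] at h2
    exact E.ty_test (tU _) (tvN Γ) (tψ h1 h2)
  have tlam : ∀ {Γ φ}, Ty P L.H (SS (.var 0) :: Y :: Γ) φ (srt L.o) →
      Ty P L.H Γ (.lam Y (B.cmp (SS (.var 0)) φ)) U := fun {Γ φ} h => by
    rw [hU]
    exact Ty.abs (tY Γ) (B.ty_kd (tSS (tv Γ))) hr.1 (B.ty_cmp (tSS (tv Γ)) h)
  have timg : ∀ {Γ f}, Ty P L.H Γ f U → Ty P L.H Γ (E.img U f) (Y0 y0) := fun {Γ f} h =>
    (E.ty_img (tU Γ) h).conv (tY0 (ty0 Γ)) (conv_symm cN)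
  have eSS : ∀ y, A.kd (B.kd (A.kd (Y0 y))) = SS y := fun y => by rw [hSS]
  refine ⟨{
    a := a, b := b, A := A, B := B, Y := Y, y0 := y0, Y0 := Y0
    pack := fun y s => A.cmp (Y0 y0) (E.test U (.var 0)
      (B.el (SS (wk (wk y))) (wk (wk s)) (.app (.var 0) (wk (wk y)))))
    unpack := fun n φ => A.el (Y0 y0) (E.img U (.lam Y (B.cmp (SS (.var 0)) φ))) n
    sub_Y := sY, sub_y0 := sy0, sub_Y0 := sY0
    sub_pack := ?_, sub_unpack := ?_, ty_y0 := ty0, ty_Y0 := tY0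
    ty_pack := ?_, ty_unpack := ?_, im_pack := ?_, tr_unpack := ?_ }⟩
  · intro θ y s
    simp only [A.sub_cmp, E.sub_test, B.sub_el, sY0, sy0, sU, sSS, sub_var, up_zero, sub_app,
      sub_up_wk]
  · intro θ n φ
    simp only [A.sub_el, E.sub_img, B.sub_cmp, sY0, sy0, sU, sSS, sY, sub_var, up_zero, sub_lam]
  · intro Γ y s hy hs
    rw [eSS] at hs
    exact A.ty_cmp (tY0 (ty0 Γ)) (tφ hy hs)
  · intro Γ n φ hn hφ
    rw [eSS] at hφ
    exact A.ty_el (tY0 (ty0 Γ)) (timg (tlam hφ)) hn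
  · intro y s hy hs
    rw [eSS] at hs
    exact A.im_cmp (tY0 (ty0 [])) (tφ hy hs)
  · intro y s φ hy hs hφ
    rw [eSS] at hs hφ
    have tX := tlam hφ
    refine (A.tr_cmp (tY0 (ty0 [])) (tφ hy hs) (timg tX)).trans ?_
    have e1 : ∀ g, inst g (E.test U (.var 0)
        (B.el (SS (wk (wk y))) (wk (wk s)) (.app (.var 0) (wk (wk y))))) =
        E.test U g (B.el (SS (wk y)) (wk s) (.app (.var 0) (wk y))) := fun g => by
      simp only [inst, E.sub_test, B.sub_el, sU, sSS, sub_var, scons_zero, up_zero, sub_app,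
        sub_up_wk, sub_scons_wk, sub_id]
    rw [e1]
    refine (E.beta (tU []) (tψ hy hs) tX).trans ?_
    have e2 : ∀ g, inst g (B.el (SS (wk y)) (wk s) (.app (.var 0) (wk y))) =
        B.el (SS y) s (.app g y) := fun g => by
      simp only [inst, B.sub_el, sSS, sub_var, scons_zero, sub_app, sub_scons_wk, sub_id]
    rw [e2]
    have e3 : inst y (B.cmp (SS (.var 0)) φ) =
        B.cmp (SS y) (sub (up (scons y Term.var)) φ) := by
      simp only [inst, B.sub_cmp, sSS, sub_var, scons_zero]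
    have hθ : TSub P L.H [] [Y] (scons y Term.var) :=
      (TSub.nil _).cons (by rw [sY]; exact hy)
    have tφ' : Ty P L.H [SS y] (sub (up (scons y Term.var)) φ) (srt L.o) := by
      have := hφ.subT (hθ.lift (SS (.var 0)))
      rwa [sSS] at this
    have hc' : Conv (B.el (SS y) s (.app (.lam Y (B.cmp (SS (.var 0)) φ)) y))
        (B.el (SS y) s (B.cmp (SS y) (sub (up (scons y Term.var)) φ))) := by
      rw [← e3]; exact B.pack_conv_el _ _ (conv_beta _ _ _)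
    refine (tr_conv_iff hc' (B.ty_el (tSS hy) hs (tapp tX hy))
      (B.ty_el (tSS hy) hs (B.ty_cmp (tSS hy) tφ'))).trans ?_
    refine (B.tr_cmp (tSS hy) tφ' hs).trans ?_
    rw [inst_sub_up]

end Crest.Agent.R298
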