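import Crest.Prelude.Def_PTS

/-! Row 298. Raw syntax: parallel renaming / substitution, constants, beta steps. -/

set_option autoImplicit false

namespace Crest.Agent.R298
open Crest.LogicCS.PTS Crest.LogicCS.PTS.Term

/-- Terms whose atoms are sorts (`inl`) and named constants (`inr`). -/
abbrev Tm : Type := Term (ℕ ⊕ ℕ)
abbrev srt (s : ℕ) : Tm := Term.sort (Sum.inl s)
abbrev cst (n : ℕ) : Tm := Term.sort (Sum.inr n)

def scons {α : Type*} (a : α) (f : ℕ → α) : ℕ → α
  | 0 => a
  | i + 1 => f i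

@[simp] theorem scons_zero {α : Type*} (a : α) (f : ℕ → α) : scons a f 0 = a := rfl
@[simp] theorem scons_succ {α : Type*} (a : α) (f : ℕ → α) (i : ℕ) : scons a f (i + 1) = f i := rfl

def upr (ξ : ℕ → ℕ) : ℕ → ℕ := scons 0 (fun i => ξ i + 1)

def ren (ξ : ℕ → ℕ) : Tm → Tm
  | .var i => .var (ξ i)
  | .sort s => .sort s
  | .app M N => .app (ren ξ M) (ren ξ N)
  | .lam A M => .lam (ren ξ A) (ren (upr ξ) M)
  | .pi A B => .pi (ren ξ A) (ren (upr ξ) B)

def wk (M : Tm) : Tm := ren Nat.succ M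

def up (θ : ℕ → Tm) : ℕ → Tm := scons (.var 0) (fun i => wk (θ i))

def sub (θ : ℕ → Tm) : Tm → Tm
  | .var i => θ i
  | .sort s => .sort s
  | .app M N => .app (sub θ M) (sub θ N)
  | .lam A M => .lam (sub θ A) (sub (up θ) M)
  | .pi A B => .pi (sub θ A) (sub (up θ) B)

/-- `inst N M`: the body `M` with `N` for index 0. -/
def inst (N M : Tm) : Tm := sub (scons N Term.var) M

/-- Simultaneous substitution of variables (`θ`) and constants (`f`). -/
def gs (θ f : ℕ → Tm) : Tm → Tm
  | .var i => θ i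
  | .sort (.inl s) => srt s
  | .sort (.inr n) => f n
  | .app M N => .app (gs θ f M) (gs θ f N)
  | .lam A M => .lam (gs θ f A) (gs (up θ) (fun n => wk (f n)) M)
  | .pi A B => .pi (gs θ f A) (gs (up θ) (fun n => wk (f n)) B)

/-- All free variables are `< k`. -/
def Scoped : ℕ → Tm → Prop
  | k, .var i => i < k
  | _, .sort _ => True
  | k, .app M N => Scoped k M ∧ Scoped k N
  | k, .lam A M => Scoped k A ∧ Scoped (k + 1) M
  | k, .pi A B => Scoped k A ∧ Scoped (k + 1) B

/-- All constants lie in `H`. -/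
def CIn (H : Set ℕ) : Tm → Prop
  | .var _ => True
  | .sort (.inl _) => True
  | .sort (.inr n) => n ∈ H
  | .app M N => CIn H M ∧ CIn H N
  | .lam A M => CIn H A ∧ CIn H M
  | .pi A B => CIn H A ∧ CIn H B

def apps (h : Tm) (ts : List Tm) : Tm := ts.foldl Term.app h

def head : Tm → Tm
  | .app M _ => head M
  | M => M

def args : Tm → List Tm
  | .app M N => args M ++ [N]
  | _ => []

/-- Not headed by an abstraction. -/
def Neu (M : Tm) : Prop := ∀ A B, head M ≠ .lam A B

/-- Normal and not an abstraction. -/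
def Atm (M : Tm) : Prop := Normal M ∧ ∀ A B, M ≠ .lam A B

abbrev Red : Tm → Tm → Prop := Relation.ReflTransGen Beta
abbrev Conv : Tm → Tm → Prop := BetaEq

/-! ### simp set for renaming / substitution -/

@[simp] theorem ren_var (ξ : ℕ → ℕ) (i : ℕ) : ren ξ (.var i) = .var (ξ i) := rfl
@[simp] theorem ren_sort (ξ : ℕ → ℕ) (s : ℕ ⊕ ℕ) : ren ξ (.sort s) = .sort s := rfl
@[simp] theorem ren_app (ξ : ℕ → ℕ) (M N : Tm) : ren ξ (.app M N) = .app (ren ξ M) (ren ξ N) := rfl
@[simp] theorem ren_lam (ξ : ℕ → ℕ) (A M : Tm) :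
    ren ξ (.lam A M) = .lam (ren ξ A) (ren (upr ξ) M) := rfl
@[simp] theorem ren_pi (ξ : ℕ → ℕ) (A B : Tm) :
    ren ξ (.pi A B) = .pi (ren ξ A) (ren (upr ξ) B) := rfl
@[simp] theorem sub_var (θ : ℕ → Tm) (i : ℕ) : sub θ (.var i) = θ i := rfl
@[simp] theorem sub_sort (θ : ℕ → Tm) (s : ℕ ⊕ ℕ) : sub θ (.sort s) = .sort s := rfl
@[simp] theorem sub_app (θ : ℕ → Tm) (M N : Tm) : sub θ (.app M N) = .app (sub θ M) (sub θ N) := rfl
@[simp] theorem sub_lam (θ : ℕ → Tm) (A M : Tm) :
    sub θ (.lam A M) = .lam (sub θ A) (sub (up θ) M) := rfl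
@[simp] theorem sub_pi (θ : ℕ → Tm) (A B : Tm) :
    sub θ (.pi A B) = .pi (sub θ A) (sub (up θ) B) := rfl
@[simp] theorem wk_var (i : ℕ) : wk (.var i) = .var (i + 1) := rfl
@[simp] theorem wk_sort (s : ℕ ⊕ ℕ) : wk (.sort s) = .sort s := rfl
@[simp] theorem wk_app (M N : Tm) : wk (.app M N) = .app (wk M) (wk N) := rfl
@[simp] theorem up_zero (θ : ℕ → Tm) : up θ 0 = .var 0 := rfl
@[simp] theorem up_succ (θ : ℕ → Tm) (i : ℕ) : up θ (i + 1) = wk (θ i) := rfl
@[simp] theorem upr_zero (ξ : ℕ → ℕ) : upr ξ 0 = 0 := rfl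
@[simp] theorem upr_succ (ξ : ℕ → ℕ) (i : ℕ) : upr ξ (i + 1) = ξ i + 1 := rfl
@[simp] theorem inst_var_zero (N : Tm) : inst N (.var 0) = N := rfl
@[simp] theorem inst_var_succ (N : Tm) (i : ℕ) : inst N (.var (i + 1)) = .var i := rfl
@[simp] theorem inst_sort (N : Tm) (s : ℕ ⊕ ℕ) : inst N (.sort s) = .sort s := rfl
@[simp] theorem inst_app (N M M' : Tm) : inst N (.app M M') = .app (inst N M) (inst N M') := rfl

theorem ren_ren (ξ ζ : ℕ → ℕ) (M : Tm) : ren ξ (ren ζ M) = ren (fun i => ξ (ζ i)) M := by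
  induction M generalizing ξ ζ with
  | var i => rfl
  | sort s => rfl
  | app M N ihM ihN => simp [ihM, ihN]
  | lam A M ihA ihM =>
    simp only [ren_lam, ihA, ihM]; congr 2; funext i; cases i <;> rfl
  | pi A M ihA ihM =>
    simp only [ren_pi, ihA, ihM]; congr 2; funext i; cases i <;> rfl

theorem sub_ren (θ : ℕ → Tm) (ξ : ℕ → ℕ) (M : Tm) :
    sub θ (ren ξ M) = sub (fun i => θ (ξ i)) M := by
  induction M generalizing θ ξ with
  | var i => rfl
  | sort s => rfl
  | app M N ihM ihN => simp [ihM, ihN]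
  | lam A M ihA ihM =>
    simp only [ren_lam, sub_lam, ihA, ihM]; congr 2; funext i; cases i <;> rfl
  | pi A M ihA ihM =>
    simp only [ren_pi, sub_pi, ihA, ihM]; congr 2; funext i; cases i <;> rfl

theorem ren_upr_wk (ξ : ℕ → ℕ) (M : Tm) : ren (upr ξ) (wk M) = wk (ren ξ M) := by
  simp only [wk, ren_ren]; rfl

theorem ren_sub (ξ : ℕ → ℕ) (θ : ℕ → Tm) (M : Tm) :
    ren ξ (sub θ M) = sub (fun i => ren ξ (θ i)) M := by
  induction M generalizing θ ξ with
  | var i => rfl
  | sort s => rfl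
  | app M N ihM ihN => simp [ihM, ihN]
  | lam A M ihA ihM =>
    simp only [ren_lam, sub_lam, ihA, ihM]; congr 2; funext i
    cases i with
    | zero => rfl
    | succ i => simp [ren_upr_wk]
  | pi A M ihA ihM =>
    simp only [ren_pi, sub_pi, ihA, ihM]; congr 2; funext i
    cases i with
    | zero => rfl
    | succ i => simp [ren_upr_wk]

@[simp] theorem sub_up_wk (θ : ℕ → Tm) (M : Tm) : sub (up θ) (wk M) = wk (sub θ M) := by
  simp only [wk, sub_ren, ren_sub]; rfl

theorem sub_sub (τ θ : ℕ → Tm) (M : Tm) :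
    sub τ (sub θ M) = sub (fun i => sub τ (θ i)) M := by
  induction M generalizing θ τ with
  | var i => rfl
  | sort s => rfl
  | app M N ihM ihN => simp [ihM, ihN]
  | lam A M ihA ihM =>
    simp only [sub_lam, ihA, ihM]; congr 2; funext i
    cases i with
    | zero => rfl
    | succ i => simp
  | pi A M ihA ihM =>
    simp only [sub_pi, ihA, ihM]; congr 2; funext i
    cases i with
    | zero => rfl
    | succ i => simp

@[simp] theorem up_var : up Term.var = Term.var := by
  funext i; cases i <;> rfl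

@[simp] theorem sub_id (M : Tm) : sub Term.var M = M := by
  induction M with
  | var i => rfl
  | sort s => rfl
  | app M N ihM ihN => simp [ihM, ihN]
  | lam A M ihA ihM => simp [ihA, ihM]
  | pi A M ihA ihM => simp [ihA, ihM]

theorem ren_eq_sub (ξ : ℕ → ℕ) (M : Tm) : ren ξ M = sub (fun i => .var (ξ i)) M := by
  have := ren_sub ξ Term.var M
  simpa using this

theorem sub_wk (θ : ℕ → Tm) (M : Tm) : sub θ (wk M) = sub (fun i => θ (i + 1)) M := by
  simp only [wk, sub_ren]

@[simp] theorem sub_scons_wk (N : Tm) (θ : ℕ → Tm) (M : Tm) :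
    sub (scons N θ) (wk M) = sub θ M := by
  rw [sub_wk]; rfl

@[simp] theorem inst_wk (N M : Tm) : inst N (wk M) = M := by
  simp [inst]

@[simp] theorem inst_sub_up (N : Tm) (θ : ℕ → Tm) (M : Tm) :
    inst N (sub (up θ) M) = sub (scons N θ) M := by
  simp only [inst, sub_sub]; congr 1; funext i
  cases i with
  | zero => rfl
  | succ i => simp

theorem sub_inst (θ : ℕ → Tm) (N M : Tm) : sub θ (inst N M) = sub (scons (sub θ N) θ) M := by
  simp only [inst, sub_sub]; congr 1; funext i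
  cases i <;> rfl

theorem sub_inst' (θ : ℕ → Tm) (N M : Tm) :
    sub θ (inst N M) = inst (sub θ N) (sub (up θ) M) := by
  rw [sub_inst, inst_sub_up]

theorem ren_inst (ξ : ℕ → ℕ) (N M : Tm) :
    ren ξ (inst N M) = inst (ren ξ N) (ren (upr ξ) M) := by
  simp only [inst, ren_sub, sub_ren]; congr 1; funext i
  cases i <;> rfl

/-- `wk` as a substitution (use it with naturality lemmas stated for `sub`). -/
theorem wk_eq_sub (M : Tm) : wk M = sub (fun i => .var (i + 1)) M := ren_eq_sub _ M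

theorem scons_comp {α β : Type*} (g : α → β) (a : α) (f : ℕ → α) :
    (fun i => g (scons a f i)) = scons (g a) (fun i => g (f i)) := by
  funext i; cases i <;> rfl

@[simp] theorem apps_nil (h : Tm) : apps h [] = h := rfl
@[simp] theorem apps_cons (h t : Tm) (ts : List Tm) : apps h (t :: ts) = apps (.app h t) ts := rfl
theorem apps_append (h : Tm) (ts us : List Tm) : apps h (ts ++ us) = apps (apps h ts) us := by
  simp [apps, List.foldl_append]
theorem apps_snoc (h t : Tm) (ts : List Tm) : apps h (ts ++ [t]) = .app (apps h ts) t := by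
  simp [apps_append]
theorem sub_apps (θ : ℕ → Tm) (h : Tm) (ts : List Tm) :
    sub θ (apps h ts) = apps (sub θ h) (ts.map (sub θ)) := by
  induction ts generalizing h with
  | nil => rfl
  | cons t ts ih => simp [ih]
@[simp] theorem head_apps (h : Tm) (ts : List Tm) : head (apps h ts) = head h := by
  induction ts generalizing h with
  | nil => rfl
  | cons t ts ih => simp [ih, head]
theorem args_apps (h : Tm) (ts : List Tm) : args (apps h ts) = args h ++ ts := by
  induction ts generalizing h with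
  | nil => simp
  | cons t ts ih => simp [ih, args]
theorem apps_head_args (M : Tm) : apps (head M) (args M) = M := by
  induction M with
  | app M N ihM _ => simp [head, args, apps_snoc, ihM]
  | _ => rfl
theorem head_not_app (M A B : Tm) : head M ≠ .app A B := by
  induction M with
  | app M N ihM _ => simpa [head] using ihM
  | _ => simp [head]

/-! ### The Prelude operations -/

theorem shift_eq_ren (c : ℕ) (M : Tm) :
    shift c M = ren (fun i => if i < c then i else i + 1) M := by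
  induction M generalizing c with
  | var i => simp only [shift, ren_var]; split <;> rfl
  | sort s => rfl
  | app M N ihM ihN => simp [shift, ihM, ihN]
  | lam A M ihA ihM =>
    simp only [shift, ren_lam, ihA, ihM]; congr 2; funext i
    cases i with
    | zero => simp
    | succ i => simp only [upr_succ, Nat.add_lt_add_iff_right]; split <;> rfl
  | pi A M ihA ihM =>
    simp only [shift, ren_pi, ihA, ihM]; congr 2; funext i
    cases i with
    | zero => simp
    | succ i => simp only [upr_succ, Nat.add_lt_add_iff_right]; split <;> rfl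

theorem shift_zero_eq (M : Tm) : shift 0 M = wk M := by
  rw [shift_eq_ren]; simp [wk]

theorem substAt_eq_sub (k : ℕ) (N M : Tm) :
    substAt k N M =
      sub (fun i => if i < k then .var i else if i = k then shiftBy k N else .var (i - 1)) M := by
  induction M generalizing k with
  | var i => simp [substAt]
  | sort s => rfl
  | app M M' ihM ihN => simp [substAt, ihM, ihN]
  | lam A M ihA ihM =>
    simp only [substAt, sub_lam, ihA, ihM]; congr 2; funext i
    cases i with
    | zero => simp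
    | succ i =>
      simp only [up_succ, Nat.add_lt_add_iff_right, Nat.add_right_cancel_iff, shiftBy,
        shift_zero_eq]
      split_ifs with h1 h2
      · rfl
      · rfl
      · simp only [wk_var]; congr 1; omega
  | pi A M ihA ihM =>
    simp only [substAt, sub_pi, ihA, ihM]; congr 2; funext i
    cases i with
    | zero => simp
    | succ i =>
      simp only [up_succ, Nat.add_lt_add_iff_right, Nat.add_right_cancel_iff, shiftBy,
        shift_zero_eq]
      split_ifs with h1 h2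
      · rfl
      · rfl
      · simp only [wk_var]; congr 1; omega

theorem subst_eq (N M : Tm) : subst N M = inst N M := by
  simp only [subst, substAt_eq_sub, inst]; congr 1; funext i
  cases i with
  | zero => simp [shiftBy]
  | succ i => simp

theorem beta_redex (A M N : Tm) : Beta (.app (.lam A M) N) (inst N M) := by
  rw [← subst_eq]; exact Beta.redex A M N

/-! ### Scoping, constants, `gs` -/

theorem Scoped.mono {k l : ℕ} {M : Tm} (h : Scoped k M) (hkl : k ≤ l) : Scoped l M := by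
  induction M generalizing k l with
  | var i => exact lt_of_lt_of_le h hkl
  | sort s => trivial
  | app M N ihM ihN => exact ⟨ihM h.1 hkl, ihN h.2 hkl⟩
  | lam A M ihA ihM => exact ⟨ihA h.1 hkl, ihM h.2 (Nat.succ_le_succ hkl)⟩
  | pi A M ihA ihM => exact ⟨ihA h.1 hkl, ihM h.2 (Nat.succ_le_succ hkl)⟩

theorem syn_up_congr {k : ℕ} {θ θ' : ℕ → Tm} (hθ : ∀ i < k, θ i = θ' i) :
    ∀ i < k + 1, up θ i = up θ' i := by
  intro i hi
  cases i with
  | zero => rfl
  | succ i => simp only [up_succ]; rw [hθ i (by omega)]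

theorem sub_congr {k : ℕ} {M : Tm} {θ θ' : ℕ → Tm} (h : Scoped k M)
    (hθ : ∀ i < k, θ i = θ' i) : sub θ M = sub θ' M := by
  induction M generalizing k θ θ' with
  | var i => exact hθ i h
  | sort s => rfl
  | app M N ihM ihN => simp only [sub_app]; rw [ihM h.1 hθ, ihN h.2 hθ]
  | lam A M ihA ihM => simp only [sub_lam]; rw [ihA h.1 hθ, ihM h.2 (syn_up_congr hθ)]
  | pi A M ihA ihM => simp only [sub_pi]; rw [ihA h.1 hθ, ihM h.2 (syn_up_congr hθ)]

theorem Scoped.sub_eq {M : Tm} (h : Scoped 0 M) (θ : ℕ → Tm) : sub θ M = M := by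
  rw [sub_congr (θ' := Term.var) h (fun i hi => absurd hi (Nat.not_lt_zero i)), sub_id]

theorem Scoped.ren_eq {M : Tm} (h : Scoped 0 M) (ξ : ℕ → ℕ) : ren ξ M = M := by
  rw [ren_eq_sub, h.sub_eq]

theorem Scoped.wk_eq {M : Tm} (h : Scoped 0 M) : wk M = M := h.ren_eq _

theorem syn_scoped_ren {k l : ℕ} {M : Tm} {ξ : ℕ → ℕ} (h : Scoped k M)
    (hξ : ∀ i < k, ξ i < l) : Scoped l (ren ξ M) := by
  have hup : ∀ {k l : ℕ} {ξ : ℕ → ℕ}, (∀ i < k, ξ i < l) → ∀ i < k + 1, upr ξ i < l + 1 := by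
    intro k l ξ hξ i hi
    cases i with
    | zero => simp
    | succ i => simp only [upr_succ]; exact Nat.succ_lt_succ (hξ i (by omega))
  induction M generalizing k l ξ with
  | var i => exact hξ i h
  | sort s => trivial
  | app M N ihM ihN => exact ⟨ihM h.1 hξ, ihN h.2 hξ⟩
  | lam A M ihA ihM => exact ⟨ihA h.1 hξ, ihM h.2 (hup hξ)⟩
  | pi A M ihA ihM => exact ⟨ihA h.1 hξ, ihM h.2 (hup hξ)⟩

theorem Scoped.wkS {k : ℕ} {M : Tm} (h : Scoped k M) : Scoped (k + 1) (wk M) := by
  exact syn_scoped_ren h (fun i hi => Nat.succ_lt_succ hi)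

theorem Scoped.subS {k l : ℕ} {M : Tm} {θ : ℕ → Tm} (h : Scoped k M)
    (hθ : ∀ i < k, Scoped l (θ i)) : Scoped l (sub θ M) := by
  have hup : ∀ {k l : ℕ} {θ : ℕ → Tm}, (∀ i < k, Scoped l (θ i)) →
      ∀ i < k + 1, Scoped (l + 1) (up θ i) := by
    intro k l θ hθ i hi
    cases i with
    | zero => exact Nat.succ_pos l
    | succ i => exact (hθ i (by omega)).wkS
  induction M generalizing k l θ with
  | var i => exact hθ i h
  | sort s => trivial
  | app M N ihM ihN => exact ⟨ihM h.1 hθ, ihN h.2 hθ⟩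
  | lam A M ihA ihM => exact ⟨ihA h.1 hθ, ihM h.2 (hup hθ)⟩
  | pi A M ihA ihM => exact ⟨ihA h.1 hθ, ihM h.2 (hup hθ)⟩

theorem CIn.mono {H H' : Set ℕ} {M : Tm} (h : CIn H M) (hH : H ⊆ H') : CIn H' M := by
  induction M with
  | var i => trivial
  | sort s =>
    cases s with
    | inl s => trivial
    | inr n => exact hH h
  | app M N ihM ihN => exact ⟨ihM h.1, ihN h.2⟩
  | lam A M ihA ihM => exact ⟨ihA h.1, ihM h.2⟩
  | pi A M ihA ihM => exact ⟨ihA h.1, ihM h.2⟩

theorem cin_univ (M : Tm) : CIn Set.univ M := by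
  induction M with
  | var i => trivial
  | sort s =>
    cases s with
    | inl s => trivial
    | inr n => exact Set.mem_univ n
  | app M N ihM ihN => exact ⟨ihM, ihN⟩
  | lam A M ihA ihM => exact ⟨ihA, ihM⟩
  | pi A M ihA ihM => exact ⟨ihA, ihM⟩

theorem gs_cst (θ : ℕ → Tm) (M : Tm) : gs θ cst M = sub θ M := by
  induction M generalizing θ with
  | var i => rfl
  | sort s => cases s <;> rfl
  | app M N ihM ihN => simp only [gs, sub_app, ihM, ihN]
  | lam A M ihA ihM =>
    simp only [gs, sub_lam, ihA]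
    exact congrArg _ (ihM (up θ))
  | pi A M ihA ihM =>
    simp only [gs, sub_pi, ihA]
    exact congrArg _ (ihM (up θ))

theorem gs_congr {k : ℕ} {H : Set ℕ} {M : Tm} {θ θ' f f' : ℕ → Tm} (h : Scoped k M)
    (hc : CIn H M) (hθ : ∀ i < k, θ i = θ' i) (hf : ∀ n ∈ H, f n = f' n) :
    gs θ f M = gs θ' f' M := by
  induction M generalizing k θ θ' f f' with
  | var i => exact hθ i h
  | sort s =>
    cases s with
    | inl s => rfl
    | inr n => exact hf n hc
  | app M N ihM ihN => simp only [gs]; rw [ihM h.1 hc.1 hθ hf, ihN h.2 hc.2 hθ hf]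
  | lam A M ihA ihM =>
    simp only [gs]
    rw [ihA h.1 hc.1 hθ hf,
      ihM (f' := fun n => wk (f' n)) h.2 hc.2 (syn_up_congr hθ) (fun n hn => by rw [hf n hn])]
  | pi A M ihA ihM =>
    simp only [gs]
    rw [ihA h.1 hc.1 hθ hf,
      ihM (f' := fun n => wk (f' n)) h.2 hc.2 (syn_up_congr hθ) (fun n hn => by rw [hf n hn])]

theorem syn_gs_ren (θ f : ℕ → Tm) (ξ : ℕ → ℕ) (M : Tm) :
    gs θ f (ren ξ M) = gs (fun i => θ (ξ i)) f M := by
  induction M generalizing θ f ξ with
  | var i => rfl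
  | sort s => cases s <;> rfl
  | app M N ihM ihN => simp only [gs, ren_app, ihM, ihN]
  | lam A M ihA ihM =>
    simp only [gs, ren_lam, ihA, ihM]; congr 2; funext i; cases i <;> rfl
  | pi A M ihA ihM =>
    simp only [gs, ren_pi, ihA, ihM]; congr 2; funext i; cases i <;> rfl

theorem syn_sub_gs (τ θ f : ℕ → Tm) (M : Tm) :
    sub τ (gs θ f M) = gs (fun i => sub τ (θ i)) (fun n => sub τ (f n)) M := by
  induction M generalizing τ θ f with
  | var i => rfl
  | sort s => cases s <;> rfl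
  | app M N ihM ihN => simp only [gs, sub_app, ihM, ihN]
  | lam A M ihA ihM =>
    simp only [gs, sub_lam, ihA, ihM, sub_up_wk]; congr 2; funext i
    cases i with
    | zero => rfl
    | succ i => simp only [up_succ, sub_up_wk]
  | pi A M ihA ihM =>
    simp only [gs, sub_pi, ihA, ihM, sub_up_wk]; congr 2; funext i
    cases i with
    | zero => rfl
    | succ i => simp only [up_succ, sub_up_wk]

theorem syn_wk_gs (θ f : ℕ → Tm) (M : Tm) :
    wk (gs θ f M) = gs (fun i => wk (θ i)) (fun n => wk (f n)) M := by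
  simp only [wk_eq_sub, syn_sub_gs]

theorem syn_gs_up_wk (θ f : ℕ → Tm) (M : Tm) :
    gs (up θ) (fun n => wk (f n)) (wk M) = wk (gs θ f M) := by
  rw [syn_wk_gs]
  exact syn_gs_ren _ _ Nat.succ M

theorem gs_sub (θ f τ : ℕ → Tm) (M : Tm) :
    gs θ f (sub τ M) = gs (fun i => gs θ f (τ i)) f M := by
  induction M generalizing τ θ f with
  | var i => rfl
  | sort s => cases s <;> rfl
  | app M N ihM ihN => simp only [gs, sub_app, ihM, ihN]
  | lam A M ihA ihM =>
    simp only [gs, sub_lam, ihA, ihM]; congr 2; funext i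
    cases i with
    | zero => rfl
    | succ i => simp only [up_succ, syn_gs_up_wk]
  | pi A M ihA ihM =>
    simp only [gs, sub_pi, ihA, ihM]; congr 2; funext i
    cases i with
    | zero => rfl
    | succ i => simp only [up_succ, syn_gs_up_wk]

theorem sub_gs (τ θ f : ℕ → Tm) (M : Tm) :
    sub τ (gs θ f M) = gs (fun i => sub τ (θ i)) (fun n => sub τ (f n)) M := by
  exact syn_sub_gs τ θ f M

theorem gs_up_wk (θ f : ℕ → Tm) (M : Tm) :
    gs (up θ) (fun n => wk (f n)) (wk M) = wk (gs θ f M) := by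
  exact syn_gs_up_wk θ f M

theorem wk_gs (θ f : ℕ → Tm) (M : Tm) :
    wk (gs θ f M) = gs (fun i => wk (θ i)) (fun n => wk (f n)) M := by
  exact syn_wk_gs θ f M

theorem gs_inst (θ f : ℕ → Tm) (N M : Tm) :
    gs θ f (inst N M) = inst (gs θ f N) (gs (up θ) (fun n => wk (f n)) M) := by
  simp only [inst, gs_sub, sub_gs, sub_scons_wk, sub_id]
  congr 1; funext i
  cases i with
  | zero => rfl
  | succ i => simp only [scons_succ, up_succ, sub_scons_wk, sub_id, gs]

/-! ### Beta steps -/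

theorem beta_app_inv {M N L : Tm} (h : Beta (.app M N) L) :
    (∃ A B, M = .lam A B ∧ L = inst N B) ∨ (∃ M', Beta M M' ∧ L = .app M' N) ∨
      (∃ N', Beta N N' ∧ L = .app M N') := by
  cases h with
  | redex A B N => exact Or.inl ⟨A, B, rfl, subst_eq _ _⟩
  | appL N h => exact Or.inr (Or.inl ⟨_, h, rfl⟩)
  | appR M h => exact Or.inr (Or.inr ⟨_, h, rfl⟩)

theorem beta_lam_inv {A M L : Tm} (h : Beta (.lam A M) L) :
    (∃ A', Beta A A' ∧ L = .lam A' M) ∨ (∃ M', Beta M M' ∧ L = .lam A M') := by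
  cases h with
  | lamA M h => exact Or.inl ⟨_, h, rfl⟩
  | lamM A h => exact Or.inr ⟨_, h, rfl⟩

theorem beta_pi_inv {A B L : Tm} (h : Beta (.pi A B) L) :
    (∃ A', Beta A A' ∧ L = .pi A' B) ∨ (∃ B', Beta B B' ∧ L = .pi A B') := by
  cases h with
  | piA M h => exact Or.inl ⟨_, h, rfl⟩
  | piB A h => exact Or.inr ⟨_, h, rfl⟩

theorem normal_var (i : ℕ) : Normal (.var i : Tm) := fun _ h => by cases h
theorem normal_sort (s : ℕ ⊕ ℕ) : Normal (.sort s : Tm) := fun _ h => by cases h

theorem normal_app_iff {M N : Tm} :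
    Normal (.app M N) ↔ Normal M ∧ Normal N ∧ ∀ A B, M ≠ .lam A B := by
  constructor
  · intro h
    refine ⟨fun M' hM => h _ (Beta.appL N hM), fun N' hN => h _ (Beta.appR M hN), ?_⟩
    rintro A B rfl
    exact h _ (Beta.redex A B N)
  · rintro ⟨h1, h2, h3⟩ L hL
    rcases beta_app_inv hL with ⟨A, B, hM, _⟩ | ⟨M', hM, _⟩ | ⟨N', hN, _⟩
    · exact h3 A B hM
    · exact h1 _ hM
    · exact h2 _ hN

theorem normal_lam_iff {A M : Tm} : Normal (.lam A M) ↔ Normal A ∧ Normal M := by
  constructor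
  · intro h
    exact ⟨fun A' hA => h _ (Beta.lamA M hA), fun M' hM => h _ (Beta.lamM A hM)⟩
  · rintro ⟨h1, h2⟩ L hL
    rcases beta_lam_inv hL with ⟨A', hA, _⟩ | ⟨M', hM, _⟩
    · exact h1 _ hA
    · exact h2 _ hM

theorem normal_pi_iff {A B : Tm} : Normal (.pi A B) ↔ Normal A ∧ Normal B := by
  constructor
  · intro h
    exact ⟨fun A' hA => h _ (Beta.piA B hA), fun B' hB => h _ (Beta.piB A hB)⟩
  · rintro ⟨h1, h2⟩ L hL
    rcases beta_pi_inv hL with ⟨A', hA, _⟩ | ⟨B', hB, _⟩
    · exact h1 _ hA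
    · exact h2 _ hB

theorem normal_neu_app {M N : Tm} (h : Normal (.app M N)) : Neu (.app M N) := by
  induction M generalizing N with
  | var i => intro A B hh; cases hh
  | sort s => intro A B hh; cases hh
  | app M M' ihM _ => exact ihM (normal_app_iff.1 h).1
  | lam A M _ _ => exact absurd rfl ((normal_app_iff.1 h).2.2 A M)
  | pi A M _ _ => intro A B hh; cases hh

theorem beta_sub {M N : Tm} (θ : ℕ → Tm) (h : Beta M N) : Beta (sub θ M) (sub θ N) := by
  induction h generalizing θ with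
  | redex A M N => rw [subst_eq, sub_inst']; exact beta_redex _ _ _
  | appL N _ ih => exact Beta.appL _ (ih θ)
  | appR M _ ih => exact Beta.appR _ (ih θ)
  | lamA M _ ih => exact Beta.lamA _ (ih θ)
  | lamM A _ ih => exact Beta.lamM _ (ih (up θ))
  | piA B _ ih => exact Beta.piA _ (ih θ)
  | piB A _ ih => exact Beta.piB _ (ih (up θ))

theorem beta_ren {M N : Tm} (ξ : ℕ → ℕ) (h : Beta M N) : Beta (ren ξ M) (ren ξ N) := by
  rw [ren_eq_sub, ren_eq_sub]; exact beta_sub _ h

theorem beta_gs {M N : Tm} (θ f : ℕ → Tm) (h : Beta M N) : Beta (gs θ f M) (gs θ f N) := by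
  induction h generalizing θ f with
  | redex A M N => rw [subst_eq, gs_inst]; exact beta_redex _ _ _
  | appL N _ ih => exact Beta.appL _ (ih θ f)
  | appR M _ ih => exact Beta.appR _ (ih θ f)
  | lamA M _ ih => exact Beta.lamA _ (ih θ f)
  | lamM A _ ih => exact Beta.lamM _ (ih _ _)
  | piA B _ ih => exact Beta.piA _ (ih θ f)
  | piB A _ ih => exact Beta.piB _ (ih _ _)

theorem beta_apps {M N : Tm} (h : Beta M N) (ts : List Tm) : Beta (apps M ts) (apps N ts) := by
  induction ts generalizing M N with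
  | nil => exact h
  | cons t ts ih => exact ih (Beta.appL t h)

theorem syn_ren_eq_lam {ξ : ℕ → ℕ} {M A B : Tm} (h : ren ξ M = .lam A B) :
    ∃ A' B', M = .lam A' B' ∧ A = ren ξ A' ∧ B = ren (upr ξ) B' := by
  cases M with
  | lam A' B' =>
    simp only [ren_lam, Term.lam.injEq] at h
    exact ⟨A', B', rfl, h.1.symm, h.2.symm⟩
  | _ => cases h

/-- Steps of a renamed term come from steps of the term. -/
theorem beta_ren_reflect {ξ : ℕ → ℕ} {M L : Tm} (h : Beta (ren ξ M) L) :
    ∃ N, Beta M N ∧ L = ren ξ N := by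
  induction M generalizing ξ L with
  | var i => exact absurd h (normal_var _ _)
  | sort s => exact absurd h (normal_sort _ _)
  | app M N ihM ihN =>
    rcases beta_app_inv h with ⟨A, B, hM, rfl⟩ | ⟨M', hM, rfl⟩ | ⟨N', hN, rfl⟩
    · obtain ⟨A', B', rfl, rfl, rfl⟩ := syn_ren_eq_lam hM
      exact ⟨_, beta_redex A' B' N, (ren_inst _ _ _).symm⟩
    · obtain ⟨M'', h1, rfl⟩ := ihM hM
      exact ⟨_, Beta.appL N h1, rfl⟩
    · obtain ⟨N'', h1, rfl⟩ := ihN hN
      exact ⟨_, Beta.appR M h1, rfl⟩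
  | lam A M ihA ihM =>
    rcases beta_lam_inv h with ⟨A', hA, rfl⟩ | ⟨M', hM, rfl⟩
    · obtain ⟨A'', h1, rfl⟩ := ihA hA
      exact ⟨_, Beta.lamA M h1, rfl⟩
    · obtain ⟨M'', h1, rfl⟩ := ihM hM
      exact ⟨_, Beta.lamM A h1, rfl⟩
  | pi A M ihA ihM =>
    rcases beta_pi_inv h with ⟨A', hA, rfl⟩ | ⟨M', hM, rfl⟩
    · obtain ⟨A'', h1, rfl⟩ := ihA hA
      exact ⟨_, Beta.piA M h1, rfl⟩
    · obtain ⟨M'', h1, rfl⟩ := ihM hM
      exact ⟨_, Beta.piB A h1, rfl⟩

theorem Atm.wkA {M : Tm} (h : Atm M) : Atm (wk M) := by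
  refine ⟨fun L hL => ?_, fun A B hh => ?_⟩
  · obtain ⟨N, hN, _⟩ := beta_ren_reflect hL
    exact h.1 N hN
  · obtain ⟨A', B', hM, _⟩ := syn_ren_eq_lam hh
    exact h.2 A' B' hM

theorem atm_var (i : ℕ) : Atm (.var i) := ⟨normal_var i, fun _ _ h => by cases h⟩
theorem atm_sort (s : ℕ ⊕ ℕ) : Atm (.sort s) := ⟨normal_sort s, fun _ _ h => by cases h⟩

theorem syn_atm_up {θ : ℕ → Tm} (hθ : ∀ i, Atm (θ i)) : ∀ i, Atm (up θ i) := by
  intro i
  cases i with
  | zero => exact atm_var 0
  | succ i => exact (hθ i).wkA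

theorem syn_gs_eq_lam {θ f : ℕ → Tm} (hθ : ∀ i, Atm (θ i)) (hf : ∀ n, Atm (f n)) {M A B : Tm}
    (h : gs θ f M = .lam A B) :
    ∃ A' B', M = .lam A' B' ∧ A = gs θ f A' ∧ B = gs (up θ) (fun n => wk (f n)) B' := by
  cases M with
  | var i => exact absurd h ((hθ i).2 A B)
  | sort s =>
    cases s with
    | inl s => cases h
    | inr n => exact absurd h ((hf n).2 A B)
  | app M N => cases h
  | lam A' B' =>
    simp only [gs, Term.lam.injEq] at h
    exact ⟨A', B', rfl, h.1.symm, h.2.symm⟩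
  | pi A' B' => cases h

/-- Substituting normal non-abstractions creates no redex. -/
theorem beta_gs_reflect {θ f : ℕ → Tm} (hθ : ∀ i, Atm (θ i)) (hf : ∀ n, Atm (f n)) {M L : Tm}
    (h : Beta (gs θ f M) L) : ∃ N, Beta M N ∧ L = gs θ f N := by
  induction M generalizing θ f L with
  | var i => exact absurd h ((hθ i).1 _)
  | sort s =>
    cases s with
    | inl s => exact absurd h (normal_sort _ _)
    | inr n => exact absurd h ((hf n).1 _)
  | app M N ihM ihN =>
    rcases beta_app_inv h with ⟨A, B, hM, rfl⟩ | ⟨M', hM, rfl⟩ | ⟨N', hN, rfl⟩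
    · obtain ⟨A', B', rfl, rfl, rfl⟩ := syn_gs_eq_lam hθ hf hM
      exact ⟨_, beta_redex A' B' N, (gs_inst _ _ _ _).symm⟩
    · obtain ⟨M'', h1, rfl⟩ := ihM hθ hf hM
      exact ⟨_, Beta.appL N h1, rfl⟩
    · obtain ⟨N'', h1, rfl⟩ := ihN hθ hf hN
      exact ⟨_, Beta.appR M h1, rfl⟩
  | lam A M ihA ihM =>
    rcases beta_lam_inv h with ⟨A', hA, rfl⟩ | ⟨M', hM, rfl⟩
    · obtain ⟨A'', h1, rfl⟩ := ihA hθ hf hA
      exact ⟨_, Beta.lamA M h1, rfl⟩
    · obtain ⟨M'', h1, rfl⟩ := ihM (syn_atm_up hθ) (fun n => (hf n).wkA) hM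
      exact ⟨_, Beta.lamM A h1, rfl⟩
  | pi A M ihA ihM =>
    rcases beta_pi_inv h with ⟨A', hA, rfl⟩ | ⟨M', hM, rfl⟩
    · obtain ⟨A'', h1, rfl⟩ := ihA hθ hf hA
      exact ⟨_, Beta.piA M h1, rfl⟩
    · obtain ⟨M'', h1, rfl⟩ := ihM (syn_atm_up hθ) (fun n => (hf n).wkA) hM
      exact ⟨_, Beta.piB A h1, rfl⟩

theorem beta_sub_reflect {θ : ℕ → Tm} (hθ : ∀ i, Atm (θ i)) {M L : Tm}
    (h : Beta (sub θ M) L) : ∃ N, Beta M N ∧ L = sub θ N := by
  rw [← gs_cst] at h
  obtain ⟨N, h1, h2⟩ := beta_gs_reflect hθ (fun n => atm_sort _) h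
  exact ⟨N, h1, by rw [h2, gs_cst]⟩

theorem wn_of_gs {θ f : ℕ → Tm} (hθ : ∀ i, Atm (θ i)) (hf : ∀ n, Atm (f n)) {M : Tm}
    (h : WN (gs θ f M)) : WN M := by
  obtain ⟨L, hL, hn⟩ := h
  have key : ∀ L, Red (gs θ f M) L → ∃ N, Red M N ∧ L = gs θ f N := by
    intro L hL
    induction hL with
    | refl => exact ⟨M, Relation.ReflTransGen.refl, rfl⟩
    | tail _ hb ih =>
      obtain ⟨N, h1, rfl⟩ := ih
      obtain ⟨N', h2, rfl⟩ := beta_gs_reflect hθ hf hb
      exact ⟨N', h1.tail h2, rfl⟩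
  obtain ⟨N, h1, rfl⟩ := key L hL
  exact ⟨N, h1, fun N' hN' => hn _ (beta_gs θ f hN')⟩

theorem wn_of_sub {θ : ℕ → Tm} (hθ : ∀ i, Atm (θ i)) {M : Tm} (h : WN (sub θ M)) : WN M := by
  rw [← gs_cst] at h
  exact wn_of_gs hθ (fun n => atm_sort _) h

theorem normal_ren {M : Tm} (h : Normal M) (ξ : ℕ → ℕ) : Normal (ren ξ M) := by
  intro L hL
  obtain ⟨N, hN, _⟩ := beta_ren_reflect hL
  exact h N hN

/-- A step from an application spine with a head that is not an abstraction. -/
theorem beta_apps_inv {h L : Tm} {ts : List Tm} (hn : Neu h) (hb : Beta (apps h ts) L) :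
    (∃ h', Beta h h' ∧ L = apps h' ts) ∨
      ∃ us t t' vs, ts = us ++ t :: vs ∧ Beta t t' ∧ L = apps h (us ++ t' :: vs) := by
  induction ts generalizing h with
  | nil => exact Or.inl ⟨L, hb, rfl⟩
  | cons t ts ih =>
    have hn' : Neu (.app h t) := hn
    rcases ih hn' hb with ⟨h', h1, rfl⟩ | ⟨us, u, u', vs, rfl, h1, rfl⟩
    · rcases beta_app_inv h1 with ⟨A, B, rfl, _⟩ | ⟨M', hM, rfl⟩ | ⟨N', hN, rfl⟩
      · exact absurd rfl (hn A B)
      · exact Or.inl ⟨M', hM, rfl⟩
      · exact Or.inr ⟨[], t, N', ts, rfl, hN, rfl⟩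
    · exact Or.inr ⟨t :: us, u, u', vs, rfl, h1, rfl⟩

theorem Neu.beta {M N : Tm} (h : Neu M) (hb : Beta M N) : Neu N := by
  induction hb with
  | redex A M N => exact absurd rfl (h A M)
  | appL N _ ih => exact ih h
  | appR M _ _ => exact h
  | lamA M _ _ => exact absurd rfl (h _ _)
  | lamM A _ _ => exact absurd rfl (h _ _)
  | piA B _ _ => intro A' B' hh; cases hh
  | piB A _ _ => intro A' B' hh; cases hh

theorem syn_red_map {g : Tm → Tm} (hg : ∀ M N, Beta M N → Beta (g M) (g N)) {M N : Tm}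
    (h : Red M N) : Red (g M) (g N) := by
  induction h with
  | refl => exact Relation.ReflTransGen.refl
  | tail _ hb ih => exact ih.tail (hg _ _ hb)

theorem red_app {M M' N N' : Tm} (h1 : Red M M') (h2 : Red N N') :
    Red (.app M N) (.app M' N') := by
  exact (syn_red_map (g := fun X => .app X N) (fun _ _ h => Beta.appL N h) h1).trans
    (syn_red_map (g := fun X => .app M' X) (fun _ _ h => Beta.appR M' h) h2)

theorem red_lam {A A' M M' : Tm} (h1 : Red A A') (h2 : Red M M') :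
    Red (.lam A M) (.lam A' M') := by
  exact (syn_red_map (g := fun X => .lam X M) (fun _ _ h => Beta.lamA M h) h1).trans
    (syn_red_map (g := fun X => .lam A' X) (fun _ _ h => Beta.lamM A' h) h2)

theorem red_pi {A A' B B' : Tm} (h1 : Red A A') (h2 : Red B B') :
    Red (.pi A B) (.pi A' B') := by
  exact (syn_red_map (g := fun X => .pi X B) (fun _ _ h => Beta.piA B h) h1).trans
    (syn_red_map (g := fun X => .pi A' X) (fun _ _ h => Beta.piB A' h) h2)

theorem red_sub {M N : Tm} (θ : ℕ → Tm) (h : Red M N) : Red (sub θ M) (sub θ N) := by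
  exact syn_red_map (g := sub θ) (fun _ _ h => beta_sub θ h) h

theorem red_ren {M N : Tm} (ξ : ℕ → ℕ) (h : Red M N) : Red (ren ξ M) (ren ξ N) := by
  exact syn_red_map (g := ren ξ) (fun _ _ h => beta_ren ξ h) h

theorem red_sub_left {θ θ' : ℕ → Tm} (h : ∀ i, Red (θ i) (θ' i)) (M : Tm) :
    Red (sub θ M) (sub θ' M) := by
  have hup : ∀ {θ θ' : ℕ → Tm}, (∀ i, Red (θ i) (θ' i)) → ∀ i, Red (up θ i) (up θ' i) := by
    intro θ θ' h i
    cases i with
    | zero => exact Relation.ReflTransGen.refl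
    | succ i => exact red_ren Nat.succ (h i)
  induction M generalizing θ θ' with
  | var i => exact h i
  | sort s => exact Relation.ReflTransGen.refl
  | app M N ihM ihN => exact red_app (ihM h) (ihN h)
  | lam A M ihA ihM => exact red_lam (ihA h) (ihM (hup h))
  | pi A M ihA ihM => exact red_pi (ihA h) (ihM (hup h))

theorem red_apps {M M' : Tm} {ts ts' : List Tm} (h : Red M M') (hts : List.Forall₂ Red ts ts') :
    Red (apps M ts) (apps M' ts') := by
  induction hts generalizing M M' with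
  | nil => exact h
  | cons ht _ ih => exact ih (red_app h ht)

theorem red_pi_inv {A B L : Tm} (h : Red (.pi A B) L) :
    ∃ A' B', L = .pi A' B' ∧ Red A A' ∧ Red B B' := by
  induction h with
  | refl => exact ⟨A, B, rfl, Relation.ReflTransGen.refl, Relation.ReflTransGen.refl⟩
  | tail _ hb ih =>
    obtain ⟨A', B', rfl, h1, h2⟩ := ih
    rcases beta_pi_inv hb with ⟨A'', hA, rfl⟩ | ⟨B'', hB, rfl⟩
    · exact ⟨A'', B', rfl, h1.tail hA, h2⟩
    · exact ⟨A', B'', rfl, h1, h2.tail hB⟩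

theorem red_lam_inv {A M L : Tm} (h : Red (.lam A M) L) :
    ∃ A' M', L = .lam A' M' ∧ Red A A' ∧ Red M M' := by
  induction h with
  | refl => exact ⟨A, M, rfl, Relation.ReflTransGen.refl, Relation.ReflTransGen.refl⟩
  | tail _ hb ih =>
    obtain ⟨A', B', rfl, h1, h2⟩ := ih
    rcases beta_lam_inv hb with ⟨A'', hA, rfl⟩ | ⟨B'', hB, rfl⟩
    · exact ⟨A'', B', rfl, h1.tail hA, h2⟩
    · exact ⟨A', B'', rfl, h1, h2.tail hB⟩

theorem normal_red_eq {M L : Tm} (hn : Normal M) (h : Red M L) : L = M := by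
  induction h with
  | refl => rfl
  | tail _ hb ih => subst ih; exact absurd hb (hn _)

theorem syn_forall₂_step {ts us vs : List Tm} {t t' : Tm}
    (h : List.Forall₂ Red ts (us ++ t :: vs)) (hb : Beta t t') :
    List.Forall₂ Red ts (us ++ t' :: vs) := by
  induction us generalizing ts with
  | nil =>
    cases h with
    | cons h1 h2 => exact List.Forall₂.cons (h1.tail hb) h2
  | cons u us ih =>
    cases h with
    | cons h1 h2 => exact List.Forall₂.cons h1 (ih h2)

/-- Reducts of a spine headed by a variable or an atom. -/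
theorem red_apps_inv {h L : Tm} {ts : List Tm} (hh : (∃ i, h = .var i) ∨ ∃ s, h = .sort s)
    (hr : Red (apps h ts) L) : ∃ ts', L = apps h ts' ∧ List.Forall₂ Red ts ts' := by
  have hn : Neu h := by
    rcases hh with ⟨i, rfl⟩ | ⟨s, rfl⟩ <;> intro A B hAB <;> cases hAB
  have hno : Normal h := by
    rcases hh with ⟨i, rfl⟩ | ⟨s, rfl⟩
    · exact normal_var i
    · exact normal_sort s
  induction hr with
  | refl => exact ⟨ts, rfl, List.forall₂_same.2 (fun _ _ => Relation.ReflTransGen.refl)⟩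
  | tail _ hb ih =>
    obtain ⟨ts', rfl, h1⟩ := ih
    rcases beta_apps_inv hn hb with ⟨h', h2, _⟩ | ⟨us, t, t', vs, rfl, h2, rfl⟩
    · exact absurd h2 (hno _)
    · exact ⟨_, rfl, syn_forall₂_step h1 h2⟩

end Crest.Agent.R298
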