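import Crest.Agent.R298.Cand

/-! Row 298. Tame kinds: the domains along spines are well-founded. -/

set_option autoImplicit false

namespace Crest.Agent.R298
open Crest.LogicCS.PTS Crest.LogicCS.PTS.Term

/-- Some spine of closed normal arguments leads to a sort of the component. -/
inductive Comp (P : Spec ℕ) (s₀ : ℕ) : Tm → Prop
  | fin (u : ℕ) : InS P s₀ u → Comp P s₀ (srt u)
  | step (A K N : Tm) : Normal N → HasT P N A → Comp P s₀ (nf (inst N K)) → Comp P s₀ (.pi A K)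

/-- `Dom A K`: `A` is a domain met along a completable spine of `K`. -/
inductive Dom (P : Spec ℕ) (s₀ : ℕ) : Tm → Tm → Prop
  | here (A K : Tm) : Comp P s₀ (.pi A K) → Dom P s₀ A (.pi A K)
  | there (A' A K N : Tm) : Normal N → HasT P N A → Dom P s₀ A' (nf (inst N K)) →
      Dom P s₀ A' (.pi A K)

def Tame (P : Spec ℕ) (s₀ : ℕ) (K : Tm) : Prop := Acc (Dom P s₀) K

def Pol (P : Spec ℕ) (s₀ : ℕ) (K : Tm) (π : Bool) : Prop :=
  ∃ q, Ty P Set.univ [] K (srt q) ∧ PolS P s₀ q π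

def PT (P : Spec ℕ) (s₀ : ℕ) (K : Tm) (π : Bool) : Prop := Tame P s₀ K ∨ Pol P s₀ K π

variable {P : Spec ℕ} {s₀ : ℕ}

theorem tame_of_not_pi {K : Tm} (h : ∀ A B, K ≠ .pi A B) : Tame P s₀ K := by
  refine Acc.intro _ fun A hA => ?_
  cases hA with
  | here => exact absurd rfl (h _ _)
  | there => exact absurd rfl (h _ _)

theorem tame_sort (s : ℕ ⊕ ℕ) : Tame P s₀ (.sort s) := tame_of_not_pi fun _ _ h => by cases h

theorem Tame.dom {A K : Tm} (h : Tame P s₀ (.pi A K)) (hc : Comp P s₀ (.pi A K)) :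
    Tame P s₀ A := Acc.inv h (Dom.here A K hc)

theorem Tame.cod {A K N : Tm} (h : Tame P s₀ (.pi A K)) (hN : Normal N) (hA : HasT P N A) :
    Tame P s₀ (nf (inst N K)) :=
  Acc.intro _ fun A' hA' => Acc.inv h (Dom.there A' A K N hN hA hA')

theorem tame_pi {A K : Tm} (h1 : Comp P s₀ (.pi A K) → Tame P s₀ A)
    (h2 : ∀ N, Normal N → HasT P N A → Tame P s₀ (nf (inst N K))) : Tame P s₀ (.pi A K) := by
  refine Acc.intro _ fun A' hA' => ?_
  cases hA' with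
  | here _ hc => exact h1 hc
  | there _ _ N hN hA hd => exact Acc.inv (h2 N hN hA) hd

theorem tame_ty_cod {A K N : Tm} {r₁ r₂ : ℕ} (hA : Ty P Set.univ [] A (srt r₁))
    (hK : Ty P Set.univ [A] K (srt r₂)) (hN : HasT P N A) :
    Ty P Set.univ [] (nf (inst N K)) (srt r₂) :=
  (hK.instT (hN.ty hA)).nfT Wf.nil

theorem Comp.pi_inv {A K : Tm} (h : Comp P s₀ (.pi A K)) :
    ∃ N, Normal N ∧ HasT P N A ∧ Comp P s₀ (nf (inst N K)) := by
  cases h with
  | step _ _ N h1 h2 h3 => exact ⟨N, h1, h2, h3⟩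

theorem Comp.loaded (hP : Hyp P) {K : Tm} (h : Comp P s₀ K) {q : ℕ}
    (hK : Ty P Set.univ [] K (srt q)) : Loaded P s₀ q := by
  induction h generalizing q with
  | fin u hu => exact ⟨q, u, CStar.refl q, hK.gen_srt_srt, hu⟩
  | step A K N hN hA _ ih =>
    obtain ⟨r₁, r₂, h1, h2, hr⟩ := hK.gen_pi_srt
    exact Loaded.step (lrule_of_ty hP Wf.nil h1 h2 hr) (ih (tame_ty_cod h1 h2 hA))

theorem PT.cod (hP : Hyp P) {A K N : Tm} {π : Bool} (h : PT P s₀ (.pi A K) π) (hN : Normal N)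
    (hA : HasT P N A) : PT P s₀ (nf (inst N K)) π := by
  rcases h with h | ⟨q, hq, hp⟩
  · exact Or.inl (h.cod hN hA)
  · obtain ⟨r₁, r₂, h1, h2, hr⟩ := hq.gen_pi_srt
    exact Or.inr ⟨r₂, tame_ty_cod h1 h2 hA, hp.cod (lrule_of_ty hP Wf.nil h1 h2 hr)⟩

theorem PT.dom (hP : Hyp P) {A K : Tm} {π : Bool} (h : PT P s₀ (.pi A K) π)
    (hc : Comp P s₀ (.pi A K)) : PT P s₀ A (!π) := by
  rcases h with h | ⟨q, hq, hp⟩
  · exact Or.inl (h.dom hc)
  · obtain ⟨r₁, r₂, h1, h2, hr⟩ := hq.gen_pi_srt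
    obtain ⟨N, -, hA, hc'⟩ := hc.pi_inv
    exact Or.inr ⟨r₁, h1, hp.dom (lrule_of_ty hP Wf.nil h1 h2 hr)
      (hc'.loaded hP (tame_ty_cod h1 h2 hA))⟩

/-- Decomposition of a closed instance of a product. -/
theorem tame_sub_pi (hP : Hyp P) {Δ : List Tm} {A K : Tm} {r₁ r₂ r₃ : ℕ} {z : ℕ → Tm}
    (hA : Ty P Set.univ Δ A (srt r₁)) (hK : Ty P Set.univ (A :: Δ) K (srt r₂))
    (hr : P.rule r₁ r₂ r₃) (hz : TSub P Set.univ [] Δ z)
    (h1 : (∀ r, Ty P Set.univ (A :: Δ) K (srt r) → Loaded P s₀ r) → Tame P s₀ (nf (sub z A)))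
    (h2 : ∀ N, Ty P Set.univ [] N (sub z A) → Tame P s₀ (nf (sub (scons N z) K))) :
    Tame P s₀ (nf (sub z (.pi A K))) := by
  have hw : WN (.pi (sub z A) (sub (up z) K)) := hP.ty_wn Wf.nil ((Ty.prod hA hK hr).subT hz)
  have hA' : Ty P Set.univ [] (sub z A) (srt r₁) := hA.subT hz
  have key : ∀ N, HasT P N (nf (sub z A)) → Ty P Set.univ [] N (sub z A) ∧
      nf (inst N (nf (sub (up z) K))) = nf (sub (scons N z) K) := fun N hN => by
    have hN' : Ty P Set.univ [] N (sub z A) := (hN.conv (conv_symm (conv_nf _))).ty hA'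
    refine ⟨hN', (nf_congr ?_ (hP.ty_wn Wf.nil (hK.subT (hz.cons hN')))).symm⟩
    rw [← inst_sub_up]
    exact conv_inst (conv_refl N) (conv_nf _)
  show Tame P s₀ (nf (.pi (sub z A) (sub (up z) K)))
  rw [nf_pi hw]
  refine tame_pi (fun hc => h1 fun r hr' => ?_) fun N _ hN => ?_
  · obtain ⟨N, -, hN, hc'⟩ := hc.pi_inv
    rw [(key N hN).2] at hc'
    exact hc'.loaded hP ((hr'.subT (hz.cons (key N hN).1)).nfT Wf.nil)
  · rw [(key N hN).2]
    exact h2 N (key N hN).1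

theorem tame_sub_cst {K : Tm} {n : ℕ} (hh : head K = cst n) {z : ℕ → Tm} (hw : WN (sub z K)) :
    Tame P s₀ (nf (sub z K)) := by
  rw [← apps_head_args K, hh, sub_apps] at hw ⊢
  have hn : Neu (sub z (cst n)) := fun A B h => by cases h
  rw [nf_apps hn hw]
  refine tame_of_not_pi fun A B h => ?_
  have := congrArg head h
  rw [head_apps, show sub z (cst n) = cst n from rfl, nf_sort] at this
  cases this

theorem tame_look_of_head {Δ : List Tm} {K T : Tm} {i : ℕ} (h : Ty P Set.univ Δ K T)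
    (hh : head K = .var i) : ∃ A, Look Δ i A := by
  rw [← apps_head_args K, hh] at h
  obtain ⟨T', h'⟩ := h.gen_apps.1
  obtain ⟨A, hA, -⟩ := h'.gen_var
  exact ⟨A, hA⟩

theorem tame_kr_cod {a b c : ℕ} (h : LRule P a b c) : KR P s₀ c b := ⟨_, KW.cod h (KW.refl b)⟩

theorem tame_kr_dom {a b c : ℕ} (h : LRule P a b c) (hl : Loaded P s₀ b) : KR P s₀ c a :=
  ⟨_, KW.dom h hl (KW.refl a)⟩

theorem tame_keq {q x y : ℕ} (hx : KEq P s₀ q x) (hy : KEq P s₀ q y) : KEq P s₀ x y :=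
  ⟨hx.2.trans hy.1, hy.2.trans hx.1⟩

/-- No loaded domain edge inside the class of `q`: all domains have a lower sort. -/
theorem tame_caseA (hP : Hyp P) {q : ℕ}
    (hA : ¬ ∃ r₁ r₂ r₃, LRule P r₁ r₂ r₃ ∧ Loaded P s₀ r₂ ∧ KEq P s₀ q r₁ ∧ KEq P s₀ q r₃)
    {A K : Tm} (hd : Dom P s₀ A K) : ∀ x, Normal K → Ty P Set.univ [] K (srt x) → KR P s₀ q x →
      Normal A ∧ ∃ y, Ty P Set.univ [] A (srt y) ∧ KR P s₀ q y ∧ ¬ KR P s₀ y q := by
  induction hd with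
  | here K hc =>
    intro x hn hK hx
    obtain ⟨r₁, r₂, h1, h2, hr⟩ := hK.gen_pi_srt
    obtain ⟨N, -, hN, hc'⟩ := hc.pi_inv
    have hl := hc'.loaded hP (tame_ty_cod h1 h2 hN)
    have hr' := lrule_of_ty hP Wf.nil h1 h2 hr
    have k := tame_kr_dom hr' hl
    exact ⟨(normal_pi_iff.1 hn).1, r₁, h1, hx.trans k,
      fun k' => hA ⟨r₁, r₂, x, hr', hl, ⟨hx.trans k, k'⟩, hx, k.trans k'⟩⟩
  | there B K N _ hN _ ih =>
    intro x _ hK hx
    obtain ⟨r₁, r₂, h1, h2, hr⟩ := hK.gen_pi_srt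
    exact ih r₂ (normal_nf (hP.ty_wn Wf.nil (h2.instT (hN.ty h1)))) (tame_ty_cod h1 h2 hN)
      (hx.trans (tame_kr_cod (lrule_of_ty hP Wf.nil h1 h2 hr)))

/-- A loaded domain edge inside the class of `q`: no variable can be the head of a kind. -/
theorem tame_caseB (hP : Hyp P) (hc : ¬ Config P s₀) {q : ℕ} (h1 : PolS P s₀ q true)
    (h2 : PolS P s₀ q false)
    (low : ∀ y, KR P s₀ q y → ¬ KR P s₀ y q → ∀ K, Ty P Set.univ [] K (srt y) → Tame P s₀ (nf K))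
    {e₁ e₂ e₃ : ℕ} (he : LRule P e₁ e₂ e₃) (hl : Loaded P s₀ e₂) (k₁ : KEq P s₀ q e₁)
    (k₃ : KEq P s₀ q e₃) (K : Tm) : ∀ (Δ : List Tm) (x : ℕ) (z : ℕ → Tm), Wf P Set.univ Δ →
      (∀ i A, Look Δ i A → ∃ m, Ty P Set.univ Δ A (srt m) ∧
        ¬ ∃ n t, CStar P m n ∧ P.ax t n ∧ KEq P s₀ q t) →
      Normal K → Ty P Set.univ Δ K (srt x) → KEq P s₀ q x → TSub P Set.univ [] Δ z →
      Tame P s₀ (nf (sub z K)) := by
  have atom : ∀ K : Tm, (∀ A B, K ≠ .pi A B) → ∀ (Δ : List Tm) (x : ℕ) (z : ℕ → Tm),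
      Wf P Set.univ Δ → (∀ i A, Look Δ i A → ∃ m, Ty P Set.univ Δ A (srt m) ∧
        ¬ ∃ n t, CStar P m n ∧ P.ax t n ∧ KEq P s₀ q t) →
      Normal K → Ty P Set.univ Δ K (srt x) → KEq P s₀ q x → TSub P Set.univ [] Δ z →
      Tame P s₀ (nf (sub z K)) := by
    intro K hK Δ x z hΔ hv hn hty hx hz
    rcases hty.normal_cases hn with ⟨A, B, rfl⟩ | ⟨A, B, rfl⟩ | ⟨s, rfl⟩ | ⟨i, hi⟩ | ⟨n, hh⟩
    · exact absurd (conv_refl _) hty.lam_not_srt
    · exact absurd rfl (hK A B)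
    · rw [show sub z (srt s) = srt s from rfl, nf_sort]
      exact tame_sort _
    · obtain ⟨A, hA⟩ := tame_look_of_head hty hi
      obtain ⟨m, hm, hNH⟩ := hv i A hA
      obtain ⟨T₁, n, c1, c2, c3⟩ := Ty.chain hP hΔ hA hm hi hty
      exact absurd ⟨n, x, c3,
        (c2.sr_red hΔ (conv_normal_red c1 (normal_sort _))).gen_srt_srt, hx⟩ hNH
    · exact tame_sub_cst hh (hP.ty_wn Wf.nil (hty.subT hz))
  induction K with
  | pi A K ihA ihK =>
    intro Δ x z hΔ hv hn hty hx hz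
    obtain ⟨r₁, r₂, t1, t2, hr⟩ := hty.gen_pi_srt
    have hr' := lrule_of_ty hP hΔ t1 t2 hr
    obtain ⟨n1, n2⟩ := normal_pi_iff.1 hn
    refine tame_sub_pi hP t1 t2 hr hz (fun hL => ?_) fun N hN => ?_
    · have k := hx.1.trans (tame_kr_dom hr' (hL r₂ t2))
      by_cases k' : KR P s₀ r₁ q
      · exact ihA Δ r₁ z hΔ hv n1 t1 ⟨k, k'⟩ hz
      · exact low r₁ k k' _ (t1.subT hz)
    · have k := hx.1.trans (tame_kr_cod hr')
      by_cases k' : KR P s₀ r₂ q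
      · refine ihK (A :: Δ) r₂ _ (hΔ.cons t1) (fun i B hB => ?_) n2 t2 ⟨k, k'⟩ (hz.cons hN)
        cases hB with
        | here =>
          refine ⟨r₁, t1.wkT A, ?_⟩
          rintro ⟨n, t, c1, c2, c3⟩
          exact hc ⟨r₁, r₂, x, n, t, e₁, e₂, e₃, hr', c1, c2, he, hl, tame_keq hx ⟨k, k'⟩,
            tame_keq hx c3, tame_keq hx k₁, tame_keq hx k₃, PolS.mixed h1 h2 hx.1⟩
        | there _ hB =>
          obtain ⟨m, hm, hNH⟩ := hv _ _ hB
          exact ⟨m, hm.wkT A, hNH⟩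
      · exact low r₂ k k' _ (t2.subT (hz.cons hN))
  | _ => exact atom _ fun _ _ h => by cases h

/-- Without the configuration, a kind of a sort occurring with both polarities is tame. -/
theorem tame_of_mixed (hP : Hyp P) (hc : ¬ Config P s₀) {q : ℕ} (h1 : PolS P s₀ q true)
    (h2 : PolS P s₀ q false) {K : Tm} (hK : Ty P Set.univ [] K (srt q)) : Tame P s₀ (nf K) := by
  induction q using kr_ind (s₀ := s₀) hP generalizing K with
  | h q ih =>
    have low : ∀ y, KR P s₀ q y → ¬ KR P s₀ y q → ∀ K, Ty P Set.univ [] K (srt y) →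
        Tame P s₀ (nf K) := fun y k k' K hK =>
      ih y k k' (PolS.mixed h1 h2 k).1 (PolS.mixed h1 h2 k).2 hK
    have hn : Normal (nf K) := normal_nf (hP.ty_wn Wf.nil hK)
    have hK' := hK.nfT Wf.nil
    by_cases hA : ∃ r₁ r₂ r₃, LRule P r₁ r₂ r₃ ∧ Loaded P s₀ r₂ ∧ KEq P s₀ q r₁ ∧ KEq P s₀ q r₃
    · obtain ⟨e₁, e₂, e₃, he, hl, k₁, k₃⟩ := hA
      have := tame_caseB hP hc h1 h2 low he hl k₁ k₃ (nf K) [] q Term.var Wf.nil
        (fun _ _ h => by cases h) hn hK' ⟨KR.refl q, KR.refl q⟩ (TSub.nil _)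
      rwa [sub_id, nf_nf] at this
    · refine Acc.intro _ fun A hd => ?_
      obtain ⟨hnA, y, hy, k, k'⟩ := tame_caseA hP hA hd q hn hK' (KR.refl q)
      have := low y k k' A hy
      rwa [nf_of_normal hnA] at this

theorem tame_of_pol_aux (hP : Hyp P) (hc : ¬ Config P s₀) (K : Tm) :
    ∀ (Δ : List Tm) (q q' : ℕ) (p : Bool) (z : ℕ → Tm), Wf P Set.univ Δ → Normal K →
      Ty P Set.univ Δ K (srt q) → Ty P Set.univ Δ K (srt q') → PolS P s₀ q p →
      PolS P s₀ q' (!p) → TSub P Set.univ [] Δ z → Tame P s₀ (nf (sub z K)) := by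
  have atom : ∀ K : Tm, (∀ A B, K ≠ .pi A B) →
      ∀ (Δ : List Tm) (q q' : ℕ) (p : Bool) (z : ℕ → Tm), Wf P Set.univ Δ → Normal K →
      Ty P Set.univ Δ K (srt q) → Ty P Set.univ Δ K (srt q') → PolS P s₀ q p →
      PolS P s₀ q' (!p) → TSub P Set.univ [] Δ z → Tame P s₀ (nf (sub z K)) := by
    intro K hK Δ q q' p z hΔ hn t t' p1 p2 hz
    rcases t.normal_cases hn with ⟨A, B, rfl⟩ | ⟨A, B, rfl⟩ | ⟨s, rfl⟩ | hh
    · exact absurd (conv_refl _) t.lam_not_srt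
    · exact absurd rfl (hK A B)
    · rw [show sub z (srt s) = srt s from rfl, nf_sort]
      exact tame_sort _
    · obtain rfl := conv_srt_inj (Ty.unique hh t t')
      cases p
      · exact tame_of_mixed hP hc p2 p1 (t.subT hz)
      · exact tame_of_mixed hP hc p1 p2 (t.subT hz)
  induction K with
  | pi A K ihA ihK =>
    intro Δ q q' p z hΔ hn t t' p1 p2 hz
    obtain ⟨r₁, r₂, t1, t2, hr⟩ := t.gen_pi_srt
    obtain ⟨r₁', r₂', t1', t2', hr'⟩ := t'.gen_pi_srt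
    have l := lrule_of_ty hP hΔ t1 t2 hr
    have l' := lrule_of_ty hP hΔ t1' t2' hr'
    obtain ⟨n1, n2⟩ := normal_pi_iff.1 hn
    exact tame_sub_pi hP t1 t2 hr hz
      (fun hL => ihA Δ r₁ r₁' (!p) z hΔ n1 t1 t1' (p1.dom l (hL _ t2)) (p2.dom l' (hL _ t2')) hz)
      fun N hN => ihK (A :: Δ) r₂ r₂' p _ (hΔ.cons t1) n2 t2 t2' (p1.cod l) (p2.cod l') (hz.cons hN)
  | _ => exact atom _ fun _ _ h => by cases h

theorem tame_of_pol (hP : Hyp P) (hc : ¬ Config P s₀) {K : Tm} (hn : Normal K)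
    (h1 : Pol P s₀ K true) (h2 : Pol P s₀ K false) : Tame P s₀ K := by
  obtain ⟨q, t, p1⟩ := h1
  obtain ⟨q', t', p2⟩ := h2
  have := tame_of_pol_aux hP hc K [] q q' true Term.var Wf.nil hn t t' p1 p2 (TSub.nil _)
  rwa [sub_id, nf_of_normal hn] at this

theorem PT.tame (hP : Hyp P) (hc : ¬ Config P s₀) {K : Tm} (hn : Normal K) {π π' : Bool}
    (h1 : PT P s₀ K π) (h2 : PT P s₀ K π') (hne : π ≠ π') : Tame P s₀ K := by
  rcases h1 with h1 | h1
  · exact h1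
  rcases h2 with h2 | h2
  · exact h2
  cases π <;> cases π'
  · exact absurd rfl hne
  · exact tame_of_pol hP hc hn h2 h1
  · exact tame_of_pol hP hc hn h1 h2
  · exact absurd rfl hne

end Crest.Agent.R298
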