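import Crest.Agent.R298.Graph

/-! Row 298. Dummy telescopes along codomain edges. -/

set_option autoImplicit false

namespace Crest.Agent.R298
open Crest.LogicCS.PTS Crest.LogicCS.PTS.Term

/-- Sorts occurring in a live rule. -/
def Sup (P : Spec ℕ) (s : ℕ) : Prop := ∃ a b c, LRule P a b c ∧ (s = a ∨ s = b ∨ s = c)

/-- A walk along codomain edges with the list of the domain sorts. -/
inductive CW (P : Spec ℕ) : ℕ → ℕ → List ℕ → Prop
  | refl (s : ℕ) : CW P s s []
  | step {a b c x : ℕ} {ds : List ℕ} : LRule P a b c → CW P b x ds → CW P c x (a :: ds)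

def tele (D : ℕ → ℕ) : List ℕ → Tm → Tm
  | [], T => T
  | r :: ds, T => .pi (cst (D r)) (wk (tele D ds T))

def lams (D : ℕ → ℕ) : List ℕ → Tm → Tm
  | [], M => M
  | r :: ds, M => .lam (cst (D r)) (wk (lams D ds M))

def appd (d : ℕ → ℕ) : Tm → List ℕ → Tm
  | M, [] => M
  | M, r :: ds => appd d (.app M (cst (d r))) ds

variable {P : Spec ℕ} {H : Set ℕ} {D d : ℕ → ℕ}

theorem CStar.cw {y x : ℕ} (h : CStar P y x) : ∃ ds, CW P y x ds := by
  induction h with
  | refl s => exact ⟨[], CW.refl s⟩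
  | step hr _ ih => obtain ⟨ds, h⟩ := ih; exact ⟨_, CW.step hr h⟩

theorem sub_tele (θ : ℕ → Tm) (ds : List ℕ) (T : Tm) :
    sub θ (tele D ds T) = tele D ds (sub θ T) := by
  induction ds with
  | nil => rfl
  | cons r ds ih => simp [tele, ih]

theorem sub_lams (θ : ℕ → Tm) (ds : List ℕ) (M : Tm) :
    sub θ (lams D ds M) = lams D ds (sub θ M) := by
  induction ds with
  | nil => rfl
  | cons r ds ih => simp [lams, ih]

theorem sub_appd (θ : ℕ → Tm) (ds : List ℕ) (M : Tm) :
    sub θ (appd d M ds) = appd d (sub θ M) ds := by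
  induction ds generalizing M with
  | nil => rfl
  | cons r ds ih => simp [appd, ih]

theorem conv_appd {M M' : Tm} (h : Conv M M') (ds : List ℕ) :
    Conv (appd d M ds) (appd d M' ds) := by
  induction ds generalizing M M' with
  | nil => exact h
  | cons r ds ih => exact ih (conv_app h (conv_refl _))

theorem conv_appd_lams (ds : List ℕ) (M : Tm) : Conv (appd d (lams D ds M) ds) M := by
  induction ds with
  | nil => exact conv_refl _
  | cons r ds ih =>
    refine conv_trans (conv_appd (conv_beta _ _ _) ds) ?_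
    simpa using ih

theorem ty_tele (hD : ∀ s Γ, Sup P s → Ty P H Γ (cst (D s)) (srt s)) {y x : ℕ} {ds : List ℕ}
    (h : CW P y x ds) {Γ : List Tm} {T : Tm} (hT : Ty P H Γ T (srt x)) :
    Ty P H Γ (tele D ds T) (srt y) := by
  induction h with
  | refl s => exact hT
  | step hr _ ih => exact Ty.prod (hD _ _ ⟨_, _, _, hr, Or.inl rfl⟩) ((ih hT).wkT _) hr.1

theorem ty_lams (hD : ∀ s Γ, Sup P s → Ty P H Γ (cst (D s)) (srt s)) {y x : ℕ} {ds : List ℕ}
    (h : CW P y x ds) {Γ : List Tm} {M T : Tm} (hT : Ty P H Γ T (srt x)) (hM : Ty P H Γ M T) :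
    Ty P H Γ (lams D ds M) (tele D ds T) := by
  induction h with
  | refl s => exact hM
  | step hr hw ih =>
    exact Ty.abs (hD _ _ ⟨_, _, _, hr, Or.inl rfl⟩) ((ty_tele hD hw hT).wkT _) hr.1
      ((ih hT).wkT _)

theorem ty_appd (hd : ∀ s Γ, Sup P s → Ty P H Γ (cst (d s)) (cst (D s))) {y x : ℕ} {ds : List ℕ}
    (h : CW P y x ds) {Γ : List Tm} {M T : Tm} (hM : Ty P H Γ M (tele D ds T)) :
    Ty P H Γ (appd d M ds) T := by
  induction h generalizing M with
  | refl s => exact hM
  | step hr _ ih =>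
    have := Ty.app hM (hd _ _ ⟨_, _, _, hr, Or.inl rfl⟩)
    rw [inst_wk] at this
    exact ih this

end Crest.Agent.R298
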