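import Crest.Agent.R298.Ty

/-! Row 298. Transfer between `Typed` and `Ty`; reduction to finitely many rules over `ℕ`. -/

set_option autoImplicit false

namespace Crest.Agent.R298
open Crest.LogicCS.PTS Crest.LogicCS.PTS.Term

/-- Renaming of sorts. -/
def tmap {S S' : Type*} (g : S → S') : Term S → Term S'
  | .var i => .var i
  | .sort s => .sort (g s)
  | .app M N => .app (tmap g M) (tmap g N)
  | .lam A M => .lam (tmap g A) (tmap g M)
  | .pi A B => .pi (tmap g A) (tmap g B)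

theorem tmap_shift {S S' : Type*} (g : S → S') (c : ℕ) (M : Term S) :
    tmap g (shift c M) = shift c (tmap g M) := by
  induction M generalizing c with
  | var i => simp only [shift, tmap]; split <;> rfl
  | sort s => rfl
  | app M N ihM ihN => simp only [shift, tmap, ihM, ihN]
  | lam A M ihA ihM => simp only [shift, tmap, ihA, ihM]
  | pi A M ihA ihM => simp only [shift, tmap, ihA, ihM]

theorem tmap_shiftBy {S S' : Type*} (g : S → S') (k : ℕ) (M : Term S) :
    tmap g (shiftBy k M) = shiftBy k (tmap g M) := by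
  induction k with
  | zero => rfl
  | succ k ih => simp only [shiftBy, tmap_shift, ih]

theorem tmap_substAt {S S' : Type*} (g : S → S') (k : ℕ) (N M : Term S) :
    tmap g (substAt k N M) = substAt k (tmap g N) (tmap g M) := by
  induction M generalizing k with
  | var i =>
    simp only [substAt, tmap]
    split_ifs
    · rfl
    · exact tmap_shiftBy g k N
    · rfl
  | sort s => rfl
  | app M M' ihM ihN => simp only [substAt, tmap, ihM, ihN]
  | lam A M ihA ihM => simp only [substAt, tmap, ihA, ihM]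
  | pi A M ihA ihM => simp only [substAt, tmap, ihA, ihM]

theorem tmap_subst {S S' : Type*} (g : S → S') (N M : Term S) :
    tmap g (subst N M) = subst (tmap g N) (tmap g M) := tmap_substAt g 0 N M

theorem tmap_elim_inl (M : Term ℕ) :
    tmap (Sum.elim id id : ℕ ⊕ ℕ → ℕ) (tmap Sum.inl M) = M := by
  induction M with
  | var i => rfl
  | sort s => rfl
  | app M N ihM ihN => simp only [tmap, ihM, ihN]
  | lam A M ihA ihM => simp only [tmap, ihA, ihM]
  | pi A M ihA ihM => simp only [tmap, ihA, ihM]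

theorem beta_tmap {S S' : Type*} (g : S → S') {M N : Term S} (h : Beta M N) :
    Beta (tmap g M) (tmap g N) := by
  induction h with
  | redex A M N => rw [tmap_subst]; exact Beta.redex _ _ _
  | appL N _ ih => exact Beta.appL _ ih
  | appR M _ ih => exact Beta.appR _ ih
  | lamA M _ ih => exact Beta.lamA _ ih
  | lamM A _ ih => exact Beta.lamM _ ih
  | piA B _ ih => exact Beta.piA _ ih
  | piB A _ ih => exact Beta.piB _ ih

theorem betaEq_tmap {S S' : Type*} (g : S → S') {M N : Term S} (h : BetaEq M N) :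
    BetaEq (tmap g M) (tmap g N) := by
  induction h with
  | rel _ _ h => exact Relation.EqvGen.rel _ _ (beta_tmap g h)
  | refl _ => exact Relation.EqvGen.refl _
  | symm _ _ _ ih => exact Relation.EqvGen.symm _ _ ih
  | trans _ _ _ _ _ ih ih' => exact Relation.EqvGen.trans _ _ _ ih ih'

theorem beta_tmap_reflect {S S' : Type*} (g : S → S') {M : Term S} {L : Term S'}
    (h : Beta (tmap g M) L) : ∃ N, Beta M N ∧ L = tmap g N := by
  induction M generalizing L with
  | var i => cases h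
  | sort s => cases h
  | app M N ihM ihN =>
    simp only [tmap] at h
    generalize hM' : tmap g M = M' at h
    cases h with
    | redex A B _ =>
      cases M with
      | lam A0 B0 =>
        simp only [tmap, Term.lam.injEq] at hM'
        obtain ⟨rfl, rfl⟩ := hM'
        exact ⟨subst N B0, Beta.redex _ _ _, (tmap_subst g N B0).symm⟩
      | var i => cases hM'
      | sort s => cases hM'
      | app _ _ => cases hM'
      | pi _ _ => cases hM'
    | appL _ h =>
      subst hM'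
      obtain ⟨M1, h1, rfl⟩ := ihM h
      exact ⟨_, Beta.appL N h1, rfl⟩
    | appR _ h =>
      subst hM'
      obtain ⟨N1, h1, rfl⟩ := ihN h
      exact ⟨_, Beta.appR M h1, rfl⟩
  | lam A M ihA ihM =>
    simp only [tmap] at h
    cases h with
    | lamA _ h =>
      obtain ⟨A1, h1, rfl⟩ := ihA h
      exact ⟨_, Beta.lamA M h1, rfl⟩
    | lamM _ h =>
      obtain ⟨M1, h1, rfl⟩ := ihM h
      exact ⟨_, Beta.lamM A h1, rfl⟩
  | pi A M ihA ihM =>
    simp only [tmap] at h
    cases h with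
    | piA _ h =>
      obtain ⟨A1, h1, rfl⟩ := ihA h
      exact ⟨_, Beta.piA M h1, rfl⟩
    | piB _ h =>
      obtain ⟨M1, h1, rfl⟩ := ihM h
      exact ⟨_, Beta.piB A h1, rfl⟩

theorem red_tmap_reflect {S S' : Type*} (g : S → S') {M : Term S} {L : Term S'}
    (h : Relation.ReflTransGen Beta (tmap g M) L) :
    ∃ N, Relation.ReflTransGen Beta M N ∧ L = tmap g N := by
  induction h with
  | refl => exact ⟨M, Relation.ReflTransGen.refl, rfl⟩
  | tail _ hb ih =>
    obtain ⟨N, h1, rfl⟩ := ih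
    obtain ⟨N', h2, rfl⟩ := beta_tmap_reflect g hb
    exact ⟨N', h1.tail h2, rfl⟩

theorem sn_of_tmap {S S' : Type*} (g : S → S') {M : Term S} (h : SN (tmap g M)) : SN M := by
  rintro ⟨f, h0, hf⟩
  exact h ⟨fun n => tmap g (f n), by simp only [h0], fun n => beta_tmap g (hf n)⟩

theorem wn_of_tmap {S S' : Type*} (g : S → S') {M : Term S} (h : WN (tmap g M)) : WN M := by
  obtain ⟨L, h1, h2⟩ := h
  obtain ⟨N, h3, rfl⟩ := red_tmap_reflect g h1
  exact ⟨N, h3, fun N' hb => h2 _ (beta_tmap g hb)⟩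

theorem typed_tmap {S S' : Type*} (g : S → S') {P : Spec S} {P' : Spec S'}
    (hax : ∀ s t, P.ax s t → P'.ax (g s) (g t))
    (hrule : ∀ s t u, P.rule s t u → P'.rule (g s) (g t) (g u))
    {Γ : List (Term S)} {M A : Term S} (h : Typed P Γ M A) :
    Typed P' (Γ.map (tmap g)) (tmap g M) (tmap g A) := by
  induction h with
  | ax h => exact Typed.ax (hax _ _ h)
  | start _ ih => rw [tmap_shift]; exact Typed.start ih
  | weak _ _ ih ih' => rw [tmap_shift, tmap_shift]; exact Typed.weak ih ih'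
  | prod _ _ h ih ih' => exact Typed.prod ih ih' (hrule _ _ _ h)
  | abs _ _ ih ih' => exact Typed.abs ih ih'
  | appl _ _ ih ih' => rw [tmap_subst]; exact Typed.appl ih ih'
  | conv _ _ h ih ih' => exact Typed.conv ih ih' (betaEq_tmap g h)

theorem legal_tmap {S S' : Type*} (g : S → S') {P : Spec S} {P' : Spec S'}
    (hax : ∀ s t, P.ax s t → P'.ax (g s) (g t))
    (hrule : ∀ s t u, P.rule s t u → P'.rule (g s) (g t) (g u))
    {Γ : List (Term S)} {M : Term S} (h : Legal P Γ M) :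
    Legal P' (Γ.map (tmap g)) (tmap g M) := by
  obtain ⟨N, h | h⟩ := h
  · exact ⟨_, Or.inl (typed_tmap g hax hrule h)⟩
  · exact ⟨_, Or.inr (typed_tmap g hax hrule h)⟩

/-- The restriction of a specification to a list of sorts. -/
def restr {S : Type*} (P : Spec S) (F : List S) : Spec S where
  ax s t := P.ax s t ∧ s ∈ F ∧ t ∈ F
  rule s t u := P.rule s t u ∧ s ∈ F ∧ t ∈ F ∧ u ∈ F

theorem typed_mono {S : Type*} {P P' : Spec S} (hax : ∀ s t, P.ax s t → P'.ax s t)
    (hrule : ∀ s t u, P.rule s t u → P'.rule s t u)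
    {Γ : List (Term S)} {M A : Term S} (h : Typed P Γ M A) : Typed P' Γ M A := by
  induction h with
  | ax h => exact Typed.ax (hax _ _ h)
  | start _ ih => exact Typed.start ih
  | weak _ _ ih ih' => exact Typed.weak ih ih'
  | prod _ _ h ih ih' => exact Typed.prod ih ih' (hrule _ _ _ h)
  | abs _ _ ih ih' => exact Typed.abs ih ih'
  | appl _ _ ih ih' => exact Typed.appl ih ih'
  | conv _ _ h ih ih' => exact Typed.conv ih ih' h

theorem typed_restr_mono {S : Type*} {P : Spec S} {F F' : List S} (hF : ∀ s ∈ F, s ∈ F')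
    {Γ : List (Term S)} {M A : Term S} (h : Typed (restr P F) Γ M A) :
    Typed (restr P F') Γ M A :=
  typed_mono (P := restr P F) (P' := restr P F') (fun _ _ h => ⟨h.1, hF _ h.2.1, hF _ h.2.2⟩)
    (fun _ _ _ h => ⟨h.1, hF _ h.2.1, hF _ h.2.2.1, hF _ h.2.2.2⟩) h

theorem typed_restr {S : Type*} {P : Spec S} {Γ : List (Term S)} {M A : Term S}
    (h : Typed P Γ M A) : ∃ F : List S, Typed (restr P F) Γ M A := by
  induction h with
  | @ax s t h => exact ⟨[s, t], Typed.ax ⟨h, by simp, by simp⟩⟩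
  | start _ ih => obtain ⟨F, ih⟩ := ih; exact ⟨F, Typed.start ih⟩
  | weak _ _ ih ih' =>
    obtain ⟨F, ih⟩ := ih; obtain ⟨F', ih'⟩ := ih'
    exact ⟨F ++ F', Typed.weak (typed_restr_mono (by simp +contextual) ih)
      (typed_restr_mono (by simp +contextual) ih')⟩
  | @prod _ _ _ s t u _ _ h ih ih' =>
    obtain ⟨F, ih⟩ := ih; obtain ⟨F', ih'⟩ := ih'
    exact ⟨s :: t :: u :: (F ++ F'), Typed.prod (typed_restr_mono (by simp +contextual) ih)
      (typed_restr_mono (by simp +contextual) ih') ⟨h, by simp, by simp, by simp⟩⟩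
  | abs _ _ ih ih' =>
    obtain ⟨F, ih⟩ := ih; obtain ⟨F', ih'⟩ := ih'
    exact ⟨F ++ F', Typed.abs (typed_restr_mono (by simp +contextual) ih)
      (typed_restr_mono (by simp +contextual) ih')⟩
  | appl _ _ ih ih' =>
    obtain ⟨F, ih⟩ := ih; obtain ⟨F', ih'⟩ := ih'
    exact ⟨F ++ F', Typed.appl (typed_restr_mono (by simp +contextual) ih)
      (typed_restr_mono (by simp +contextual) ih')⟩
  | conv _ _ h ih ih' =>
    obtain ⟨F, ih⟩ := ih; obtain ⟨F', ih'⟩ := ih'
    exact ⟨F ++ F', Typed.conv (typed_restr_mono (by simp +contextual) ih)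
      (typed_restr_mono (by simp +contextual) ih') h⟩

theorem typed_nonempty {S : Type*} {P : Spec S} {Γ : List (Term S)} {M A : Term S}
    (h : Typed P Γ M A) : Nonempty S := by
  induction h with
  | @ax s t h => exact ⟨s⟩
  | start _ ih => exact ih
  | weak _ _ ih _ => exact ih
  | prod _ _ _ ih _ => exact ih
  | abs _ _ ih _ => exact ih
  | appl _ _ ih _ => exact ih
  | conv _ _ _ ih _ => exact ih

/-- It suffices to treat specifications over `ℕ` with finitely many rules. -/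
theorem reduce_nat
    (H : ∀ P : Spec ℕ, Hyp P → ∀ (Γ : List (Term ℕ)) (M : Term ℕ), Legal P Γ M → SN M)
    (S : Type*) (P : Spec S) (h : ∀ (Γ : List (Term S)) (M : Term S), Legal P Γ M → WN M)
    (Γ : List (Term S)) (M : Term S) (hM : Legal P Γ M) : SN M := by
  classical
  obtain ⟨F, s₀, hF⟩ : ∃ (F : List S) (_ : S), Legal (restr P F) Γ M := by
    obtain ⟨N, h | h⟩ := hM
    · obtain ⟨F, hF⟩ := typed_restr h
      obtain ⟨s₀⟩ := typed_nonempty h
      exact ⟨F, s₀, N, Or.inl hF⟩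
    · obtain ⟨F, hF⟩ := typed_restr h
      obtain ⟨s₀⟩ := typed_nonempty h
      exact ⟨F, s₀, N, Or.inr hF⟩
  let ι : S → ℕ := fun s => F.idxOf s
  let j : ℕ → S := fun n => F.getD n s₀
  have hlt : ∀ s ∈ F, ι s < F.length := fun s hs => List.idxOf_lt_length_of_mem hs
  have hj : ∀ s ∈ F, j (ι s) = s := by
    intro s hs
    have := hlt s hs
    simp only [j, ι] at this ⊢
    rw [List.getD_eq_getElem _ _ this]
    exact List.getElem_idxOf this
  let P' : Spec ℕ :=
    { ax := fun n m => ∃ s t, (restr P F).ax s t ∧ ι s = n ∧ ι t = m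
      rule := fun n m k => ∃ s t u, (restr P F).rule s t u ∧ ι s = n ∧ ι t = m ∧ ι u = k }
  have hP' : Hyp P' := by
    refine ⟨?_, ?_⟩
    · refine (((Set.finite_Iio F.length).prod
        ((Set.finite_Iio F.length).prod (Set.finite_Iio F.length)))).subset ?_
      rintro ⟨n, m, k⟩ ⟨s, t, u, ⟨-, hs, ht, hu⟩, h1, h2, h3⟩
      simp only at h1 h2 h3
      subst h1 h2 h3
      exact ⟨hlt s hs, hlt t ht, hlt u hu⟩
    · intro Δ N hN
      refine wn_of_tmap j (h _ _ (legal_tmap j ?_ ?_ hN))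
      · rintro _ _ ⟨s, t, ⟨h0, hs, ht⟩, rfl, rfl⟩
        rw [hj s hs, hj t ht]; exact h0
      · rintro _ _ _ ⟨s, t, u, ⟨h0, hs, ht, hu⟩, rfl, rfl, rfl⟩
        rw [hj s hs, hj t ht, hj u hu]; exact h0
  exact sn_of_tmap ι (H P' hP' _ _ (legal_tmap ι (P' := P') (fun s t h => ⟨s, t, h, rfl, rfl⟩)
    (fun s t u h => ⟨s, t, u, h, rfl, rfl, rfl⟩) hF))

variable {P : Spec ℕ} {H : Set ℕ}

theorem ty_of_typed {Γ : List (Term ℕ)} {M A : Term ℕ} (h : Typed P Γ M A) :
    Wf P ∅ (Γ.map (tmap Sum.inl)) ∧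
      Ty P ∅ (Γ.map (tmap Sum.inl)) (tmap Sum.inl M) (tmap Sum.inl A) := by
  induction h with
  | ax h => exact ⟨Wf.nil, Ty.ax h⟩
  | start _ ih =>
    rw [tmap_shift, shift_zero_eq]
    exact ⟨Wf.cons ih.1 ih.2, Ty.var (Look.here _ _)⟩
  | weak _ _ ih ih' =>
    rw [tmap_shift, tmap_shift, shift_zero_eq, shift_zero_eq]
    exact ⟨Wf.cons ih'.1 ih'.2, ih.2.wkT _⟩
  | prod _ _ h ih ih' => exact ⟨ih.1, Ty.prod ih.2 ih'.2 h⟩
  | abs _ _ ih ih' =>
    obtain ⟨s₁, s₂, h1, h2, h3⟩ := Ty.gen_pi_srt ih'.2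
    exact ⟨ih'.1, Ty.abs h1 h2 h3 ih.2⟩
  | appl _ _ ih ih' =>
    rw [tmap_subst, subst_eq]
    exact ⟨ih.1, Ty.app ih.2 ih'.2⟩
  | conv _ _ h ih ih' => exact ⟨ih.1, Ty.conv ih.2 ih'.2 (betaEq_tmap _ h)⟩

/-- Contexts whose erasure is well formed for `Typed`. -/
inductive TrCW (P : Spec ℕ) : List Tm → Prop
  | nil : TrCW P []
  | cons {Γ : List Tm} {A : Tm} {s : ℕ} : TrCW P Γ →
      Typed P (Γ.map (tmap (Sum.elim id id))) (tmap (Sum.elim id id) A) (.sort s) →
      TrCW P (A :: Γ)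

theorem tmap_wk (M : Tm) :
    tmap (Sum.elim id id : ℕ ⊕ ℕ → ℕ) (wk M) = shift 0 (tmap (Sum.elim id id) M) := by
  rw [← shift_zero_eq, tmap_shift]

theorem TrCW.look {Γ : List Tm} {i : ℕ} {A : Tm} (h : Look Γ i A) (hΓ : TrCW P Γ) :
    Typed P (Γ.map (tmap (Sum.elim id id))) (.var i) (tmap (Sum.elim id id) A) := by
  induction h with
  | here A Γ =>
    cases hΓ with
    | cons _ h => rw [tmap_wk]; exact Typed.start h
  | @there Γ i A B _ ih =>
    cases hΓ with
    | cons hΓ h =>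
      rw [tmap_wk]
      have := Typed.weak (ih hΓ) h
      simpa only [shift, Nat.not_lt_zero, if_false, List.map_cons] using this

theorem TrCW.ax {Γ : List Tm} {s t : ℕ} (h : P.ax s t) (hΓ : TrCW P Γ) :
    Typed P (Γ.map (tmap (Sum.elim id id))) (.sort s) (.sort t) := by
  induction hΓ with
  | nil => exact Typed.ax h
  | cons _ h ih => exact Typed.weak ih h

theorem typed_of_ty_aux {Γ : List Tm} {M A : Tm} (h : Ty P H Γ M A) (hH : H = ∅) (hΓ : TrCW P Γ) :
    Typed P (Γ.map (tmap (Sum.elim id id))) (tmap (Sum.elim id id) M)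
      (tmap (Sum.elim id id) A) := by
  induction h with
  | var h => exact hΓ.look h
  | ax h => exact hΓ.ax h
  | cstT h _ _ => subst hH; exact absurd h (Set.notMem_empty _)
  | cstS h _ _ => subst hH; exact absurd h (Set.notMem_empty _)
  | prod _ _ h ih ih' => exact Typed.prod (ih hH hΓ) (ih' hH (hΓ.cons (ih hH hΓ))) h
  | abs _ _ h _ ih ih' ih'' =>
    exact Typed.abs (ih'' hH (hΓ.cons (ih hH hΓ)))
      (Typed.prod (ih hH hΓ) (ih' hH (hΓ.cons (ih hH hΓ))) h)
  | app _ _ ih ih' =>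
    rw [← subst_eq, tmap_subst]
    exact Typed.appl (ih hH hΓ) (ih' hH hΓ)
  | conv _ _ h ih ih' => exact Typed.conv (ih hH hΓ) (ih' hH hΓ) (betaEq_tmap _ h)

theorem Wf.cw {Γ : List Tm} (hΓ : Wf P ∅ Γ) : TrCW P Γ := by
  induction hΓ with
  | nil => exact TrCW.nil
  | cons _ h ih => exact ih.cons (typed_of_ty_aux h rfl ih)

theorem typed_of_ty {Γ : List Tm} {M A : Tm} (hΓ : Wf P ∅ Γ) (h : Ty P ∅ Γ M A) :
    Typed P (Γ.map (tmap (Sum.elim id id))) (tmap (Sum.elim id id) M)
      (tmap (Sum.elim id id) A) :=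
  typed_of_ty_aux h rfl hΓ.cw

theorem Ty.wkN {Δ : List Tm} {M A : Tm} (h : Ty P H Δ M A) (Θ : List Tm) :
    Ty P H (Θ ++ Δ) (wk^[Θ.length] M) (wk^[Θ.length] A) := by
  induction Θ with
  | nil => exact h
  | cons B Θ ih =>
    rw [List.length_cons, Function.iterate_succ_apply', Function.iterate_succ_apply']
    exact ih.wkT B

theorem wkN_gs (k : ℕ) (θ f : ℕ → Tm) (M : Tm) :
    wk^[k] (gs θ f M) = gs (fun i => wk^[k] (θ i)) (fun n => wk^[k] (f n)) M := by
  induction k with
  | zero => rfl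
  | succ k ih =>
    rw [Function.iterate_succ_apply', ih, wk_gs]
    simp only [Function.iterate_succ_apply']

theorem Atm.wkN {M : Tm} (h : Atm M) (k : ℕ) : Atm (wk^[k] M) := by
  induction k with
  | zero => exact h
  | succ k ih => rw [Function.iterate_succ_apply']; exact ih.wkA

theorem cval_succ {N n : ℕ} (h : CVal P (Set.Iio (N + 1)) n) (hn : n ≠ N) :
    CVal P (Set.Iio N) n := by
  obtain ⟨h1, h2⟩ := h
  have hlt : n < N := by
    have : n < N + 1 := h1
    omega
  refine ⟨hlt, ?_⟩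
  have e : Set.Iio (N + 1) ∩ Set.Iio n = Set.Iio N ∩ Set.Iio n := by
    ext x; simp only [Set.mem_inter_iff, Set.mem_Iio]; omega
  rwa [e] at h2

theorem elim_step {N : ℕ} {Δ Θ : List Tm} {f : ℕ → Tm} {a : Tm} (hW : Wf P ∅ (Θ ++ Δ))
    (hf : ∀ n, Atm (f n))
    (ht : ∀ n, CVal P (Set.Iio N) n → Ty P ∅ Δ (f n) (gs Term.var f (cty n)))
    (ha : Atm a) (hta : Ty P ∅ (Θ ++ Δ) a (wk^[Θ.length] (gs Term.var f (cty N)))) :
    ∃ (Δ : List Tm) (f : ℕ → Tm), Wf P ∅ Δ ∧ (∀ n, Atm (f n)) ∧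
      ∀ n, CVal P (Set.Iio (N + 1)) n → Ty P ∅ Δ (f n) (gs Term.var f (cty n)) := by
  refine ⟨Θ ++ Δ, fun n => if n = N then a else wk^[Θ.length] (f n), hW, ?_, ?_⟩
  · intro n
    by_cases hn : n = N
    · simp only [hn, if_true]; exact ha
    · simp only [hn, if_false]; exact (hf n).wkN _
  · intro n hc
    have key : gs Term.var (fun n => if n = N then a else wk^[Θ.length] (f n)) (cty n) =
        wk^[Θ.length] (gs Term.var f (cty n)) := by
      rw [wkN_gs]
      refine gs_congr hc.closed hc.cin (fun i hi => absurd hi (Nat.not_lt_zero i)) ?_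
      intro m hm
      have h1 : m < n := hm.2
      have h2 : n < N + 1 := hc.1
      have : m ≠ N := by omega
      simp only [this, if_false]
    rw [key]
    by_cases hn : n = N
    · subst hn
      simp only [if_true]; exact hta
    · simp only [hn, if_false]
      exact (ht n (cval_succ hc hn)).wkN Θ

/-- Constants below `N` can be replaced by variables or by normal inhabitants of live sorts. -/
theorem Hyp.elim_cst (hP : Hyp P) (N : ℕ) :
    ∃ (Δ : List Tm) (f : ℕ → Tm), Wf P ∅ Δ ∧ (∀ n, Atm (f n)) ∧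
      ∀ n, CVal P (Set.Iio N) n → Ty P ∅ Δ (f n) (gs Term.var f (cty n)) := by
  induction N with
  | zero =>
    exact ⟨[], Term.var, Wf.nil, atm_var, fun n h => absurd h.1 (Nat.not_lt_zero n)⟩
  | succ N ih =>
    obtain ⟨Δ, f, hW, hf, ht⟩ := ih
    by_cases hc : CVal P (Set.Iio (N + 1)) N
    · obtain ⟨-, ⟨s, h⟩ | ⟨s, hs, Γ, A, h⟩⟩ := hc
      · have e : Set.Iio (N + 1) ∩ Set.Iio N = Set.Iio N := by
          ext x; simp only [Set.mem_inter_iff, Set.mem_Iio]; omega
        rw [e] at h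
        have h1 : Ty P ∅ Δ (gs Term.var f (cty N)) (srt s) :=
          h.gsT (θ := Term.var) (fun _ _ hl => by cases hl) ht
        exact elim_step (Θ := [gs Term.var f (cty N)]) (Wf.cons hW h1) hf ht (atm_var 0)
          (Ty.var (Look.here _ _))
      · obtain ⟨h1, h2⟩ := ty_of_typed h
        have hwn : WN (tmap Sum.inl A : Tm) := by
          refine wn_of_tmap (Sum.elim id id : ℕ ⊕ ℕ → ℕ) ?_
          rw [tmap_elim_inl]
          exact hP.wn Γ A ⟨_, Or.inl h⟩
        have h3 : Ty P ∅ (Γ.map (tmap Sum.inl)) (nf (tmap Sum.inl A)) (srt s) := h2.nfT h1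
        refine elim_step (Θ := Γ.map (tmap Sum.inl)) (a := nf (tmap Sum.inl A))
          (h1.append hW) hf ht ⟨normal_nf hwn, ?_⟩ ?_
        · intro B C hBC
          rw [hBC] at h3
          exact h3.lam_not_srt (conv_refl _)
        · rw [wkN_gs, hs]
          exact h3.append Δ
    · refine ⟨Δ, f, hW, hf, fun n hn => ht n (cval_succ hn ?_)⟩
      rintro rfl
      exact hc hn

theorem Hyp.ty_transfer (hP : Hyp P) {Γ : List Tm} {M A : Tm} (hΓ : Wf P H Γ)
    (h : Ty P H Γ M A) : ∃ (κ : ℕ → ℕ) (Δ : List Tm) (f : ℕ → Tm), (∀ n, Atm (f n)) ∧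
      Typed P (Δ.map (tmap (Sum.elim id id)))
        (tmap (Sum.elim id id) (gs Term.var f (sub (fun i => cst (κ i)) M)))
        (tmap (Sum.elim id id) (gs Term.var f (sub (fun i => cst (κ i)) A))) := by
  obtain ⟨κ, hκ⟩ := (hΓ.mono (Set.subset_univ H)).exists_csub
  obtain ⟨N, h1⟩ := ((h.mono (Set.subset_univ H)).subT hκ).compact
  rw [Set.univ_inter] at h1
  obtain ⟨Δ, f, hW, hf, ht⟩ := hP.elim_cst N
  exact ⟨κ, Δ, f, hf,
    typed_of_ty hW (h1.gsT (θ := Term.var) (fun _ _ hl => by cases hl) ht)⟩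

theorem Hyp.ty_wn (hP : Hyp P) {Γ : List Tm} {M A : Tm} (hΓ : Wf P H Γ) (h : Ty P H Γ M A) :
    WN M := by
  obtain ⟨κ, Δ, f, hf, h1⟩ := hP.ty_transfer hΓ h
  exact wn_of_sub (fun i => atm_sort _)
    (wn_of_gs atm_var hf (wn_of_tmap _ (hP.wn _ _ ⟨_, Or.inl h1⟩)))

theorem Hyp.ty_live (hP : Hyp P) {Γ : List Tm} {A : Tm} {s : ℕ} (hΓ : Wf P H Γ)
    (h : Ty P H Γ A (srt s)) : live P s := by
  obtain ⟨κ, Δ, f, -, h1⟩ := hP.ty_transfer hΓ h
  exact ⟨_, _, h1⟩

/-- A live sort has a constant. -/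
theorem live_cst {s : ℕ} (h : live P s) : ∃ c, Ty P Set.univ [] (cst c) (srt s) := by
  obtain ⟨n, -, hn⟩ := cty_fibre (srt s) 0
  exact ⟨n, hn ▸ Ty.cstS (Set.mem_univ n) hn h⟩

end Crest.Agent.R298
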