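import Crest.Agent.R298.TyDef

/-! Row 298. Metatheory of `Ty`. -/

set_option autoImplicit false

namespace Crest.Agent.R298
open Crest.LogicCS.PTS Crest.LogicCS.PTS.Term

variable {P : Spec ℕ} {H : Set ℕ}

theorem Look.lt {Γ : List Tm} {i : ℕ} {A : Tm} (h : Look Γ i A) : i < Γ.length := by
  induction h with
  | here A Γ => simp
  | there B _ ih => simpa using ih

theorem Look.unique {Γ : List Tm} {i : ℕ} {A B : Tm} (h : Look Γ i A) (h' : Look Γ i B) :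
    A = B := by
  induction h generalizing B with
  | here A Γ => cases h'; rfl
  | there C _ ih =>
    cases h' with
    | there _ h' => rw [ih h']

theorem look_exists {Γ : List Tm} {i : ℕ} (h : i < Γ.length) : ∃ A, Look Γ i A := by
  induction Γ generalizing i with
  | nil => simp at h
  | cons B Γ ih =>
    cases i with
    | zero => exact ⟨_, Look.here B Γ⟩
    | succ i =>
      obtain ⟨A, hA⟩ := ih (i := i) (by simpa using h)
      exact ⟨_, Look.there B hA⟩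

theorem Look.append {Γ : List Tm} {i : ℕ} {A : Tm} (h : Look Γ i A) (Δ : List Tm) :
    Look (Γ ++ Δ) i A := by
  induction h with
  | here A Γ => exact Look.here A _
  | there B _ ih => exact Look.there B ih

theorem CVal.ty {n : ℕ} (h : CVal P H n) (Γ : List Tm) : Ty P H Γ (cst n) (cty n) := by
  rcases h with ⟨h1, ⟨s, h2⟩ | ⟨s, h2, h3⟩⟩
  · exact Ty.cstT h1 h2
  · exact Ty.cstS h1 h2 h3

theorem Ty.mono {H' : Set ℕ} {Γ : List Tm} {M A : Tm} (h : Ty P H Γ M A) (hH : H ⊆ H') :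
    Ty P H' Γ M A := by
  induction h generalizing H' with
  | var h => exact Ty.var h
  | ax h => exact Ty.ax h
  | cstT h1 _ ih => exact Ty.cstT (hH h1) (ih (Set.inter_subset_inter_left _ hH))
  | cstS h1 h2 h3 => exact Ty.cstS (hH h1) h2 h3
  | prod _ _ h3 ih1 ih2 => exact Ty.prod (ih1 hH) (ih2 hH) h3
  | abs _ _ h3 _ ih1 ih2 ih4 => exact Ty.abs (ih1 hH) (ih2 hH) h3 (ih4 hH)
  | app _ _ ih1 ih2 => exact Ty.app (ih1 hH) (ih2 hH)
  | conv _ _ h3 ih1 ih2 => exact Ty.conv (ih1 hH) (ih2 hH) h3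

theorem Wf.mono {H' : Set ℕ} {Γ : List Tm} (h : Wf P H Γ) (hH : H ⊆ H') : Wf P H' Γ := by
  induction h with
  | nil => exact Wf.nil
  | cons _ h2 ih => exact Wf.cons ih (h2.mono hH)

theorem CVal.mono {H' : Set ℕ} {n : ℕ} (h : CVal P H n) (hH : H ⊆ H') : CVal P H' n := by
  rcases h with ⟨h1, ⟨s, h2⟩ | h2⟩
  · exact ⟨hH h1, Or.inl ⟨s, h2.mono (Set.inter_subset_inter_left _ hH)⟩⟩
  · exact ⟨hH h1, Or.inr h2⟩

theorem iio_sub {a b : ℕ} (h : a ≤ b) : H ∩ Set.Iio a ⊆ H ∩ Set.Iio b :=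
  Set.inter_subset_inter_right _ (Set.Iio_subset_Iio h)

/-- A derivation uses finitely many constants. -/
theorem Ty.compact {Γ : List Tm} {M A : Tm} (h : Ty P H Γ M A) :
    ∃ N, Ty P (H ∩ Set.Iio N) Γ M A := by
  induction h with
  | var h => exact ⟨0, Ty.var h⟩
  | ax h => exact ⟨0, Ty.ax h⟩
  | @cstT H Γ n s h1 h2 _ =>
    refine ⟨n + 1, Ty.cstT ⟨h1, Nat.lt_succ_self n⟩ (h2.mono ?_)⟩
    rintro x ⟨hx, hx'⟩
    exact ⟨⟨hx, Nat.lt_succ_of_lt hx'⟩, hx'⟩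
  | @cstS H Γ n s h1 h2 h3 => exact ⟨n + 1, Ty.cstS ⟨h1, Nat.lt_succ_self n⟩ h2 h3⟩
  | prod _ _ h3 ih1 ih2 =>
    obtain ⟨a, ha⟩ := ih1
    obtain ⟨b, hb⟩ := ih2
    exact ⟨a + b, Ty.prod (ha.mono (iio_sub (by omega))) (hb.mono (iio_sub (by omega))) h3⟩
  | abs _ _ h3 _ ih1 ih2 ih4 =>
    obtain ⟨a, ha⟩ := ih1
    obtain ⟨b, hb⟩ := ih2
    obtain ⟨c, hc⟩ := ih4
    exact ⟨a + b + c, Ty.abs (ha.mono (iio_sub (by omega))) (hb.mono (iio_sub (by omega))) h3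
      (hc.mono (iio_sub (by omega)))⟩
  | app _ _ ih1 ih2 =>
    obtain ⟨a, ha⟩ := ih1
    obtain ⟨b, hb⟩ := ih2
    exact ⟨a + b, Ty.app (ha.mono (iio_sub (by omega))) (hb.mono (iio_sub (by omega)))⟩
  | conv _ _ h3 ih1 ih2 =>
    obtain ⟨a, ha⟩ := ih1
    obtain ⟨b, hb⟩ := ih2
    exact ⟨a + b, Ty.conv (ha.mono (iio_sub (by omega))) (hb.mono (iio_sub (by omega))) h3⟩

theorem Ty.scoped {Γ : List Tm} {M A : Tm} (h : Ty P H Γ M A) : Scoped Γ.length M := by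
  induction h with
  | var h => exact h.lt
  | ax h => trivial
  | cstT _ _ _ => trivial
  | cstS _ _ _ => trivial
  | prod _ _ _ ih1 ih2 => exact ⟨ih1, ih2⟩
  | abs _ _ _ _ ih1 _ ih4 => exact ⟨ih1, ih4⟩
  | app _ _ ih1 ih2 => exact ⟨ih1, ih2⟩
  | conv _ _ _ ih1 _ => exact ih1

theorem Ty.cin {Γ : List Tm} {M A : Tm} (h : Ty P H Γ M A) : CIn H M := by
  induction h with
  | var h => trivial
  | ax h => trivial
  | cstT h1 _ _ => exact h1
  | cstS h1 _ _ => exact h1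
  | prod _ _ _ ih1 ih2 => exact ⟨ih1, ih2⟩
  | abs _ _ _ _ ih1 _ ih4 => exact ⟨ih1, ih4⟩
  | app _ _ ih1 ih2 => exact ⟨ih1, ih2⟩
  | conv _ _ _ ih1 _ => exact ih1

theorem CVal.closed {n : ℕ} (h : CVal P H n) : Scoped 0 (cty n) := by
  rcases h with ⟨_, ⟨s, h2⟩ | ⟨s, h2, _⟩⟩
  · exact h2.scoped
  · rw [h2]; trivial

theorem CVal.cin {n : ℕ} (h : CVal P H n) : CIn (H ∩ Set.Iio n) (cty n) := by
  rcases h with ⟨_, ⟨s, h2⟩ | ⟨s, h2, _⟩⟩
  · exact h2.cin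
  · rw [h2]; trivial

theorem Ty.append {Γ : List Tm} {M A : Tm} (h : Ty P H Γ M A) (Δ : List Tm) :
    Ty P H (Γ ++ Δ) M A := by
  induction h with
  | var h => exact Ty.var (h.append Δ)
  | ax h => exact Ty.ax h
  | cstT h1 h2 _ => exact Ty.cstT h1 h2
  | cstS h1 h2 h3 => exact Ty.cstS h1 h2 h3
  | prod _ _ h3 ih1 ih2 => exact Ty.prod ih1 ih2 h3
  | abs _ _ h3 _ ih1 ih2 ih4 => exact Ty.abs ih1 ih2 h3 ih4
  | app _ _ ih1 ih2 => exact Ty.app ih1 ih2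
  | conv _ _ h3 ih1 ih2 => exact Ty.conv ih1 ih2 h3

theorem Ty.of_nil {M A : Tm} (h : Ty P H [] M A) (Δ : List Tm) : Ty P H Δ M A := h.append Δ

theorem Wf.append {Γ Δ : List Tm} (h : Wf P H Γ) (hΔ : Wf P H Δ) : Wf P H (Γ ++ Δ) := by
  induction h with
  | nil => exact hΔ
  | cons _ h2 ih => exact Wf.cons ih (h2.append Δ)

theorem look_upr {Γ Δ : List Tm} {ξ : ℕ → ℕ}
    (hξ : ∀ i B, Look Γ i B → Look Δ (ξ i) (ren ξ B)) (A : Tm) :
    ∀ i B, Look (A :: Γ) i B → Look (ren ξ A :: Δ) (upr ξ i) (ren (upr ξ) B) := by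
  intro i B h
  cases h with
  | here => rw [ren_upr_wk]; exact Look.here _ _
  | there _ h => rw [ren_upr_wk]; exact Look.there _ (hξ _ _ h)

theorem Ty.renT {Γ Δ : List Tm} {M A : Tm} {ξ : ℕ → ℕ} (h : Ty P H Γ M A)
    (hξ : ∀ i B, Look Γ i B → Look Δ (ξ i) (ren ξ B)) : Ty P H Δ (ren ξ M) (ren ξ A) := by
  induction h generalizing Δ ξ with
  | var h => exact Ty.var (hξ _ _ h)
  | ax h => exact Ty.ax h
  | @cstT H Γ n s h1 h2 _ =>
    have hv : CVal P H n := ⟨h1, Or.inl ⟨s, h2⟩⟩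
    rw [hv.closed.ren_eq]
    exact hv.ty Δ
  | @cstS H Γ n s h1 h2 h3 =>
    have hv : CVal P H n := ⟨h1, Or.inr ⟨s, h2, h3⟩⟩
    rw [hv.closed.ren_eq]
    exact hv.ty Δ
  | prod _ _ h3 ih1 ih2 => exact Ty.prod (ih1 hξ) (ih2 (look_upr hξ _)) h3
  | abs _ _ h3 _ ih1 ih2 ih4 =>
    exact Ty.abs (ih1 hξ) (ih2 (look_upr hξ _)) h3 (ih4 (look_upr hξ _))
  | app _ _ ih1 ih2 =>
    rw [ren_inst]
    exact Ty.app (ih1 hξ) (ih2 hξ)
  | conv _ _ h3 ih1 ih2 => exact Ty.conv (ih1 hξ) (ih2 hξ) (conv_ren _ h3)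

theorem Ty.wkT {Γ : List Tm} {M A : Tm} (h : Ty P H Γ M A) (B : Tm) :
    Ty P H (B :: Γ) (wk M) (wk A) := by
  exact h.renT (fun _ _ h => Look.there B h)

theorem gs_lift_var {Γ Δ : List Tm} {θ f : ℕ → Tm}
    (hθ : ∀ i B, Look Γ i B → Ty P H Δ (θ i) (gs θ f B)) (A : Tm) :
    ∀ i B, Look (A :: Γ) i B →
      Ty P H (gs θ f A :: Δ) (up θ i) (gs (up θ) (fun n => wk (f n)) B) := by
  intro i B h
  cases h with
  | here => rw [gs_up_wk]; exact Ty.var (Look.here _ _)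
  | there _ h => rw [gs_up_wk]; exact (hθ _ _ h).wkT _

theorem gs_lift_cst {H' : Set ℕ} {Δ : List Tm} {θ f : ℕ → Tm}
    (hf : ∀ n, CVal P H n → Ty P H' Δ (f n) (gs θ f (cty n))) (A : Tm) :
    ∀ n, CVal P H n →
      Ty P H' (A :: Δ) (wk (f n)) (gs (up θ) (fun n => wk (f n)) (cty n)) := by
  intro n hn
  have e : gs (up θ) (fun n => wk (f n)) (cty n) = wk (gs θ f (cty n)) := by
    rw [← gs_up_wk, hn.closed.wk_eq]
  rw [e]
  exact (hf n hn).wkT _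

/-- The general substitution lemma (variables and constants at once). -/
theorem Ty.gsT {H' : Set ℕ} {Γ Δ : List Tm} {M A : Tm} {θ f : ℕ → Tm} (h : Ty P H Γ M A)
    (hθ : ∀ i B, Look Γ i B → Ty P H' Δ (θ i) (gs θ f B))
    (hf : ∀ n, CVal P H n → Ty P H' Δ (f n) (gs θ f (cty n))) :
    Ty P H' Δ (gs θ f M) (gs θ f A) := by
  induction h generalizing Δ θ f with
  | var h => exact hθ _ _ h
  | ax h => exact Ty.ax h
  | @cstT H Γ n s h1 h2 _ => exact hf n ⟨h1, Or.inl ⟨s, h2⟩⟩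
  | @cstS H Γ n s h1 h2 h3 => exact hf n ⟨h1, Or.inr ⟨s, h2, h3⟩⟩
  | prod _ _ h3 ih1 ih2 =>
    exact Ty.prod (ih1 hθ hf) (ih2 (gs_lift_var hθ _) (gs_lift_cst hf _)) h3
  | abs _ _ h3 _ ih1 ih2 ih4 =>
    exact Ty.abs (ih1 hθ hf) (ih2 (gs_lift_var hθ _) (gs_lift_cst hf _)) h3
      (ih4 (gs_lift_var hθ _) (gs_lift_cst hf _))
  | app _ _ ih1 ih2 =>
    rw [gs_inst]
    exact Ty.app (ih1 hθ hf) (ih2 hθ hf)
  | conv _ _ h3 ih1 ih2 => exact Ty.conv (ih1 hθ hf) (ih2 hθ hf) (conv_gs _ _ h3)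

theorem Ty.subT {Γ Δ : List Tm} {M A : Tm} {θ : ℕ → Tm} (h : Ty P H Γ M A)
    (hθ : TSub P H Δ Γ θ) : Ty P H Δ (sub θ M) (sub θ A) := by
  rw [← gs_cst, ← gs_cst]
  refine h.gsT (fun i B hB => ?_) (fun n hn => ?_)
  · rw [gs_cst]; exact hθ i B hB
  · rw [gs_cst, hn.closed.sub_eq]; exact hn.ty Δ

theorem TSub.nil {Δ : List Tm} (θ : ℕ → Tm) : TSub P H Δ [] θ := fun _ _ h => by cases h

theorem TSub.refl (Γ : List Tm) : TSub P H Γ Γ Term.var := by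
  intro i A h
  rw [sub_id]
  exact Ty.var h

theorem TSub.cons {Γ Δ : List Tm} {θ : ℕ → Tm} {N A : Tm} (h : TSub P H Δ Γ θ)
    (hN : Ty P H Δ N (sub θ A)) : TSub P H Δ (A :: Γ) (scons N θ) := by
  intro i B hB
  cases hB with
  | here => rw [sub_scons_wk]; exact hN
  | there _ hB => rw [sub_scons_wk]; exact h _ _ hB

theorem TSub.lift {Γ Δ : List Tm} {θ : ℕ → Tm} (h : TSub P H Δ Γ θ) (A : Tm) :
    TSub P H (sub θ A :: Δ) (A :: Γ) (up θ) := by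
  intro i B hB
  cases hB with
  | here => rw [sub_up_wk]; exact Ty.var (Look.here _ _)
  | there _ hB => rw [sub_up_wk]; exact (h _ _ hB).wkT _

theorem Ty.instT {Γ : List Tm} {M B N A : Tm} (h : Ty P H (A :: Γ) M B) (hN : Ty P H Γ N A) :
    Ty P H Γ (inst N M) (inst N B) := by
  exact h.subT ((TSub.refl Γ).cons (by rw [sub_id]; exact hN))

/-! ### Generation -/

theorem Ty.gen_var {Γ : List Tm} {i : ℕ} {T : Tm} (h : Ty P H Γ (.var i) T) :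
    ∃ A, Look Γ i A ∧ Conv A T := by
  generalize hM : (Term.var i : Tm) = M at h
  induction h with
  | var h => cases hM; exact ⟨_, h, conv_refl _⟩
  | conv _ _ h3 ih1 _ =>
    obtain ⟨A, h1, h2⟩ := ih1 hM
    exact ⟨A, h1, conv_trans h2 h3⟩
  | _ => cases hM

theorem Ty.gen_srt {Γ : List Tm} {s : ℕ} {T : Tm} (h : Ty P H Γ (srt s) T) :
    ∃ t, P.ax s t ∧ Conv (srt t) T := by
  generalize hM : srt s = M at h
  induction h with
  | ax h => cases hM; exact ⟨_, h, conv_refl _⟩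
  | conv _ _ h3 ih1 _ =>
    obtain ⟨A, h1, h2⟩ := ih1 hM
    exact ⟨A, h1, conv_trans h2 h3⟩
  | _ => cases hM

theorem Ty.gen_cst {Γ : List Tm} {n : ℕ} {T : Tm} (h : Ty P H Γ (cst n) T) :
    CVal P H n ∧ Conv (cty n) T := by
  generalize hM : cst n = M at h
  induction h with
  | cstT h1 h2 _ => cases hM; exact ⟨⟨h1, Or.inl ⟨_, h2⟩⟩, conv_refl _⟩
  | cstS h1 h2 h3 => cases hM; exact ⟨⟨h1, Or.inr ⟨_, h2, h3⟩⟩, conv_refl _⟩
  | conv _ _ h3 ih1 _ =>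
    obtain ⟨h1, h2⟩ := ih1 hM
    exact ⟨h1, conv_trans h2 h3⟩
  | _ => cases hM

theorem Ty.gen_app {Γ : List Tm} {M N T : Tm} (h : Ty P H Γ (.app M N) T) :
    ∃ A B, Ty P H Γ M (.pi A B) ∧ Ty P H Γ N A ∧ Conv (inst N B) T := by
  generalize hM : (Term.app M N : Tm) = L at h
  induction h with
  | app h1 h2 _ _ => cases hM; exact ⟨_, _, h1, h2, conv_refl _⟩
  | conv _ _ h3 ih1 _ =>
    obtain ⟨A, B, h1, h2, h4⟩ := ih1 hM
    exact ⟨A, B, h1, h2, conv_trans h4 h3⟩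
  | _ => cases hM

theorem Ty.gen_lam {Γ : List Tm} {A M T : Tm} (h : Ty P H Γ (.lam A M) T) :
    ∃ B s₁ s₂ s₃, Ty P H Γ A (srt s₁) ∧ Ty P H (A :: Γ) B (srt s₂) ∧ P.rule s₁ s₂ s₃ ∧
      Ty P H (A :: Γ) M B ∧ Conv (.pi A B) T := by
  generalize hM : (Term.lam A M : Tm) = L at h
  induction h with
  | abs h1 h2 h3 h4 _ _ _ => cases hM; exact ⟨_, _, _, _, h1, h2, h3, h4, conv_refl _⟩
  | conv _ _ h3 ih1 _ =>
    obtain ⟨B, s₁, s₂, s₃, h1, h2, h4, h5, h6⟩ := ih1 hM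
    exact ⟨B, s₁, s₂, s₃, h1, h2, h4, h5, conv_trans h6 h3⟩
  | _ => cases hM

theorem Ty.gen_pi {Γ : List Tm} {A B T : Tm} (h : Ty P H Γ (.pi A B) T) :
    ∃ s₁ s₂ s₃, Ty P H Γ A (srt s₁) ∧ Ty P H (A :: Γ) B (srt s₂) ∧ P.rule s₁ s₂ s₃ ∧
      Conv (srt s₃) T := by
  generalize hM : (Term.pi A B : Tm) = L at h
  induction h with
  | prod h1 h2 h3 _ _ => cases hM; exact ⟨_, _, _, h1, h2, h3, conv_refl _⟩
  | conv _ _ h3 ih1 _ =>
    obtain ⟨s₁, s₂, s₃, h1, h2, h4, h6⟩ := ih1 hM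
    exact ⟨s₁, s₂, s₃, h1, h2, h4, conv_trans h6 h3⟩
  | _ => cases hM

theorem Ty.gen_pi_srt {Γ : List Tm} {A B : Tm} {s : ℕ} (h : Ty P H Γ (.pi A B) (srt s)) :
    ∃ s₁ s₂, Ty P H Γ A (srt s₁) ∧ Ty P H (A :: Γ) B (srt s₂) ∧ P.rule s₁ s₂ s := by
  obtain ⟨s₁, s₂, s₃, h1, h2, h3, h4⟩ := h.gen_pi
  obtain rfl := conv_srt_inj h4
  exact ⟨s₁, s₂, h1, h2, h3⟩

theorem Ty.gen_srt_srt {Γ : List Tm} {s t : ℕ} (h : Ty P H Γ (srt s) (srt t)) : P.ax s t := by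
  obtain ⟨t', h1, h2⟩ := h.gen_srt
  obtain rfl := conv_srt_inj h2
  exact h1

theorem Ty.gen_apps {Γ : List Tm} {h T : Tm} {ts : List Tm} (hty : Ty P H Γ (apps h ts) T) :
    (∃ T', Ty P H Γ h T') ∧ ∀ t ∈ ts, ∃ T', Ty P H Γ t T' := by
  induction ts generalizing h with
  | nil => exact ⟨⟨T, hty⟩, by simp⟩
  | cons t ts ih =>
    rw [apps_cons] at hty
    obtain ⟨⟨T', h1⟩, h2⟩ := ih hty
    obtain ⟨A, B, h3, h4, _⟩ := h1.gen_app
    refine ⟨⟨_, h3⟩, fun u hu => ?_⟩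
    rcases List.mem_cons.1 hu with rfl | hu
    · exact ⟨_, h4⟩
    · exact h2 u hu

/-! ### Contexts, correctness of types, subject reduction -/

theorem Wf.look {Γ : List Tm} {i : ℕ} {A : Tm} (hΓ : Wf P H Γ) (h : Look Γ i A) :
    ∃ s, Ty P H Γ A (srt s) := by
  induction h with
  | here A Γ =>
    cases hΓ with
    | cons _ h2 => exact ⟨_, h2.wkT A⟩
  | there B _ ih =>
    cases hΓ with
    | cons h1 _ =>
      obtain ⟨s, hs⟩ := ih h1
      exact ⟨s, hs.wkT B⟩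

theorem Ty.ctx_conv {Γ : List Tm} {A A' M B : Tm} {s : ℕ} (h : Ty P H (A :: Γ) M B)
    (hc : Conv A A') (hA : Ty P H Γ A (srt s)) : Ty P H (A' :: Γ) M B := by
  have := h.subT (Δ := A' :: Γ) (θ := Term.var) (by
    intro i C hC
    rw [sub_id]
    cases hC with
    | here => exact Ty.conv (Ty.var (Look.here _ _)) (hA.wkT A') (conv_wk (conv_symm hc))
    | there _ hC => exact Ty.var (Look.there _ hC))
  rwa [sub_id, sub_id] at this

theorem Ty.correct {Γ : List Tm} {M A : Tm} (hΓ : Wf P H Γ) (h : Ty P H Γ M A) :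
    (∃ s, A = srt s) ∨ ∃ s, Ty P H Γ A (srt s) := by
  induction h with
  | var h => exact Or.inr (hΓ.look h)
  | ax h => exact Or.inl ⟨_, rfl⟩
  | cstT _ h2 _ => exact Or.inr ⟨_, (h2.mono Set.inter_subset_left).of_nil _⟩
  | cstS _ h2 _ => exact Or.inl ⟨_, h2⟩
  | prod _ _ _ _ _ => exact Or.inl ⟨_, rfl⟩
  | abs h1 h2 h3 _ _ _ _ => exact Or.inr ⟨_, Ty.prod h1 h2 h3⟩
  | app _ h2 ih1 _ =>
    rcases ih1 hΓ with ⟨s, hs⟩ | ⟨s, hs⟩
    · cases hs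
    · obtain ⟨s₁, s₂, _, hB, _⟩ := hs.gen_pi_srt
      exact Or.inr ⟨s₂, hB.instT h2⟩
  | conv _ h2 _ _ _ => exact Or.inr ⟨_, h2⟩

theorem Ty.correct_pi {Γ : List Tm} {M A B : Tm} (hΓ : Wf P H Γ) (h : Ty P H Γ M (.pi A B)) :
    ∃ s₁ s₂ s₃, Ty P H Γ A (srt s₁) ∧ Ty P H (A :: Γ) B (srt s₂) ∧ P.rule s₁ s₂ s₃ := by
  rcases h.correct hΓ with ⟨s, hs⟩ | ⟨s, hs⟩
  · cases hs
  · obtain ⟨s₁, s₂, h1, h2, h3⟩ := hs.gen_pi_srt
    exact ⟨s₁, s₂, s, h1, h2, h3⟩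

theorem Ty.sr {Γ : List Tm} {M M' A : Tm} (hΓ : Wf P H Γ) (h : Ty P H Γ M A) (hb : Beta M M') :
    Ty P H Γ M' A := by
  induction h generalizing M' with
  | var h => cases hb
  | ax h => cases hb
  | cstT _ _ _ => cases hb
  | cstS _ _ _ => cases hb
  | prod h1 h2 h3 ih1 ih2 =>
    rcases beta_pi_inv hb with ⟨A', hA, rfl⟩ | ⟨B', hB, rfl⟩
    · exact Ty.prod (ih1 hΓ hA) (h2.ctx_conv (conv_of_beta hA) h1) h3
    · exact Ty.prod h1 (ih2 (hΓ.cons h1) hB) h3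
  | abs h1 h2 h3 h4 ih1 _ ih4 =>
    rcases beta_lam_inv hb with ⟨A', hA, rfl⟩ | ⟨B', hB, rfl⟩
    · exact Ty.conv (Ty.abs (ih1 hΓ hA) (h2.ctx_conv (conv_of_beta hA) h1) h3
        (h4.ctx_conv (conv_of_beta hA) h1)) (Ty.prod h1 h2 h3)
        (conv_pi (conv_symm (conv_of_beta hA)) (conv_refl _))
    · exact Ty.abs h1 h2 h3 (ih4 (hΓ.cons h1) hB)
  | app h1 h2 ih1 ih2 =>
    obtain ⟨t₁, t₂, t₃, hA, hB, _⟩ := h1.correct_pi hΓ
    have hs := hB.instT h2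
    rcases beta_app_inv hb with ⟨A₀, B₀, rfl, rfl⟩ | ⟨M₁, hM, rfl⟩ | ⟨N₁, hN, rfl⟩
    · obtain ⟨B₁, s₁, s₂, s₃, g1, _, _, g4, g5⟩ := h1.gen_lam
      obtain ⟨c1, c2⟩ := conv_pi_inj g5
      exact Ty.conv (g4.instT (Ty.conv h2 g1 (conv_symm c1))) hs (conv_inst (conv_refl _) c2)
    · exact Ty.app (ih1 hΓ hM) h2
    · exact Ty.conv (Ty.app h1 (ih2 hΓ hN)) hs
        (conv_inst (conv_symm (conv_of_beta hN)) (conv_refl _))
  | conv _ h2 h3 ih1 _ => exact Ty.conv (ih1 hΓ hb) h2 h3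

theorem Ty.sr_red {Γ : List Tm} {M M' A : Tm} (hΓ : Wf P H Γ) (h : Ty P H Γ M A)
    (hb : Red M M') : Ty P H Γ M' A := by
  induction hb with
  | refl => exact h
  | tail _ hb ih => exact ih.sr hΓ hb

theorem Ty.nfT {Γ : List Tm} {M A : Tm} (hΓ : Wf P H Γ) (h : Ty P H Γ M A) :
    Ty P H Γ (nf M) A := h.sr_red hΓ (red_nf M)

/-- Reducing the type. -/
theorem Ty.red_type {Γ : List Tm} {M A A' : Tm} (hΓ : Wf P H Γ) (h : Ty P H Γ M A)
    (hb : Red A A') : Ty P H Γ M A' := by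
  rcases h.correct hΓ with ⟨s, rfl⟩ | ⟨s, hs⟩
  · rw [normal_red_eq (normal_sort _) hb]; exact h
  · exact Ty.conv h (hs.sr_red hΓ hb) (conv_of_red hb)

/-- A type convertible to a sort may be replaced by the sort. -/
theorem Ty.conv_srt {Γ : List Tm} {M A : Tm} {s : ℕ} (hΓ : Wf P H Γ) (h : Ty P H Γ M A)
    (hc : Conv A (srt s)) : Ty P H Γ M (srt s) := by
  exact h.red_type hΓ (conv_normal_red hc (normal_sort _))

/-- Terms headed by a variable or a constant have a unique type up to conversion. -/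
theorem Ty.unique {Γ : List Tm} {M T T' : Tm}
    (hh : (∃ i, head M = .var i) ∨ ∃ n, head M = cst n) (h : Ty P H Γ M T)
    (h' : Ty P H Γ M T') : Conv T T' := by
  induction M generalizing T T' with
  | var i =>
    obtain ⟨A, h1, h2⟩ := h.gen_var
    obtain ⟨A', h1', h2'⟩ := h'.gen_var
    obtain rfl := h1.unique h1'
    exact conv_trans (conv_symm h2) h2'
  | sort s =>
    rcases hh with ⟨i, hi⟩ | ⟨n, hn⟩
    · cases hi
    · cases hn
      exact conv_trans (conv_symm h.gen_cst.2) h'.gen_cst.2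
  | app M N ihM _ =>
    obtain ⟨A, B, h1, _, h3⟩ := h.gen_app
    obtain ⟨A', B', h1', _, h3'⟩ := h'.gen_app
    have := (conv_pi_inj (ihM hh h1 h1')).2
    exact conv_trans (conv_symm h3) (conv_trans (conv_inst (conv_refl _) this) h3')
  | lam A M _ _ => rcases hh with ⟨i, hi⟩ | ⟨n, hn⟩ <;> contradiction
  | pi A M _ _ => rcases hh with ⟨i, hi⟩ | ⟨n, hn⟩ <;> contradiction

/-- The shapes of typed normal terms. -/
theorem Ty.normal_cases {Γ : List Tm} {M T : Tm} (h : Ty P H Γ M T) (hn : Normal M) :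
    (∃ A B, M = .lam A B) ∨ (∃ A B, M = .pi A B) ∨ (∃ s, M = srt s) ∨
      (∃ i, head M = .var i) ∨ ∃ n, head M = cst n := by
  induction M generalizing T with
  | var i => exact Or.inr (Or.inr (Or.inr (Or.inl ⟨i, rfl⟩)))
  | sort s =>
    rcases s with s | s
    · exact Or.inr (Or.inr (Or.inl ⟨s, rfl⟩))
    · exact Or.inr (Or.inr (Or.inr (Or.inr ⟨s, rfl⟩)))
  | lam A M _ _ => exact Or.inl ⟨A, M, rfl⟩
  | pi A M _ _ => exact Or.inr (Or.inl ⟨A, M, rfl⟩)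
  | app M N ihM _ =>
    obtain ⟨A, B, h1, _, _⟩ := h.gen_app
    obtain ⟨n1, _, n3⟩ := normal_app_iff.1 hn
    rcases ihM h1 n1 with ⟨C, D, rfl⟩ | ⟨C, D, rfl⟩ | ⟨s, rfl⟩ | h4
    · exact absurd rfl (n3 C D)
    · obtain ⟨_, _, _, _, _, _, hc⟩ := h1.gen_pi
      exact absurd hc not_conv_sort_pi
    · obtain ⟨_, _, hc⟩ := h1.gen_srt
      exact absurd hc not_conv_sort_pi
    · exact Or.inr (Or.inr (Or.inr h4))

theorem Ty.lam_not_srt {Γ : List Tm} {A M T : Tm} {s : ℕ ⊕ ℕ} (h : Ty P H Γ (.lam A M) T) :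
    ¬ Conv T (.sort s) := by
  intro hc
  obtain ⟨B, _, _, _, _, _, _, _, h5⟩ := h.gen_lam
  exact not_conv_sort_pi (conv_symm (conv_trans h5 hc))

/-- Turning a fresh constant into a variable. -/
theorem Ty.abstract {c : ℕ} {M B : Tm} (hH : HWf P H) (hc : c ∉ H)
    (hC : CIn H (cty c)) (hC0 : Scoped 0 (cty c)) (hB : CIn H B) (hB1 : Scoped 1 B)
    (h : Ty P (insert c H) [] M (inst (cst c) B)) : ∃ M', Ty P H [cty c] M' B := by
  classical
  let f : ℕ → Tm := fun n => if n = c then .var 0 else cst n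
  have hfc : f c = .var 0 := by simp [f]
  have hfH : ∀ n ∈ H, f n = cst n := by
    intro n hn
    have : n ≠ c := fun e => hc (e ▸ hn)
    simp [f, this]
  have key : ∀ {k : ℕ} {θ : ℕ → Tm} {T : Tm}, Scoped k T → CIn H T → (∀ i < k, θ i = .var i) →
      gs θ f T = T := by
    intro k θ T h1 h2 h3
    rw [gs_congr (θ' := Term.var) (f' := cst) h1 h2 h3 hfH, gs_cst, sub_id]
  have h1 := h.gsT (H' := H) (Δ := [cty c]) (θ := Term.var) (f := f)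
    (fun _ _ h => by cases h) (by
      intro n hn
      rcases hn.1 with rfl | hnH
      · rw [hfc, key hC0 hC (fun _ _ => rfl)]
        have := Ty.var (P := P) (H := H) (Look.here (cty n) [])
        rwa [hC0.wk_eq] at this
      · have hv := hH n hnH
        rw [hfH n hnH, key hv.closed (hv.cin.mono Set.inter_subset_left) (fun _ _ => rfl)]
        exact hv.ty _)
  refine ⟨gs Term.var f M, ?_⟩
  have e : gs Term.var f (inst (cst c) B) = B := by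
    rw [inst, gs_sub]
    refine key hB1 hB (fun i hi => ?_)
    obtain rfl : i = 0 := by omega
    exact hfc
  rwa [e] at h1

theorem HWf.add {c : ℕ} (hH : HWf P H) (hc : ∀ n ∈ H, n < c)
    (hty : (∃ s, Ty P H [] (cty c) (srt s)) ∨ ∃ s, cty c = srt s ∧ live P s) :
    HWf P (insert c H) := by
  intro n hn
  rcases hn with rfl | hn
  · refine ⟨Set.mem_insert _ _, ?_⟩
    rcases hty with ⟨s, hs⟩ | hs
    · exact Or.inl ⟨s, hs.mono (fun x hx => ⟨Set.mem_insert_of_mem _ hx, hc x hx⟩)⟩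
    · exact Or.inr hs
  · exact (hH n hn).mono (Set.subset_insert _ _)

/-- Over all constants, every closed type has constants. -/
theorem exists_cst {A : Tm} {s : ℕ} (h : Ty P Set.univ [] A (srt s)) :
    ∃ c, Ty P Set.univ [] (cst c) A := by
  obtain ⟨N, hN⟩ := h.compact
  obtain ⟨n, hn, rfl⟩ := cty_fibre A N
  exact ⟨n, Ty.cstT (Set.mem_univ _) (hN.mono (iio_sub hn))⟩

/-- A well-formed context has a closing substitution by constants. -/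
theorem Wf.exists_csub {Γ : List Tm} (h : Wf P Set.univ Γ) :
    ∃ κ : ℕ → ℕ, TSub P Set.univ [] Γ (fun i => cst (κ i)) := by
  induction h with
  | nil => exact ⟨fun _ => 0, TSub.nil _⟩
  | cons _ h2 ih =>
    obtain ⟨κ, hκ⟩ := ih
    obtain ⟨c, hc⟩ := exists_cst (h2.subT hκ)
    refine ⟨scons c κ, ?_⟩
    rw [scons_comp cst c κ]
    exact hκ.cons hc

end Crest.Agent.R298
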