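import Crest.Agent.R298.Conf

/-! Row 298. Typing with named constants: definitions. -/

set_option autoImplicit false

namespace Crest.Agent.R298
open Crest.LogicCS.PTS Crest.LogicCS.PTS.Term

def encTm : Tm → ℕ
  | .var i => Nat.pair 0 i
  | .sort (.inl s) => Nat.pair 1 s
  | .sort (.inr s) => Nat.pair 2 s
  | .app M N => Nat.pair 3 (Nat.pair (encTm M) (encTm N))
  | .lam M N => Nat.pair 4 (Nat.pair (encTm M) (encTm N))
  | .pi M N => Nat.pair 5 (Nat.pair (encTm M) (encTm N))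

theorem encTm_injective : Function.Injective encTm := by
  intro M
  induction M with
  | var i => intro N h; rcases N with _ | (_ | _) | _ | _ | _ <;> simp_all [encTm]
  | sort s =>
    intro N h
    rcases s with s | s <;> rcases N with _ | (_ | _) | _ | _ | _ <;> simp_all [encTm]
  | app M M' ih ih' =>
    intro N h
    rcases N with _ | (_ | _) | _ | _ | _ <;> simp [encTm] at h
    rw [ih h.1, ih' h.2]
  | lam M M' ih ih' =>
    intro N h
    rcases N with _ | (_ | _) | _ | _ | _ <;> simp [encTm] at h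
    rw [ih h.1, ih' h.2]
  | pi M M' ih ih' =>
    intro N h
    rcases N with _ | (_ | _) | _ | _ | _ <;> simp [encTm] at h
    rw [ih h.1, ih' h.2]

instance : Countable Tm := encTm_injective.countable
instance : Inhabited Tm := ⟨.var 0⟩

/-- The declared type of the constant `n`. Every term is the type of infinitely many constants. -/
noncomputable def cty (n : ℕ) : Tm := Function.invFun encTm (Nat.unpair n).1

theorem cty_fibre (T : Tm) (N : ℕ) : ∃ n, N ≤ n ∧ cty n = T :=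
  ⟨Nat.pair (encTm T) N, Nat.right_le_pair _ _, by
    simp [cty, Function.leftInverse_invFun encTm_injective T]⟩

inductive Look : List Tm → ℕ → Tm → Prop
  | here (A : Tm) (Γ : List Tm) : Look (A :: Γ) 0 (wk A)
  | there {Γ : List Tm} {i : ℕ} {A : Tm} (B : Tm) : Look Γ i A → Look (B :: Γ) (i + 1) (wk A)

/-- A sort is live when some expression has it as its type. -/
def live (P : Spec ℕ) (s : ℕ) : Prop := ∃ Γ A, Typed P Γ A (.sort s)

/-- Typing over the set `H` of available constants. Contexts are not checked (see `Wf`). -/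
inductive Ty (P : Spec ℕ) : Set ℕ → List Tm → Tm → Tm → Prop
  | var {H : Set ℕ} {Γ : List Tm} {i : ℕ} {A : Tm} : Look Γ i A → Ty P H Γ (.var i) A
  | ax {H : Set ℕ} {Γ : List Tm} {s t : ℕ} : P.ax s t → Ty P H Γ (srt s) (srt t)
  | cstT {H : Set ℕ} {Γ : List Tm} {n s : ℕ} : n ∈ H →
      Ty P (H ∩ Set.Iio n) [] (cty n) (srt s) → Ty P H Γ (cst n) (cty n)
  | cstS {H : Set ℕ} {Γ : List Tm} {n s : ℕ} : n ∈ H → cty n = srt s → live P s →
      Ty P H Γ (cst n) (cty n)
  | prod {H : Set ℕ} {Γ : List Tm} {A B : Tm} {s₁ s₂ s₃ : ℕ} : Ty P H Γ A (srt s₁) →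
      Ty P H (A :: Γ) B (srt s₂) → P.rule s₁ s₂ s₃ → Ty P H Γ (.pi A B) (srt s₃)
  | abs {H : Set ℕ} {Γ : List Tm} {A M B : Tm} {s₁ s₂ s₃ : ℕ} : Ty P H Γ A (srt s₁) →
      Ty P H (A :: Γ) B (srt s₂) → P.rule s₁ s₂ s₃ → Ty P H (A :: Γ) M B →
      Ty P H Γ (.lam A M) (.pi A B)
  | app {H : Set ℕ} {Γ : List Tm} {M N A B : Tm} : Ty P H Γ M (.pi A B) → Ty P H Γ N A →
      Ty P H Γ (.app M N) (inst N B)
  | conv {H : Set ℕ} {Γ : List Tm} {M A B : Tm} {s : ℕ} : Ty P H Γ M A →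
      Ty P H Γ B (srt s) → Conv A B → Ty P H Γ M B

inductive Wf (P : Spec ℕ) (H : Set ℕ) : List Tm → Prop
  | nil : Wf P H []
  | cons {Γ : List Tm} {A : Tm} {s : ℕ} : Wf P H Γ → Ty P H Γ A (srt s) → Wf P H (A :: Γ)

/-- The constant `n` is usable over `H`. -/
def CVal (P : Spec ℕ) (H : Set ℕ) (n : ℕ) : Prop :=
  n ∈ H ∧ ((∃ s, Ty P (H ∩ Set.Iio n) [] (cty n) (srt s)) ∨ ∃ s, cty n = srt s ∧ live P s)

/-- Every constant of `H` is usable. -/
def HWf (P : Spec ℕ) (H : Set ℕ) : Prop := ∀ n ∈ H, CVal P H n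

/-- `θ` is a well-typed substitution from `Γ` into `Δ`. -/
def TSub (P : Spec ℕ) (H : Set ℕ) (Δ Γ : List Tm) (θ : ℕ → Tm) : Prop :=
  ∀ i A, Look Γ i A → Ty P H Δ (θ i) (sub θ A)

/-- The standing hypotheses: finitely many rules, and weak normalization. -/
structure Hyp (P : Spec ℕ) : Prop where
  fin : {p : ℕ × ℕ × ℕ | P.rule p.1 p.2.1 p.2.2}.Finite
  wn : ∀ Γ M, Legal P Γ M → WN M

end Crest.Agent.R298
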