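import Crest.Agent.R298.ValDef

/-! Row 298. Coding of functions on spines by sets; generic spines and their smallness. -/

set_option autoImplicit false

namespace Crest.Agent.R298.ValC
open Crest.LogicCS.PTS Crest.LogicCS.PTS.Term

/-! ### coding -/

noncomputable def zn : ℕ → ZFSet.{0}
  | 0 => ∅
  | n + 1 => {zn n}

theorem zn_inj : Function.Injective zn := by
  intro a
  induction a with
  | zero =>
    intro b h
    cases b with
    | zero => rfl
    | succ b =>
      have : zn b ∈ zn 0 := by rw [h]; exact ZFSet.mem_singleton.2 rfl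
      exact absurd this (ZFSet.notMem_empty _)
  | succ a ih =>
    intro b h
    cases b with
    | zero =>
      have : zn a ∈ zn 0 := by rw [← h]; exact ZFSet.mem_singleton.2 rfl
      exact absurd this (ZFSet.notMem_empty _)
    | succ b => rw [ih (ZFSet.singleton_injective h)]

noncomputable def tag (p : ℕ × ZFSet.{0}) : ZFSet.{0} := ZFSet.pair (zn p.1) p.2

theorem tag_inj : Function.Injective tag := by
  rintro ⟨a, b⟩ ⟨c, d⟩ h
  obtain ⟨h1, h2⟩ := ZFSet.pair_inj.1 h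
  exact Prod.ext (zn_inj h1) h2

noncomputable def encO : Option ZFSet.{0} → ZFSet.{0}
  | none => tag (0, ∅)
  | some v => tag (1, v)

theorem encO_inj : Function.Injective encO := by
  rintro (_ | a) (_ | b) h
  · rfl
  · simpa using tag_inj h
  · simpa using tag_inj h
  · simpa using tag_inj h

noncomputable def encE (e : Ent) : ZFSet.{0} :=
  tag (encTm e.tm, tag (encTm e.ki, tag (e.pol.toNat, encO e.val)))

theorem encE_inj : Function.Injective encE := by
  rintro ⟨a, b, c, d⟩ ⟨a', b', c', d'⟩ h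
  obtain ⟨h1, h2⟩ := Prod.ext_iff.1 (tag_inj h)
  obtain ⟨h3, h4⟩ := Prod.ext_iff.1 (tag_inj h2)
  obtain ⟨h5, h6⟩ := Prod.ext_iff.1 (tag_inj h4)
  obtain rfl : a = a' := encTm_injective h1
  obtain rfl : b = b' := encTm_injective h3
  obtain rfl : d = d' := encO_inj h6
  obtain rfl : c = c' := by cases c <;> cases c' <;> simp_all
  rfl

noncomputable def encL : List Ent → ZFSet.{0}
  | [] => tag (0, ∅)
  | e :: l => tag (1, ZFSet.pair (encE e) (encL l))

theorem encL_inj : Function.Injective encL := by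
  intro a
  induction a with
  | nil =>
    rintro (_ | ⟨b, l⟩) h
    · rfl
    · simpa using tag_inj h
  | cons a l ih =>
    rintro (_ | ⟨b, l'⟩) h
    · simpa using tag_inj h
    · obtain ⟨h1, h2⟩ := ZFSet.pair_inj.1 (Prod.ext_iff.1 (tag_inj h)).2
      rw [encE_inj h1, ih h2]

noncomputable def enc (sp : List Ent) (x : Tm) : ZFSet.{0} := tag (encTm x, encL sp)

theorem enc_inj {sp sp' : List Ent} {x x' : Tm} (h : enc sp x = enc sp' x') : sp = sp' ∧ x = x' := by
  obtain ⟨h1, h2⟩ := Prod.ext_iff.1 (tag_inj h)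
  exact ⟨encL_inj h2, encTm_injective h1⟩

def look (v : ZFSet.{0}) (sp : List Ent) : Set Tm := {x | enc sp x ∈ v}

def IsGraph (V : List Ent → Prop) (f : List Ent → Set Tm) (v : ZFSet.{0}) : Prop :=
  ∀ z, z ∈ v ↔ ∃ sp x, V sp ∧ x ∈ f sp ∧ z = enc sp x

noncomputable def graph (V : List Ent → Prop) (f : List Ent → Set Tm) : ZFSet.{0} :=
  Classical.epsilon (IsGraph V f)

theorem IsGraph.look_eq {V : List Ent → Prop} {f : List Ent → Set Tm} {v : ZFSet.{0}}
    (h : IsGraph V f v) {sp : List Ent} (hsp : V sp) : look v sp = f sp := by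
  ext x
  constructor
  · intro hx
    obtain ⟨sp', x', -, h2, h3⟩ := (h _).1 hx
    obtain ⟨rfl, rfl⟩ := enc_inj h3
    exact h2
  · intro hx
    exact (h _).2 ⟨sp, x, hsp, hx, rfl⟩

theorem IsGraph.congr {V V' : List Ent → Prop} {f g : List Ent → Set Tm} {v : ZFSet.{0}}
    (h : IsGraph V f v) (hV : ∀ sp, V sp ↔ V' sp) (hf : ∀ sp, V sp → f sp = g sp) :
    IsGraph V' g v := by
  intro z
  rw [h z]
  constructor
  · rintro ⟨sp, x, h1, h2, h3⟩
    exact ⟨sp, x, (hV sp).1 h1, hf sp h1 ▸ h2, h3⟩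
  · rintro ⟨sp, x, h1, h2, h3⟩
    exact ⟨sp, x, (hV sp).2 h1, (hf sp ((hV sp).2 h1)).symm ▸ h2, h3⟩

theorem IsGraph.unique {V : List Ent → Prop} {f : List Ent → Set Tm} {v v' : ZFSet.{0}}
    (h : IsGraph V f v) (h' : IsGraph V f v') : v = v' :=
  ZFSet.ext fun z => (h z).trans (h' z).symm

theorem isGraph_graph {V : List Ent → Prop} (hV : Small.{0} {sp | V sp}) (f : List Ent → Set Tm) :
    IsGraph V f (graph V f) := by
  refine Classical.epsilon_spec (p := IsGraph V f) ?_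
  have : Small.{0} {p : List Ent × Tm | V p.1 ∧ p.2 ∈ f p.1} :=
    small_subset (s := {sp | V sp} ×ˢ (Set.univ : Set Tm)) fun p hp => ⟨hp.1, trivial⟩
  refine ⟨ZFSet.range fun p : {p : List Ent × Tm | V p.1 ∧ p.2 ∈ f p.1} => enc p.1.1 p.1.2,
    fun z => ?_⟩
  rw [ZFSet.mem_range]
  constructor
  · rintro ⟨⟨⟨sp, x⟩, h1, h2⟩, rfl⟩
    exact ⟨sp, x, h1, h2, rfl⟩
  · rintro ⟨sp, x, h1, h2, rfl⟩
    exact ⟨⟨(sp, x), h1, h2⟩, rfl⟩

theorem graph_congr {V : List Ent → Prop} {f g : List Ent → Set Tm}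
    (hf : ∀ sp, V sp → f sp = g sp) : graph V f = graph V g := by
  have : IsGraph V f = IsGraph V g := by
    funext v
    exact propext ⟨fun h => h.congr (fun _ => Iff.rfl) hf,
      fun h => h.congr (fun _ => Iff.rfl) fun sp hs => (hf sp hs).symm⟩
  unfold graph
  rw [this]

theorem small_graphs {V : List Ent → Prop} (hV : Small.{0} {sp | V sp}) :
    Small.{0} {v | ∃ f, IsGraph V f v} := by
  have hu := isGraph_graph hV fun _ => Set.univ
  have : Small.{0} ((ZFSet.powerset (graph V fun _ => Set.univ) : ZFSet.{0}) : Set ZFSet.{0}) :=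
    ZFSet.small_coe _
  refine small_subset (s := ((ZFSet.powerset (graph V fun _ => Set.univ) : ZFSet.{0}) : Set ZFSet.{0})) ?_
  rintro v ⟨f, hf⟩
  refine ZFSet.mem_powerset.2 fun z hz => ?_
  obtain ⟨sp, x, h1, -, h3⟩ := (hf z).1 hz
  exact (hu z).2 ⟨sp, x, h1, trivial, h3⟩

/-! ### generic spines -/

variable (P : Spec ℕ) (s₀ : ℕ)

/-- Complete spines whose entries have values in `W`. -/
def VSg (W : Tm → Tm → ZFSet.{0} → Prop) (π : Bool) : Tm → List Ent → Prop
  | K, [] => ∃ u, InS P s₀ u ∧ K = srt u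
  | K, e :: sp => ∃ A K₁, K = .pi A K₁ ∧ e.ki = A ∧ Normal e.tm ∧ HasT P e.tm A ∧
      e.pol = nrm P s₀ π A ∧ (∃ v, e.val = some v ∧ W e.tm A v) ∧ VSg W π (nf (inst e.tm K₁)) sp

/-- Graphs of candidate-valued functions on the spines. -/
def G (W : Tm → Tm → ZFSet.{0} → Prop) (π : Bool) (N K : Tm) (v : ZFSet.{0}) : Prop :=
  ∃ f, (∀ sp, VSg P s₀ W π K sp → Cand P (apps N (sp.map Ent.tm)) (f sp)) ∧
    IsGraph (VSg P s₀ W π K) f v

variable {P s₀}

theorem VSg.comp {W : Tm → Tm → ZFSet.{0} → Prop} {π : Bool} {sp : List Ent} :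
    ∀ {K : Tm}, VSg P s₀ W π K sp → Comp P s₀ K := by
  induction sp with
  | nil => rintro K ⟨u, h, rfl⟩; exact Comp.fin u h
  | cons e sp ih =>
    rintro K ⟨A, K₁, rfl, -, h2, h3, -, -, h6⟩
    exact Comp.step _ _ _ h2 h3 (ih h6)

theorem VSg.imp {W W' : Tm → Tm → ZFSet.{0} → Prop} {π π' : Bool} {sp : List Ent} :
    ∀ {K : Tm}, (∀ A, Dom P s₀ A K → nrm P s₀ π A = nrm P s₀ π' A ∧ ∀ N v, W N A v → W' N A v) →
      VSg P s₀ W π K sp → VSg P s₀ W' π' K sp := by
  induction sp with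
  | nil => exact fun _ h => h
  | cons e sp ih =>
    intro K hW h
    have hc := h.comp
    obtain ⟨A, K₁, rfl, h1, h2, h3, h4, ⟨v, h5, h5'⟩, h6⟩ := h
    have hA := hW A (Dom.here _ _ hc)
    exact ⟨A, K₁, rfl, h1, h2, h3, h4.trans hA.1, ⟨v, h5, hA.2 _ _ h5'⟩,
      ih (fun A' hA' => hW A' (Dom.there _ _ _ _ h2 h3 hA')) h6⟩

theorem VSg.mem {W : Tm → Tm → ZFSet.{0} → Prop} {π : Bool} {sp : List Ent} :
    ∀ {K : Tm}, VSg P s₀ W π K sp → ∀ e ∈ sp,
      e.pol = nrm P s₀ π e.ki ∧ ∃ v, e.val = some v ∧ W e.tm e.ki v := by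
  induction sp with
  | nil => intro K _ e he; simp at he
  | cons e sp ih =>
    rintro K ⟨A, K₁, rfl, rfl, h2, h3, h4, h5, h6⟩ e' he'
    rcases List.mem_cons.1 he' with rfl | he'
    · exact ⟨h4, h5⟩
    · exact ih h6 e' he'

theorem small_VSg {W : Tm → Tm → ZFSet.{0} → Prop} (hW : ∀ N A, Small.{0} {v | W N A v})
    (π : Bool) (K : Tm) : Small.{0} {sp | VSg P s₀ W π K sp} := by
  let T : Type 1 := Σ p : Tm × Tm × Bool, {v | W p.1 p.2.1 v}
  have : Small.{0} T := small_sigma _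
  let g : T → Ent := fun t => ⟨t.1.1, t.1.2.1, t.1.2.2, some t.2.1⟩
  refine small_subset (s := Set.range (List.map g : List T → List Ent)) fun sp hsp => ?_
  rw [Set.range_list_map]
  intro e he
  obtain ⟨-, v, h1, h2⟩ := VSg.mem hsp e he
  refine ⟨⟨(e.tm, e.ki, e.pol), v, h2⟩, ?_⟩
  cases e
  simp only [g] at h1 ⊢
  rw [h1]

theorem small_G {W : Tm → Tm → ZFSet.{0} → Prop} (hW : ∀ N A, Small.{0} {v | W N A v})
    (π : Bool) (N K : Tm) : Small.{0} {v | G P s₀ W π N K v} := by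
  have := small_graphs (small_VSg (P := P) (s₀ := s₀) hW π K)
  exact small_subset (s := {v | ∃ f, IsGraph (VSg P s₀ W π K) f v}) fun v ⟨f, _, hf⟩ => ⟨f, hf⟩

theorem G.congr {W W' : Tm → Tm → ZFSet.{0} → Prop} {π π' : Bool} {N K : Tm} {v : ZFSet.{0}}
    (h : ∀ sp, VSg P s₀ W π K sp ↔ VSg P s₀ W' π' K sp) (hG : G P s₀ W π N K v) :
    G P s₀ W' π' N K v := by
  obtain ⟨f, h1, h2⟩ := hG
  exact ⟨f, fun sp hs => h1 sp ((h sp).2 hs), h2.congr h fun _ _ => rfl⟩

/-! ### values of tame kinds -/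

theorem wf_dom (P : Spec ℕ) (s₀ : ℕ) :
    WellFounded fun A K : Tm => Dom P s₀ A K ∧ Tame P s₀ K := by
  refine ⟨fun K => Acc.intro _ fun A hA => ?_⟩
  have h : Tame P s₀ A := Acc.inv hA.2 hA.1
  clear hA
  induction h with
  | intro A _ ih => exact Acc.intro _ fun B hB => ih B hB.1

variable (P s₀)

noncomputable def VT' : Tm → Tm → ZFSet.{0} → Prop :=
  (wf_dom P s₀).fix fun K rc N v => G P s₀ (fun N' A v' => ∃ h, rc A h N' v') true N K v

/-- Values of the term `N` of the tame kind `K`. -/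
noncomputable def VT (N K : Tm) (v : ZFSet.{0}) : Prop := VT' P s₀ K N v

theorem VT_eq (N K : Tm) : VT P s₀ N K =
    G P s₀ (fun N' A v' => (Dom P s₀ A K ∧ Tame P s₀ K) ∧ VT P s₀ N' A v') true N K := by
  funext v
  unfold VT VT'
  rw [WellFounded.fix_eq]
  simp only [exists_prop]

theorem small_VT (N K : Tm) : Small.{0} {v | VT P s₀ N K v} := by
  induction K using (wf_dom P s₀).induction generalizing N with
  | _ K ih =>
    rw [VT_eq]
    refine small_G (fun N' A => ?_) _ _ _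
    by_cases h : Dom P s₀ A K ∧ Tame P s₀ K
    · have := ih A h N'
      exact small_subset (s := {v | VT P s₀ N' A v}) fun v hv => hv.2
    · have : Small.{0} (∅ : Set ZFSet.{0}) := small_empty
      exact small_subset (s := ∅) fun v hv => h hv.1

open Classical in
/-- `VT` on tame kinds, `X` on the others. -/
def W (X : Tm → Tm → ZFSet.{0} → Prop) (N A : Tm) (v : ZFSet.{0}) : Prop :=
  if Tame P s₀ A then VT P s₀ N A v else X N A v

variable {P s₀}

theorem W_tame {X : Tm → Tm → ZFSet.{0} → Prop} {A : Tm} (h : Tame P s₀ A) (N : Tm) (v : ZFSet.{0}) :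
    W P s₀ X N A v ↔ VT P s₀ N A v := by simp [W, h]

theorem W_wild {X : Tm → Tm → ZFSet.{0} → Prop} {A : Tm} (h : ¬ Tame P s₀ A) (N : Tm)
    (v : ZFSet.{0}) : W P s₀ X N A v ↔ X N A v := by simp [W, h]

theorem small_W {X : Tm → Tm → ZFSet.{0} → Prop} (hX : ∀ N A, Small.{0} {v | X N A v}) (N A : Tm) :
    Small.{0} {v | W P s₀ X N A v} := by
  by_cases h : Tame P s₀ A
  · simp only [W_tame h]; exact small_VT P s₀ N A
  · simp only [W_wild h]; exact hX N A

theorem nrm_tame {A : Tm} (h : Tame P s₀ A) (π : Bool) : nrm P s₀ π A = true := by simp [nrm, h]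

theorem nrm_wild {A : Tm} (h : ¬ Tame P s₀ A) (π : Bool) : nrm P s₀ π A = π := by simp [nrm, h]

theorem nrm_true (A : Tm) : nrm P s₀ true A = true := by simp [nrm]

/-- For tame kinds the spines do not depend on `X` and on the polarity. -/
theorem VSg_tame {K : Tm} (hK : Tame P s₀ K) (X X' : Tm → Tm → ZFSet.{0} → Prop) (π π' : Bool)
    (sp : List Ent) : VSg P s₀ (W P s₀ X) π K sp ↔ VSg P s₀ (W P s₀ X') π' K sp := by
  have key : ∀ (X X' : Tm → Tm → ZFSet.{0} → Prop) (π π' : Bool),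
      VSg P s₀ (W P s₀ X) π K sp → VSg P s₀ (W P s₀ X') π' K sp := by
    intro X X' π π'
    refine VSg.imp fun A hA => ?_
    have h : Tame P s₀ A := Acc.inv hK hA
    exact ⟨by rw [nrm_tame h, nrm_tame h], fun N v hv => (W_tame h N v).2 ((W_tame h N v).1 hv)⟩
  exact ⟨key _ _ _ _, key _ _ _ _⟩

theorem VT_iff {K : Tm} (hK : Tame P s₀ K) (X : Tm → Tm → ZFSet.{0} → Prop) (π : Bool) (N : Tm)
    (v : ZFSet.{0}) : VT P s₀ N K v ↔ G P s₀ (W P s₀ X) π N K v := by
  have key : ∀ sp, VSg P s₀ (fun N' A v' => (Dom P s₀ A K ∧ Tame P s₀ K) ∧ VT P s₀ N' A v') true K sp ↔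
      VSg P s₀ (W P s₀ X) π K sp := by
    intro sp
    constructor
    · refine VSg.imp fun A hA => ?_
      have h : Tame P s₀ A := Acc.inv hK hA
      exact ⟨by rw [nrm_tame h, nrm_tame h], fun N v hv => (W_tame h N v).2 hv.2⟩
    · refine VSg.imp fun A hA => ?_
      have h : Tame P s₀ A := Acc.inv hK hA
      exact ⟨by rw [nrm_tame h, nrm_tame h], fun N v hv => ⟨⟨hA, hK⟩, (W_tame h N v).1 hv⟩⟩
  rw [VT_eq]
  exact ⟨G.congr key, G.congr fun sp => (key sp).symm⟩

end Crest.Agent.R298.ValC
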