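import Crest.Agent.R298.Tame

/-! Row 298. Semantic values of type constructors: the interface. -/

set_option autoImplicit false

namespace Crest.Agent.R298
open Crest.LogicCS.PTS Crest.LogicCS.PTS.Term

/-- An entry of an environment or a spine: a closed normal term, its closed normal kind,
a polarity and (possibly) a value. -/
structure Ent : Type 1 where
  tm : Tm
  ki : Tm
  pol : Bool
  val : Option ZFSet.{0}

open Classical in
/-- Tame kinds are always given the polarity `true`. -/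
noncomputable def nrm (P : Spec ℕ) (s₀ : ℕ) (π : Bool) (A : Tm) : Bool :=
  if Tame P s₀ A then true else π

/-- The operations. `VS π K sp`: `sp` is a complete spine for the kind `K` whose entries have
polarity `π`. `mkE N A π f`: the entry for the term `N` of kind `A` at polarity `π` coding the
function `f` on spines. `ap e sp`: the value of `e` at a spine. `Rk r e`: if `e` is a valid
negative entry, it has rank at most `r`. -/
structure ValD : Type 1 where
  Valid : Ent → Prop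
  VS : Bool → Tm → List Ent → Prop
  mkE : Tm → Tm → Bool → (List Ent → Set Tm) → Ent
  ap : Ent → List Ent → Set Tm
  Rk : ℕ → Ent → Prop

/-- Equal, or positive entries of a non-tame kind agreeing on spines of rank at most `n`. -/
def ValD.Sim (V : ValD) (P : Spec ℕ) (s₀ : ℕ) (n : ℕ) (e e' : Ent) : Prop :=
  e = e' ∨ (e.tm = e'.tm ∧ e.ki = e'.ki ∧ e.pol = true ∧ e'.pol = true ∧ ¬ Tame P s₀ e.ki ∧
    V.Valid e ∧ V.Valid e' ∧
    ∀ sp, V.VS false e.ki sp → (∀ x ∈ sp, V.Rk n x) → V.ap e sp = V.ap e' sp)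

/-- `f` only depends on the restrictions of positive entries to rank `n`. -/
def ValD.Loc (V : ValD) (P : Spec ℕ) (s₀ : ℕ) (n : ℕ) (A : Tm) (f : List Ent → Set Tm) : Prop :=
  ∀ sp sp', V.VS true A sp → V.VS true A sp' → List.Forall₂ (V.Sim P s₀ n) sp sp' → f sp = f sp'

structure ValD.Ok (V : ValD) (P : Spec ℕ) (s₀ : ℕ) : Prop where
  vs_nil : ∀ π K, V.VS π K [] ↔ ∃ u, InS P s₀ u ∧ K = srt u
  vs_cons : ∀ π K e sp, V.VS π K (e :: sp) ↔ ∃ A K₁, K = .pi A K₁ ∧ e.ki = A ∧ Normal e.tm ∧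
    HasT P e.tm A ∧ e.pol = nrm P s₀ π A ∧ V.Valid e ∧ V.VS π (nf (inst e.tm K₁)) sp
  valid_val : ∀ e, V.Valid e → e.val ≠ none
  valid_pol : ∀ e, V.Valid e → Tame P s₀ e.ki → e.pol = true
  ap_cand : ∀ e sp, V.Valid e → V.VS (!e.pol) e.ki sp →
    Cand P (apps e.tm (sp.map Ent.tm)) (V.ap e sp)
  mk_tm : ∀ N A π f, (V.mkE N A π f).tm = N
  mk_ki : ∀ N A π f, (V.mkE N A π f).ki = A
  mk_pol : ∀ N A π f, (V.mkE N A π f).pol = nrm P s₀ π A
  mk_ext : ∀ N A π π' f g, nrm P s₀ π A = nrm P s₀ π' A → (∀ sp, V.VS (!π) A sp → f sp = g sp) →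
    V.mkE N A π f = V.mkE N A π' g
  mk_valid : ∀ N A π f, (∀ sp, V.VS (!π) A sp → Cand P (apps N (sp.map Ent.tm)) (f sp)) →
    V.Valid (V.mkE N A π f)
  ap_mk : ∀ N A π f sp, (nrm P s₀ π A = false → ∃ n, V.Loc P s₀ n A f) → V.VS (!π) A sp →
    V.ap (V.mkE N A π f) sp = f sp
  rk_mk : ∀ N A π f n, V.Loc P s₀ n A f → V.Rk (n + 1) (V.mkE N A π f)
  rk_pos : ∀ r e, e.pol = true → V.Rk r e
  rk_invalid : ∀ r e, ¬ V.Valid e → V.Rk r e
  rk_ex : ∀ e, ∃ r, V.Rk r e
  rk_mono : ∀ r r' e, r ≤ r' → V.Rk r e → V.Rk r' e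
  ap_loc : ∀ r e, V.Valid e → e.pol = false → V.Rk r e → V.Loc P s₀ r e.ki (V.ap e)

end Crest.Agent.R298
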